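import Crest.Statements.S0003
import Crest.Agent.R003.CSM
import Crest.Agent.R003.Fin
import Crest.Agent.R003.Arith2

set_option autoImplicit false
open Crest.NumberTheoryR.CharVarRel
open Crest Crest.NumberTheoryR

namespace Crest.Agent.S0003

/-- Let r ≥ 1, c_j ∈ SL_r(ℂ) (j < s) have all eigenvalues roots of unity, K ⊂ ℂ a number field containing them, p ≠ q primes greater than r, L = K(√2, pq-th roots of unity) with all r-th roots of all units of its integer ring adjoined. Among semisimple representations ρ of the genus-g, s-puncture surface group in SL_r(ℂ) with j-th boundary matrix conjugate to c_j, those with all integer invariants in L and integral over ℤ are Zariski dense: invariant polynomials vanishing there vanish at each ρ. -/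
theorem result (g s r : ℕ) (hr : 1 ≤ r)
    (c : Fin s → Matrix.SpecialLinearGroup (Fin r) ℂ) (hc : ∀ j, IsQuasiUnipotent (c j))
    (K : Subfield ℂ) (hK : FiniteDimensional ℚ K)
    (hcK : ∀ j, ∀ μ : ℂ, (c j).1.charpoly.IsRoot μ → μ ∈ K)
    (p q : ℕ) (hp : p.Prime) (hq : q.Prime) (hpq : p ≠ q) (hrp : r < p) (hrq : r < q)
    (f : MvPolynomial (RelVar g s r) ℂ) (hf : IsConjInvariantRel f)
    (hvan : ∀ T : RelGen g s → Matrix.SpecialLinearGroup (Fin r) ℂ, IsRelSurfaceRep g s r T →
      IsSemisimpleRep T → HasBoundaryClasses c T →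
      IsIntegrallyValuedIn (unitRootField (rootField K (p * q)) r) T → evalRep f T = 0)
    (T : RelGen g s → Matrix.SpecialLinearGroup (Fin r) ℂ) (hT : IsRelSurfaceRep g s r T)
    (hss : IsSemisimpleRep T) (hcl : HasBoundaryClasses c T) :
    evalRep f T = 0 := by
  refine Crest.Agent.R003.final_reduction g s r hr (rootField K (p * q)) (fun κ _ _ h => ?_) c hc
    (fun j μ hμ => Subfield.subset_closure (Or.inl (Or.inl (hcK j μ hμ)))) f hf hvan T hT hss hcl
  exact Crest.Agent.R003.flDense_all
    (Crest.Agent.R003.nice_rootField K hK p q r hp hq hpq hrp hrq) ℂ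
    (fun x y h => Subtype.ext (Subtype.ext h)) κ h

end Crest.Agent.S0003
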