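import Crest.Statements.S0013
import Crest.Agent.R012.BridgeFin

set_option autoImplicit false
open Filter Topology
open Crest Crest.NumberTheoryR

namespace Crest.Agent.S0013

/-- For a prime p let S(p) denote the cubic exponential sum ∑ over x mod p of exp(2πi·x³/p). As X tends to infinity through the natural numbers, the sum of S(p)/(2√p) over the primes p ≤ X with p ≡ 1 (mod 3), divided by X^(5/6)/log X, converges to (2π)^(2/3)/(5·Γ(2/3)). -/
theorem result :
    Tendsto (fun X : ℕ =>
      (∑ p ∈ (Nat.primesBelow (X + 1)).filter (fun p => p % 3 = 1),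
          (∑ x ∈ Finset.range p, Complex.exp (2 * Real.pi * Complex.I * ((x : ℂ) ^ 3 / (p : ℂ)))) /
            (2 * (Real.sqrt (p : ℝ) : ℂ))) /
        (((X : ℝ) ^ ((5 : ℝ) / 6) / Real.log (X : ℝ) : ℝ) : ℂ))
      atTop (𝓝 ((((2 * Real.pi) ^ ((2 : ℝ) / 3) / (5 * Real.Gamma (2 / 3)) : ℝ) : ℂ))) := by
  exact Crest.Agent.R012.bf_S0013

end Crest.Agent.S0013
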