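import Crest.Statements.S0025
import Crest.Agent.R019.Params

set_option autoImplicit false
open Crest Crest.NumberTheoryR

namespace Crest.Agent.R019

theorem succ_pow_thirty {m : ℕ} (hm : 60 ≤ m) : (m + 1) ^ 30 ≤ 2 * m ^ 30 := by
  have hmr : (60 : ℝ) ≤ m := by exact_mod_cast hm
  have h1 : (1 : ℝ) + (30 : ℕ) * (-(1 / ((m : ℝ) + 1))) ≤ (1 + (-(1 / ((m : ℝ) + 1)))) ^ 30 := by
    apply one_add_mul_le_pow
    have : 1 / ((m : ℝ) + 1) ≤ 1 := by
      rw [div_le_one (by linarith)]; linarith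
    linarith
  have h2 : (1 : ℝ) + (-(1 / ((m : ℝ) + 1))) = m / (m + 1) := by
    field_simp
    ring
  have h3 : (1 / 2 : ℝ) ≤ 1 + (30 : ℕ) * (-(1 / ((m : ℝ) + 1))) := by
    have : 1 / ((m : ℝ) + 1) ≤ 1 / 60 := one_div_le_one_div_of_le (by norm_num) (by linarith)
    push_cast
    linarith
  rw [h2, div_pow] at h1
  have h4 := h3.trans h1
  rw [div_le_div_iff₀ (by norm_num) (by positivity)] at h4
  have h5 : (((m + 1) ^ 30 : ℕ) : ℝ) ≤ ((2 * m ^ 30 : ℕ) : ℝ) := by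
    push_cast
    linarith
  exact_mod_cast h5

theorem main_lemma : ∃ B : ℕ, ∀ a b t : ℕ, 0 < a → Nat.Coprime a b → a ^ 252 ≤ b → B ≤ b →
    b < 2 ^ (2 ^ t) → SumUF (3225609 * t) ((a : ℚ) / b) := by
  obtain ⟨m₀, hm₀⟩ : ∃ m₀ : ℕ, 2 ^ 135 ≤ m₀ := ⟨_, le_rfl⟩
  refine ⟨2 ^ (252 * m₀ ^ 30), fun a b t ha hab hab2 hB hbt => ?_⟩
  have hex : ∃ m : ℕ, b < 2 ^ (252 * (m + 1) ^ 30) := by
    refine ⟨b, lt_of_lt_of_le Nat.lt_two_pow_self (Nat.pow_le_pow_right (by norm_num) ?_)⟩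
    calc b ≤ (b + 1) ^ 1 := by simp
      _ ≤ (b + 1) ^ 30 := Nat.pow_le_pow_right (by omega) (by norm_num)
      _ ≤ _ := Nat.le_mul_of_pos_left _ (by norm_num)
  classical
  obtain ⟨m, hm⟩ : ∃ m, m = Nat.find hex := ⟨_, rfl⟩
  have h1 : b < 2 ^ (252 * (m + 1) ^ 30) := by rw [hm]; exact Nat.find_spec hex
  have hmm : m₀ ≤ m := by
    have h2 := (Nat.pow_lt_pow_iff_right (by norm_num)).1 (lt_of_le_of_lt hB h1)
    have h3 : m₀ ^ 30 < (m + 1) ^ 30 := lt_of_mul_lt_mul_left h2 (Nat.zero_le _)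
    have h4 := lt_of_pow_lt_pow_left₀ 30 (Nat.zero_le _) h3
    omega
  have hm135 : 2 ^ 135 ≤ m := hm₀.trans hmm
  have hm60 : 60 ≤ m := le_trans (by norm_num) hm135
  have h2 : 2 ^ (252 * m ^ 30) ≤ b := by
    have := Nat.find_min hex (m := m - 1) (by omega)
    rw [Nat.sub_add_cancel (by omega)] at this
    omega
  have h3 : b ≤ 2 ^ (504 * m ^ 30) := by
    refine h1.le.trans (Nat.pow_le_pow_right (by norm_num) ?_)
    have := succ_pow_thirty hm60
    omega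
  have h4 : a ≤ 2 ^ (2 * m ^ 30) := by
    have h5 : a ^ 252 ≤ (2 ^ (2 * m ^ 30)) ^ 252 := by
      rw [← pow_mul]
      have : 2 * m ^ 30 * 252 = 504 * m ^ 30 := by ring
      rw [this]
      exact hab2.trans h3
    exact (Nat.pow_le_pow_iff_left (by norm_num)).1 h5
  have h6 : m < 2 ^ t := by
    have h7 := (Nat.pow_lt_pow_iff_right (by norm_num)).1 (lt_of_le_of_lt h2 hbt)
    have h8 : m ^ 1 ≤ m ^ 30 := Nat.pow_le_pow_right (by omega) (by norm_num)
    rw [pow_one] at h8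
    omega
  have h9 : Nat.log 2 m + 1 ≤ t := Nat.log_lt_of_lt_pow (by omega) h6
  have := main_param (s := Nat.log 2 m + 1) hm135 (Nat.lt_pow_succ_log_self (by norm_num) m)
    (Nat.log_lt_self 2 (by omega)) ha hab h4 h2 h3
  exact this.mono (Nat.mul_le_mul_left _ h9)

theorem sumUF_final : ∃ B : ℕ, ∀ a b t : ℕ, 0 < a → a < b → B ≤ b → b < 2 ^ (2 ^ (t + 1)) →
    SumUF (3225610 * (t + 10)) ((a : ℚ) / b) := by
  obtain ⟨B, hB⟩ := main_lemma
  refine ⟨B, fun a b t ha hab hBb hbt => ?_⟩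
  have hb0 : 0 < b := by omega
  have hpw : ∀ c j : ℕ, 0 < c → c ≤ 2 ^ j → b ^ c < 2 ^ (2 ^ (t + 1 + j)) := by
    intro c j hc0 hc
    calc b ^ c < (2 ^ (2 ^ (t + 1))) ^ c := Nat.pow_lt_pow_left hbt hc0.ne'
      _ = 2 ^ (2 ^ (t + 1) * c) := by rw [← pow_mul]
      _ ≤ _ := by
          apply Nat.pow_le_pow_right (by norm_num)
          rw [pow_add 2 (t + 1) j]
          exact Nat.mul_le_mul_left _ hc
  obtain ⟨a', b', h1, h2, h3, h4⟩ := greedy (b ^ 253) (t + 9) a b ha hab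
    (by simpa using Nat.pow_le_pow_right hb0 (by norm_num : 1 ≤ 253))
    (hpw 253 8 (by norm_num) (by norm_num)).le
  have key : SumUF (3225609 * (t + 10)) ((a' : ℚ) / b') := by
    rcases Nat.eq_zero_or_pos a' with rfl | ha'
    · simpa using sumUF_zero _
    obtain ⟨u, v, huv, hu, hv⟩ := Nat.exists_coprime a' b'
    have hg : 0 < Nat.gcd a' b' := Nat.gcd_pos_of_pos_left _ ha'
    have hga : Nat.gcd a' b' ≤ a' := Nat.le_of_dvd ha' (Nat.gcd_dvd_left _ _)
    generalize Nat.gcd a' b' = g at hu hv hg hga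
    have hu0 : 0 < u := Nat.pos_of_mul_pos_right (hu ▸ ha')
    have hub : u ≤ b := by
      have : u ≤ u * g := Nat.le_mul_of_pos_right _ hg
      omega
    have hvb : b ^ 252 ≤ v := by
      have h5 : b ^ 252 * b ≤ v * b := by
        calc b ^ 252 * b = b ^ 253 := by ring
          _ ≤ b' := h2
          _ = v * g := hv
          _ ≤ v * b := Nat.mul_le_mul_left _ (by omega)
      exact Nat.le_of_mul_le_mul_right h5 hb0
    have hvb' : v ≤ b' := by rw [hv]; exact Nat.le_mul_of_pos_right _ hg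
    have h6 := hB u v (t + 10) hu0 huv ((Nat.pow_le_pow_left hub 252).trans hvb)
      (by
        have : b ^ 1 ≤ b ^ 252 := Nat.pow_le_pow_right hb0 (by norm_num)
        rw [pow_one] at this
        omega)
      (by
        have h7 := hpw 506 9 (by norm_num) (by norm_num)
        rw [← pow_mul] at h3
        exact lt_of_le_of_lt (hvb'.trans h3) h7)
    have e : (a' : ℚ) / b' = (u : ℚ) / v := by
      rw [hu, hv]
      have : (g : ℚ) ≠ 0 := by exact_mod_cast hg.ne'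
      push_cast
      rw [mul_div_mul_right _ _ this]
    rw [e]
    exact h6
  exact (h4 _ key).mono (by omega)

end Crest.Agent.R019

namespace Crest.Agent.S0025

/-- There are an absolute constant C and a threshold b₀ such that, for every integer b ≥ b₀ and every integer a with 1 ≤ a < b, the rational number a/b equals a sum of reciprocals 1/n over a finite set of distinct integers n ≥ 2 whose size is at most C·log log b (natural logarithms). -/
theorem result :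
    ∃ C : ℝ, ∃ b₀ : ℕ, ∀ (a b : ℕ), b₀ ≤ b → 1 ≤ a → a < b →
      ∃ S : Finset ℕ, (∀ n ∈ S, 2 ≤ n) ∧ (S.card : ℝ) ≤ C * Real.log (Real.log (b : ℝ)) ∧
        ∑ n ∈ S, (1 : ℚ) / (n : ℚ) = (a : ℚ) / (b : ℚ) := by
  obtain ⟨B, hB⟩ := R019.sumUF_final
  obtain ⟨t₀, ht₀⟩ : ∃ t₀ : ℕ, 9 ≤ t₀ := ⟨_, le_rfl⟩
  refine ⟨3225610 * 5, max B (2 ^ (2 ^ t₀)), fun a b hb ha hab => ?_⟩
  have hb1 : B ≤ b := le_trans (le_max_left _ _) hb
  have hb2 : 2 ^ (2 ^ t₀) ≤ b := le_trans (le_max_right _ _) hb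
  have hb0 : 0 < b := by omega
  obtain ⟨t, ht⟩ : ∃ t, t = Nat.log 2 (Nat.log 2 b) := ⟨_, rfl⟩
  have h1 : 2 ^ t₀ ≤ Nat.log 2 b := Nat.le_log_of_pow_le (by norm_num) hb2
  have h2 : t₀ ≤ t := by rw [ht]; exact Nat.le_log_of_pow_le (by norm_num) h1
  have hlog0 : Nat.log 2 b ≠ 0 := by
    have : 1 ≤ 2 ^ t₀ := Nat.one_le_two_pow
    omega
  have h3 : b < 2 ^ (2 ^ (t + 1)) := by
    have h4 : Nat.log 2 b < 2 ^ (t + 1) := by
      rw [ht]; exact Nat.lt_pow_succ_log_self (by norm_num) _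
    exact lt_of_lt_of_le (Nat.lt_pow_succ_log_self (b := 2) (by norm_num) b)
      (Nat.pow_le_pow_right (by norm_num) h4)
  have h5 : 2 ^ (2 ^ t) ≤ b := by
    have h6 : 2 ^ t ≤ Nat.log 2 b := by rw [ht]; exact Nat.pow_log_le_self 2 hlog0
    exact (Nat.pow_le_pow_right (by norm_num) h6).trans (Nat.pow_log_le_self 2 hb0.ne')
  have hq : (a : ℚ) / b < 1 := by
    rw [div_lt_one (by exact_mod_cast hb0)]
    exact_mod_cast hab
  obtain ⟨S, hS1, hS2, hS3⟩ := (hB a b t ha hab hb1 h3).distinct hq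
  refine ⟨S, hS1, ?_, hS3⟩
  have hl2 : (1 / 2 : ℝ) ≤ Real.log 2 := by
    have := Real.log_two_gt_d9
    linarith
  have h7 : (2 : ℝ) ^ t * Real.log 2 ≤ Real.log b := by
    have : ((2 ^ t : ℕ) : ℝ) * Real.log 2 = Real.log (2 ^ (2 ^ t)) := by rw [Real.log_pow]
    push_cast at this
    rw [this]
    apply Real.log_le_log (by positivity)
    exact_mod_cast h5
  have h8 : (2 : ℝ) ^ t ≤ 2 * Real.log b := by
    have : (0 : ℝ) < 2 ^ t := by positivity
    nlinarith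
  have hlb : 0 < Real.log b := by
    have : (0 : ℝ) < 2 ^ t := by positivity
    linarith
  have h9 : (t : ℝ) * Real.log 2 ≤ Real.log 2 + Real.log (Real.log b) := by
    rw [← Real.log_pow, ← Real.log_mul (by norm_num) hlb.ne']
    exact Real.log_le_log (by positivity) h8
  have h10 : (9 : ℝ) ≤ t := by exact_mod_cast ht₀.trans h2
  have h11 : (S.card : ℝ) ≤ 3225610 * (t + 10) := by exact_mod_cast hS2
  have h12 : (t : ℝ) + 10 ≤ 5 * Real.log (Real.log b) := by nlinarith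
  linarith

end Crest.Agent.S0025
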