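import Crest.Statements.S0026
import Crest.Agent.R020.Apx
import Crest.Agent.R020.Fin

set_option autoImplicit false
open Filter Topology
open Crest Crest.NumberTheoryR

namespace Crest.Agent.S0026

/-- Let V(x) denote the number of natural numbers v ≤ x that are values of Euler's totient function at some positive integer. For every fixed real c > 0, the ratio V(c·x)/V(x) tends to c as x tends to infinity. -/
theorem result (c : ℝ) (hc : 0 < c) :
    Tendsto (fun x : ℝ =>
      (Set.ncard {v : ℕ | (v : ℝ) ≤ c * x ∧ ∃ n : ℕ, 0 < n ∧ Nat.totient n = v} : ℝ) /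
        (Set.ncard {v : ℕ | (v : ℝ) ≤ x ∧ ∃ n : ℕ, 0 < n ∧ Nat.totient n = v} : ℝ))
      atTop (𝓝 c) := by
  obtain ⟨ρ, h⟩ := R020.exists_root
  have h1 := R020.fin26 h R020.FF (fun ε hε => R020.apx h hε) hc
  have h2 := R020.scale_ratio h hc
  have h3 := h1.mul h2
  rw [one_mul] at h3
  refine h3.congr' ?_
  have hm : Tendsto (fun x : ℝ => c * x) atTop atTop := tendsto_id.const_mul_atTop hc
  filter_upwards [R020.tendsto_bigB.eventually_gt_atTop 0,
    (R020.tendsto_bigB.comp hm).eventually_gt_atTop 0, eventually_gt_atTop 1,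
    hm.eventually_gt_atTop 1] with x hx hx' h1x h1x'
  have hv := R020.Vol_pos (TotientScale.mIndex ρ x - 1) hx
  have hv' := R020.Vol_pos (TotientScale.mIndex ρ x - 1) hx'
  have hl := Real.log_pos h1x
  have hl' := Real.log_pos h1x'
  have hx0 : 0 < x := by linarith
  change _ = (TotientScale.totientCount (c * x) : ℝ) / (TotientScale.totientCount x : ℝ)
  unfold R020.FF
  simp only [Function.comp] at hv' ⊢
  by_cases h0 : (TotientScale.totientCount x : ℝ) = 0
  · simp [h0]
  · field_simp

end Crest.Agent.S0026
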