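import Crest.Statements.S0042
import Crest.Agent.R032.Final

set_option autoImplicit false
open Crest Crest.CombinatoricsR

namespace Crest.Agent.S0042

/-- There are real constants η > 0 and c > 0 and a threshold n₀ such that for every natural number n ≥ n₀ some n points of the closed unit square have the property that every triangle with three distinct vertices among them has area at least c · n ^ (-2 + η). The area of the triangle p q r is half the absolute value of the determinant of q - p and r - p. -/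
theorem result :
    ∃ η : ℝ, 0 < η ∧ ∃ c : ℝ, 0 < c ∧ ∃ n₀ : ℕ, ∀ n : ℕ, n₀ ≤ n →
      ∃ P : Finset (ℝ × ℝ), P.card = n ∧
        (∀ p ∈ P, 0 ≤ p.1 ∧ p.1 ≤ 1 ∧ 0 ≤ p.2 ∧ p.2 ≤ 1) ∧
        ∀ p ∈ P, ∀ q ∈ P, ∀ r ∈ P, p ≠ q → p ≠ r → q ≠ r →
          c * (n : ℝ) ^ (-2 + η) ≤ |(q.1 - p.1) * (r.2 - p.2) - (q.2 - p.2) * (r.1 - p.1)| / 2 := by
  obtain ⟨E, K, b0, hE, hK, hb0, h⟩ := Crest.Agent.R032.main
  have hE' : (0 : ℝ) < E := by exact_mod_cast hE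
  have hK' : (0 : ℝ) < K := by exact_mod_cast hK
  refine ⟨(E : ℝ)⁻¹, by positivity, 1 / K, by positivity, b0 ^ E, fun n hn => ?_⟩
  have h1 : Nat.nthRoot E n ^ E ≤ n := Nat.pow_nthRoot_le (Or.inl hE.ne')
  have h2 : n < (Nat.nthRoot E n + 1) ^ E := Nat.lt_pow_nthRoot_add_one hE.ne' n
  set b := Nat.nthRoot E n
  have h3 : b0 ≤ b := by
    have := lt_of_pow_lt_pow_left₀ E (Nat.zero_le _) (lt_of_le_of_lt hn h2)
    omega
  obtain ⟨P, hP1, hP2, hP3⟩ := h n b h3 h1 h2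
  refine ⟨P, hP1, hP2, fun p hp q hq r hr a1 a2 a3 => le_trans ?_ (hP3 p hp q hq r hr a1 a2 a3)⟩
  have hn0 : (0 : ℝ) < n := by exact_mod_cast lt_of_lt_of_le (pow_pos hb0 E) hn
  have h4 : (n : ℝ) ^ ((E : ℝ)⁻¹) ≤ b + 1 := by
    have h5 : (n : ℝ) ≤ ((b : ℝ) + 1) ^ E := by exact_mod_cast h2.le
    calc (n : ℝ) ^ ((E : ℝ)⁻¹) ≤ (((b : ℝ) + 1) ^ E) ^ ((E : ℝ)⁻¹) :=
          Real.rpow_le_rpow hn0.le h5 (by positivity)
      _ = b + 1 := Real.pow_rpow_inv_natCast (by positivity) hE.ne'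
  rw [Real.rpow_add hn0, Real.rpow_neg hn0.le, Real.rpow_two]
  calc 1 / (K : ℝ) * (((n : ℝ) ^ 2)⁻¹ * (n : ℝ) ^ ((E : ℝ)⁻¹)) ≤
        1 / (K : ℝ) * (((n : ℝ) ^ 2)⁻¹ * (b + 1)) := by gcongr
    _ = _ := by field_simp

end Crest.Agent.S0042
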