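import Crest.Statements.S0066
import Crest.Agent.R047.Few
import Crest.Agent.R047.Far

set_option autoImplicit false
open Crest Crest.CombinatoricsR

namespace Crest.Agent.S0066

open Crest.Agent.R047 in
lemma count_le {n m : ℕ} (A : Fin n → Fin n → Bool) (s : Fin m → Fin n × Fin n)
    (hs : ∀ R C : Fin 66 → Fin n, StrictMono R → StrictMono C → (∀ i j, A (R i) (C j) = H i j) →
      ∃ x, s x = (R 3, C 2)) :
    Crest.CombinatoricsR.OrderedMatrix.orderedCopyCount H A ≤ m * n ^ 130 := by
  classical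
  unfold Crest.CombinatoricsR.OrderedMatrix.orderedCopyCount
  choose g hg using hs
  have hcard : Fintype.card (Fin m × (Fin 65 → Fin n) × (Fin 65 → Fin n)) = m * n ^ 130 := by
    simp only [Fintype.card_prod, Fintype.card_fin, Fintype.card_pi, Finset.prod_const,
      Finset.card_univ]
    ring
  rw [← hcard]
  refine Fintype.card_le_of_injective
    (fun rc => (g rc.1.1 rc.1.2 rc.2.1 rc.2.2.1 rc.2.2.2,
      fun i => rc.1.1 ((3 : Fin 66).succAbove i), fun i => rc.1.2 ((2 : Fin 66).succAbove i))) ?_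
  rintro ⟨⟨R, C⟩, h1, h2, h3⟩ ⟨⟨R', C'⟩, h1', h2', h3'⟩ he
  simp only [Prod.mk.injEq] at he
  obtain ⟨e1, e2, e3⟩ := he
  have f1 := hg R C h1 h2 h3
  have f2 := hg R' C' h1' h2' h3'
  rw [e1, f2] at f1
  simp only [Prod.mk.injEq] at f1
  refine Subtype.ext (Prod.ext ?_ ?_)
  · funext i
    rcases Fin.eq_self_or_eq_succAbove (3 : Fin 66) i with rfl | ⟨j, rfl⟩
    · exact f1.1.symm
    · exact congrFun e2 j
  · funext i
    rcases Fin.eq_self_or_eq_succAbove (2 : Fin 66) i with rfl | ⟨j, rfl⟩
    · exact f1.2.symm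
    · exact congrFun e3 j

/-- There is a fixed 66 × 66 binary pattern H such that for every h ≥ 1, with n = (386h + 2) · 2^h and ε = (386h + 2)⁻², some n × n binary matrix A is ε-far from free of ordered copies of H (every n × n binary matrix without an ordered copy of H differs from A in at least ε · n² cells) while the number of ordered copies of H in A is at most ε · 2^(-h) · n^132. An ordered copy picks 66 rows and 66 columns in increasing order on which A coincides with H, zeros included. -/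
theorem result :
    ∃ H : Fin 66 → Fin 66 → Bool, ∀ h : ℕ, 1 ≤ h →
      ∃ A : Fin ((386 * h + 2) * 2 ^ h) → Fin ((386 * h + 2) * 2 ^ h) → Bool,
        (∀ B : Fin ((386 * h + 2) * 2 ^ h) → Fin ((386 * h + 2) * 2 ^ h) → Bool,
          Crest.CombinatoricsR.OrderedMatrix.orderedCopyCount H B = 0 →
            ((386 * (h : ℝ) + 2) ^ 2)⁻¹ * (((386 * h + 2) * 2 ^ h : ℕ) : ℝ) ^ 2 ≤
              ((Finset.univ.filter (fun rc : Fin ((386 * h + 2) * 2 ^ h) × Fin ((386 * h + 2) * 2 ^ h) =>
                A rc.1 rc.2 ≠ B rc.1 rc.2)).card : ℝ)) ∧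
        (Crest.CombinatoricsR.OrderedMatrix.orderedCopyCount H A : ℝ) /
            (((386 * h + 2) * 2 ^ h : ℕ) : ℝ) ^ 132 ≤
          ((386 * (h : ℝ) + 2) ^ 2)⁻¹ * (2 : ℝ)⁻¹ ^ h := by
  classical
  refine ⟨R047.H, fun h hh => ?_⟩
  let e : Fin ((386 * h + 2) * 2 ^ h) ≃o R047.Idx h := monoEquivOfFin _ (R047.card_Idx h)
  refine ⟨fun r c => decide (R047.Rel (e r) (e c)), fun B hB => ?_, ?_⟩
  · obtain ⟨f, hf, hd⟩ := R047.exists_inj hh (fun r c => B (e.symm r) (e.symm c) = true) (by
      rintro ⟨R, C, hR, hC, hRC⟩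
      unfold Crest.CombinatoricsR.OrderedMatrix.orderedCopyCount at hB
      rw [Fintype.card_eq_zero_iff] at hB
      refine hB.false ⟨(fun i => e.symm (R i), fun i => e.symm (C i)),
        e.symm.strictMono.comp hR, e.symm.strictMono.comp hC, fun i j => ?_⟩
      exact Bool.eq_iff_iff.2 (hRC i j))
    have hle : Fintype.card (Fin (2 ^ h) × Fin (2 ^ h)) ≤
        (Finset.univ.filter (fun rc : Fin ((386 * h + 2) * 2 ^ h) × Fin ((386 * h + 2) * 2 ^ h) =>
          decide (R047.Rel (e rc.1) (e rc.2)) ≠ B rc.1 rc.2)).card := by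
      rw [← Finset.card_univ]
      refine Finset.card_le_card_of_injOn (fun ω => (e.symm (f ω).1, e.symm (f ω).2)) ?_ ?_
      · intro ω _
        simp only [Finset.coe_filter, Finset.mem_univ, true_and, Set.mem_setOf_eq,
          OrderIso.apply_symm_apply]
        intro hc
        apply hd ω
        rw [← hc]
        simp
      · intro ω _ ω' _ he
        simp only [Prod.mk.injEq, EmbeddingLike.apply_eq_iff_eq] at he
        exact hf (Prod.ext he.1 he.2)
    simp only [Fintype.card_prod, Fintype.card_fin] at hle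
    have hle' : (((2 ^ h * 2 ^ h : ℕ)) : ℝ) ≤ _ := Nat.cast_le.2 hle
    refine le_trans (le_of_eq ?_) hle'
    push_cast
    have : (386 * (h : ℝ) + 2) ≠ 0 := by positivity
    field_simp
  · have hc := count_le (fun r c => decide (R047.Rel (e r) (e c)))
      (fun x => (e.symm (R047.special h x).1, e.symm (R047.special h x).2)) (by
        intro R C hR hC hRC
        obtain ⟨x, hx⟩ := R047.copy_special (fun i => e (R i)) (fun i => e (C i))
          (e.strictMono.comp hR) (e.strictMono.comp hC) (fun i j => by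
            rw [← hRC i j]; simp)
        exact ⟨x, by simp [hx]⟩)
    have hc' : (Crest.CombinatoricsR.OrderedMatrix.orderedCopyCount R047.H
        (fun r c => decide (R047.Rel (e r) (e c))) : ℝ) ≤
        ((2 ^ h * ((386 * h + 2) * 2 ^ h) ^ 130 : ℕ) : ℝ) := Nat.cast_le.2 hc
    have hpos : (0 : ℝ) < (((386 * h + 2) * 2 ^ h : ℕ) : ℝ) ^ 132 := by positivity
    rw [div_le_iff₀ hpos]
    refine le_trans hc' (le_of_eq ?_)
    have h1 : (((386 * h + 2) * 2 ^ h : ℕ) : ℝ) = (386 * (h : ℝ) + 2) * 2 ^ h := by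
      push_cast; ring
    rw [Nat.cast_mul, Nat.cast_pow, Nat.cast_pow, h1,
      show (132 : ℕ) = 130 + 2 from rfl, pow_add]
    generalize ((386 * (h : ℝ) + 2) * 2 ^ h) ^ 130 = W
    have : (386 * (h : ℝ) + 2) ≠ 0 := by positivity
    rw [inv_pow]
    push_cast
    field_simp

end Crest.Agent.S0066
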