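import Crest.Statements.S0069
import Crest.Agent.R050.Main
import Crest.Agent.R050.Comb

set_option autoImplicit false
open Crest Crest.CombinatoricsR

namespace Crest.Agent.S0069

/-- Some bounded subset of nine-dimensional Euclidean space with at least two points cannot be split into ten parts of strictly smaller diameter: however its points are assigned to ten classes, some class has diameter at least that of the whole set. -/
theorem result :
    ∃ S : Set (EuclideanSpace ℝ (Fin 9)), Bornology.IsBounded S ∧ S.Nontrivial ∧
      ∀ c : EuclideanSpace ℝ (Fin 9) → Fin 10, ∃ i : Fin 10,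
        Metric.diam S ≤ Metric.diam (S ∩ c ⁻¹' {i}) := by
  exact R050.borsuk_of_no_Col
    ⟨fun C => R050.comb C.Face C.hdown C.hpair C.hcover C.hdual C.hn1 C.hp3 C.hR⟩

end Crest.Agent.S0069
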