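import Crest.Statements.S0070
import Crest.Agent.R051.GM
import Crest.Agent.R051.Fin

set_option autoImplicit false
open Classical
open Crest Crest.CombinatoricsR

namespace Crest.Agent.S0070

/-- There are real constants ε₀ > 0 and C₀ such that for every natural number n ≥ 2, every natural number k with 1 ≤ k and 2k ≤ n, and every set Q of n points in the plane no three of which are collinear, the number of k-element subsets S of Q that are strictly separated from the rest of Q by a line (some a, b, c with (a, b) ≠ (0, 0), a·x + b·y + c < 0 on S and > 0 on Q outside S) is at most C₀ · n · (k + 1) ^ (1/3 - ε₀). -/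
theorem result :
    ∃ ε₀ : ℝ, 0 < ε₀ ∧ ∃ C₀ : ℝ, ∀ n : ℕ, 2 ≤ n → ∀ k : ℕ, 1 ≤ k → 2 * k ≤ n →
      ∀ Q : Finset (ℝ × ℝ), Q.card = n →
        (∀ p ∈ Q, ∀ q ∈ Q, ∀ r ∈ Q, p ≠ q → p ≠ r → q ≠ r →
          (q.1 - p.1) * (r.2 - p.2) - (q.2 - p.2) * (r.1 - p.1) ≠ 0) →
        (((Q.powersetCard k).filter (fun S => ∃ a b c : ℝ, (a ≠ 0 ∨ b ≠ 0) ∧
            (∀ p ∈ S, a * p.1 + b * p.2 + c < 0) ∧
            (∀ p ∈ Q, p ∉ S → 0 < a * p.1 + b * p.2 + c))).card : ℝ)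
          ≤ C₀ * (n : ℝ) * ((k : ℝ) + 1) ^ ((1 : ℝ) / 3 - ε₀) := by
  obtain ⟨C, hC⟩ := Crest.Agent.R051.gm
  obtain ⟨ε, h0, h1, C0, hC0, h⟩ := Crest.Agent.R051.kedges_bound_of C hC
  exact ⟨ε, h0, Crest.Agent.R051.ksets_of h0 h1 hC0 h⟩

end Crest.Agent.S0070
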