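import Crest.Statements.S0073
import Crest.Agent.R052.EmbMain

set_option autoImplicit false
open Crest Crest.CombinatoricsR

namespace Crest.Agent.S0073

/-- There are k ≥ 2 and L ≥ 1 such that for all n ≥ 2 and every simple graph H with an edge, on at most n vertices, the edges of H can be labelled by k labels so that each label class H_i (same vertex set) has p_c(H_i; n) ≤ L · q(H; n), unfolded: for some p ∈ [0, 1] at which the family of edge sets of K_n containing a copy of H has a cover of cost Σ p^(card S) ≤ 1/2, the binomial random graph on n vertices at edge probability min(1, L·p) contains a copy of H_i with probability ≥ 1/2. -/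
theorem result :
    ∃ k : ℕ, 2 ≤ k ∧ ∃ L : ℝ, 1 ≤ L ∧ ∀ n : ℕ, 2 ≤ n →
      ∀ (W : Type) [Fintype W] [DecidableEq W] (H : SimpleGraph W),
        Fintype.card W ≤ n → H ≠ ⊥ →
        ∃ c : H.edgeSet → Fin k, ∀ i : Fin k, ∃ p : ℝ, 0 ≤ p ∧ p ≤ 1 ∧
          (∃ C : Finset (Finset (Crest.CombinatoricsR.RandomGraph.EdgeSlot n)),
            (∀ A : Finset (Crest.CombinatoricsR.RandomGraph.EdgeSlot n),
              H.IsContained (Crest.CombinatoricsR.RandomGraph.edgeGraph A) → ∃ S ∈ C, S ⊆ A) ∧
            ∑ S ∈ C, p ^ S.card ≤ 1 / 2) ∧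
          1 / 2 ≤ Crest.CombinatoricsR.RandomGraph.gnpProb n (min 1 (L * p))
            {G | (Crest.CombinatoricsR.RandomGraph.pieceGraph H c i).IsContained G} := by
  classical
  refine ⟨Fintype.card Crest.Agent.R052.Emb.Lab, by simp, 4 * (16 ^ 64) ^ 2, by norm_num, ?_⟩
  intro n hn W _ _ H hW hH
  have hnr : (2 : ℝ) ≤ n := by exact_mod_cast hn
  have hex : ∃ j : ℕ, Crest.Agent.R052.Emb.Small n H ((1 / 2) ^ j) := by
    obtain ⟨j, hj⟩ := exists_pow_lt_of_lt_one (show 0 < 1 / (2 * (n : ℝ) ^ 2) by positivity)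
      (show (1 / 2 : ℝ) < 1 by norm_num)
    refine ⟨j, Crest.Agent.R052.Emb.small_single hH (by positivity)
      (pow_le_one₀ (by norm_num) (by norm_num)) ?_⟩
    rw [lt_div_iff₀ (by positivity)] at hj
    linarith
  set j := Nat.find hex with hj
  have hsm : Crest.Agent.R052.Emb.Small n H ((1 / 2) ^ j) := Nat.find_spec hex
  set p : ℝ := (1 / 2) ^ j with hp
  have hp0 : 0 < p := by positivity
  have hp1 : p ≤ 1 := pow_le_one₀ (by norm_num) (by norm_num)
  suffices h : ∃ c : H.edgeSet → Fin (Fintype.card Crest.Agent.R052.Emb.Lab), ∀ i,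
      1 / 2 ≤ Crest.CombinatoricsR.RandomGraph.gnpProb n (min 1 (4 * (16 ^ 64) ^ 2 * p))
        {G | (Crest.CombinatoricsR.RandomGraph.pieceGraph H c i).IsContained G} by
    obtain ⟨c, hc⟩ := h
    exact ⟨c, fun i => ⟨p, hp0.le, hp1, hsm, hc i⟩⟩
  by_cases hbig : 1 ≤ 4 * (16 ^ 64) ^ 2 * p
  · rw [min_eq_left hbig]
    exact Crest.Agent.R052.Emb.trivial_case (by simp) H hW
  · rw [min_eq_right (not_le.1 hbig).le]
    have hj0 : 0 < j := by
      by_contra hc
      have : j = 0 := by omega
      rw [this, pow_zero] at hp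
      rw [hp] at hbig
      exact hbig (by norm_num)
    have hns : ¬ Crest.Agent.R052.Emb.Small n H (2 * p) := by
      have h2 := Nat.find_min hex (m := j - 1) (by omega)
      have h3 : (1 / 2 : ℝ) ^ (j - 1) = 2 * p := by
        rw [hp]
        conv_rhs => rw [← Nat.sub_add_cancel hj0, pow_succ]
        ring
      rwa [h3] at h2
    have hp2 : 2 * p ≤ 1 := by
      push Not at hbig
      nlinarith
    have hn0 : 16 ^ 64 ≤ n := by
      by_contra hc
      have h2 : (n : ℝ) ≤ 16 ^ 64 := by exact_mod_cast (not_le.1 hc).le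
      refine hns (Crest.Agent.R052.Emb.small_single hH (by positivity) hp2 ?_)
      have h3 : (n : ℝ) ^ 2 ≤ (16 ^ 64) ^ 2 := by gcongr
      push Not at hbig
      nlinarith
    exact Crest.Agent.R052.Emb.main_case hn0 (by positivity) (not_le.1 hbig) (by positivity)
      (by nlinarith) hW hns

end Crest.Agent.S0073
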