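import Crest.Statements.S0074
import Crest.Agent.R053.Fam

set_option autoImplicit false
open Crest Crest.CombinatoricsR

namespace Crest.Agent.S0074

open Crest.Agent.R053

/-- The edge of the double ray at the vertex `z`: inner for `false`, outer for `true`. -/
def ed (z : ℤ) (b : Bool) : ℤ :=
  if 1 ≤ z then (if b = true then z else z - 1) else (if b = true then z - 1 else z)

/-- The distance of a vertex from the central edge. -/
def lev (z : ℤ) : ℕ := if 1 ≤ z then (z - 1).toNat else (-z).toNat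

theorem ed_bij (i : ℤ) : Function.Bijective fun p : ℤ × Bool => ed (2 * p.1 + i) p.2 := by
  constructor
  · rintro ⟨v, b⟩ ⟨w, c⟩ h
    simp only [ed] at h
    cases b <;> cases c <;> simp only [Prod.mk.injEq, and_true, and_false, reduceCtorEq,
      if_true, if_false] at h ⊢ <;> split_ifs at h <;> omega
  · intro n
    rcases Int.emod_two_eq_zero_or_one (n - i) with h | h
    · by_cases hn : 1 ≤ n
      · refine ⟨((n - i) / 2, true), ?_⟩
        simp only [ed, if_true]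
        split_ifs <;> omega
      · refine ⟨((n - i) / 2, false), ?_⟩
        simp only [ed, reduceCtorEq, if_false]
        split_ifs <;> omega
    · by_cases hn : 0 ≤ n
      · refine ⟨((n + 1 - i) / 2, false), ?_⟩
        simp only [ed, reduceCtorEq, if_false]
        split_ifs <;> omega
      · refine ⟨((n + 1 - i) / 2, true), ?_⟩
        simp only [ed, if_true]
        split_ifs <;> omega

/-- The labelling of the ground set seen from the vertices of parity `i`. -/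
noncomputable def lab (ψ : ℤ × Pt ≃ ℕ) (i : ℤ) : ℤ × (Bool × Pt) ≃ ℕ :=
  (Equiv.prodAssoc ℤ Bool Pt).symm.trans
    (((Equiv.ofBijective _ (ed_bij i)).prodCongr (Equiv.refl Pt)).trans ψ)

theorem lab_apply (ψ : ℤ × Pt ≃ ℕ) (i v : ℤ) (b : Bool) (p : Pt) :
    lab ψ i (v, (b, p)) = ψ (ed (2 * v + i) b, p) := rfl

theorem exists_pair : ∃ M₀ M₁ : Matroid ℕ, M₀.E = Set.univ ∧ M₁.E = Set.univ ∧ M₀.dual = M₀ ∧
    M₁.dual = M₁ ∧ ∀ I₀ I₁ : Set ℕ, M₀.Indep I₀ → M₁.Indep I₁ → I₀ ∪ I₁ ≠ Set.univ := by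
  obtain ⟨U, hU⟩ := exists_levels
  haveI : Nonempty Pt := ⟨⟨0, fun _ => true⟩⟩
  obtain ⟨ψ⟩ : Nonempty (ℤ × Pt ≃ ℕ) := nonempty_equiv_of_countable
  refine ⟨PM (lab ψ 0) fun v => U (lev (2 * v + 0)), PM (lab ψ 1) fun v => U (lev (2 * v + 1)),
    rfl, rfl, PM_dual _ _, PM_dual _ _, fun I₀ I₁ h₀ h₁ hI => ?_⟩
  obtain ⟨B₀, hB₀, hIB₀⟩ := h₀.exists_isBase_superset
  obtain ⟨B₁, hB₁, hIB₁⟩ := h₁.exists_isBase_superset
  rw [PM_isBase] at hB₀ hB₁
  let Bz : ℤ → Set ℕ := fun z => if z % 2 = 0 then B₀ else B₁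
  have hcov : ∀ z x, x ∈ Bz z ∨ x ∈ Bz (z + 1) := by
    intro z x
    have hx : x ∈ I₀ ∪ I₁ := hI ▸ Set.mem_univ x
    by_cases hz : z % 2 = 0
    · simp only [Bz, if_pos hz, if_neg (show ¬ (z + 1) % 2 = 0 by omega)]
      exact hx.imp (fun h => hIB₀ h) (fun h => hIB₁ h)
    · simp only [Bz, if_neg hz, if_pos (show (z + 1) % 2 = 0 by omega)]
      exact hx.symm.imp (fun h => hIB₁ h) (fun h => hIB₀ h)
  let T : ℤ → Set (Bool × Pt) := fun z => {q | ψ (ed z q.1, q.2) ∈ Bz z}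
  have hT : ∀ z, (U (lev z)).base (T z) := by
    intro z
    by_cases hz : z % 2 = 0
    · obtain ⟨v, rfl⟩ : ∃ v, z = 2 * v + 0 := ⟨z / 2, by omega⟩
      have : T (2 * v + 0) = pull (lab ψ 0) v B₀ := by
        ext ⟨b, p⟩
        simp only [T, Bz, if_pos hz, pull, Set.mem_ofPred_eq, lab_apply]
      rw [this]
      exact hB₀ v
    · obtain ⟨v, rfl⟩ : ∃ v, z = 2 * v + 1 := ⟨z / 2, by omega⟩
      have : T (2 * v + 1) = pull (lab ψ 1) v B₁ := by
        ext ⟨b, p⟩
        simp only [T, Bz, if_neg hz, pull, Set.mem_ofPred_eq, lab_apply]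
      rw [this]
      exact hB₁ v
  refine hU (fun k => T (k + 1)) (fun k => T (-k)) (fun k => ?_) (fun k => ?_) (fun k p => ?_)
    (fun k p => ?_) (fun p => ?_)
  · have h1 : lev (k + 1) = k := by
      unfold lev
      split_ifs <;> omega
    have := hT (k + 1)
    rwa [h1] at this
  · have h1 : lev (-k) = k := by
      unfold lev
      split_ifs <;> omega
    have := hT (-k)
    rwa [h1] at this
  · have h1 : ed ((k : ℤ) + 1) true = k + 1 := by
      simp only [ed, if_true]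
      split_ifs <;> omega
    have h2 : ed (((k + 1 : ℕ) : ℤ) + 1) false = k + 1 := by
      simp only [ed, reduceCtorEq, if_false]
      split_ifs <;> omega
    simp only [T, Set.mem_ofPred_eq, h1, h2]
    exact hcov _ _
  · have h1 : ed (-(k : ℤ)) true = -k - 1 := by
      simp only [ed, if_true]
      split_ifs <;> omega
    have h2 : ed (-((k + 1 : ℕ) : ℤ)) false = -k - 1 := by
      simp only [ed, reduceCtorEq, if_false]
      split_ifs <;> omega
    simp only [T, Set.mem_ofPred_eq, h1, h2]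
    have := (hcov (-((k + 1 : ℕ) : ℤ)) (ψ (-k - 1, p))).symm
    rwa [show -((k + 1 : ℕ) : ℤ) + 1 = -k by omega] at this
  · have h1 : ed (((0 : ℕ) : ℤ) + 1) false = 0 := by decide
    have h2 : ed (-((0 : ℕ) : ℤ)) false = 0 := by decide
    simp only [T, Set.mem_ofPred_eq, h1, h2]
    exact (hcov 0 (ψ (0, p))).symm

/-- There are two matroids M₀, M₁ on the whole of ℕ (a countably infinite ground set), each equal to its own dual on the same labelled ground set, such that no independent set of M₀ together with an independent set of M₁ covers ℕ, and the pair has no packing/covering partition: no splitting ℕ = P ⊔ C allows disjoint S₀, S₁ ⊆ P with Sᵢ spanning the restriction of Mᵢ to P, and sets I₀, I₁ with union C, Iᵢ independent in the contraction of Mᵢ onto C (the complement of C contracted). -/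
theorem result :
    ∃ M₀ M₁ : Matroid ℕ, M₀.E = Set.univ ∧ M₁.E = Set.univ ∧ M₀.dual = M₀ ∧ M₁.dual = M₁ ∧
      (∀ I₀ I₁ : Set ℕ, M₀.Indep I₀ → M₁.Indep I₁ → I₀ ∪ I₁ ≠ Set.univ) ∧
      ¬ ∃ P C S₀ S₁ I₀ I₁ : Set ℕ, P ∪ C = Set.univ ∧ Disjoint P C ∧
          S₀ ⊆ P ∧ S₁ ⊆ P ∧ Disjoint S₀ S₁ ∧
          (M₀.restrict P).closure S₀ = P ∧ (M₁.restrict P).closure S₁ = P ∧
          I₀ ⊆ C ∧ I₁ ⊆ C ∧ (M₀.contract Cᶜ).Indep I₀ ∧ (M₁.contract Cᶜ).Indep I₁ ∧
          I₀ ∪ I₁ = C := by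
  obtain ⟨M₀, M₁, e₀, e₁, d₀, d₁, h⟩ := exists_pair
  refine ⟨M₀, M₁, e₀, e₁, d₀, d₁, h, ?_⟩
  rintro ⟨P, C, S₀, S₁, I₀, I₁, hPC, hdj, hS₀, hS₁, hS, c₀, c₁, -, -, i₀, i₁, hI⟩
  refine h _ _ (indep_of_partition M₀ e₀ d₀ P C S₀ I₀ hPC hdj hS₀ c₀ i₀)
    (indep_of_partition M₁ e₁ d₁ P C S₁ I₁ hPC hdj hS₁ c₁ i₁) ?_
  refine Set.eq_univ_of_forall fun x => ?_
  have hx : x ∈ P ∪ C := hPC ▸ Set.mem_univ x
  rcases hx with hx | hx
  · by_cases h0 : x ∈ S₀
    · exact Or.inr (Or.inl ⟨hx, fun h1 => Set.disjoint_left.1 hS h0 h1⟩)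
    · exact Or.inl (Or.inl ⟨hx, h0⟩)
  · rw [← hI] at hx
    exact hx.imp Or.inr Or.inr

end Crest.Agent.S0074
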