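import Crest.Statements.S0077
import Crest.Agent.R056.Final
import Crest.Agent.R056.Threshold

set_option autoImplicit false
open Crest Crest.CombinatoricsR

namespace Crest.Agent.S0077

/-- Let n ≥ 2 and let P be a family of simple graphs on n labelled vertices that is invariant under renaming vertices, closed under adding edges, non-empty and not everything; let 0 < ε < 1/2. If the binomial random graph with edge probability p ∈ [0, 1] lies in P with probability at least ε, then at every edge probability q ∈ [0, 1] with q ≥ p + 2^19 · log(1/(2ε)) / (log n)² it lies in P with probability at least 1 - ε: the threshold interval from ε to 1 - ε is at most that long. -/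
theorem result (n : ℕ) (hn : 2 ≤ n)
    (P : Set (SimpleGraph (Fin n)))
    (hsymm : ∀ σ : Equiv.Perm (Fin n), ∀ G : SimpleGraph (Fin n), G ∈ P → G.map σ.toEmbedding ∈ P)
    (hmono : ∀ G G' : SimpleGraph (Fin n), G ≤ G' → G ∈ P → G' ∈ P)
    (hne : P.Nonempty) (hnu : P ≠ Set.univ) (ε : ℝ) (hε0 : 0 < ε) (hε : ε < 1 / 2)
    (p q : ℝ) (hp0 : 0 ≤ p) (hp1 : p ≤ 1) (hq0 : 0 ≤ q) (hq1 : q ≤ 1)
    (hp : ε ≤ Crest.CombinatoricsR.RandomGraph.gnpProb n p P)
    (hq : p + 2 ^ 19 / Real.log n ^ 2 * Real.log (1 / (2 * ε)) ≤ q) :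
    1 - ε ≤ Crest.CombinatoricsR.RandomGraph.gnpProb n q P := by
  classical
  let f : (RandomGraph.EdgeSlot n → Bool) → Bool := fun ω => decide (RandomGraph.graphOf ω ∈ P)
  let s : RandomGraph.EdgeSlot n → Finset (Fin n) := fun e => e.1.toFinset
  have hs : Function.Injective s := by
    intro e e' h
    apply Subtype.ext
    apply Sym2.ext
    intro v
    rw [← Sym2.mem_toFinset, ← Sym2.mem_toFinset]
    exact Iff.of_eq (congrArg (v ∈ ·) h)
  have hr : ∀ e, (s e).card = 2 := fun e => Sym2.card_toFinset_of_not_isDiag e.1 e.2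
  have hadj : ∀ (ω : RandomGraph.EdgeSlot n → Bool) (a b : Fin n),
      (RandomGraph.graphOf ω).Adj a b ↔ ∃ h : ¬ (s(a, b) : Sym2 (Fin n)).IsDiag,
        ω ⟨s(a, b), h⟩ = true := by
    intro ω a b
    unfold RandomGraph.graphOf
    rw [SimpleGraph.fromEdgeSet_adj]
    constructor
    · exact fun h => h.1
    · rintro ⟨h, h'⟩
      exact ⟨⟨h, h'⟩, by simpa using h⟩
  have hsym : Crest.Agent.R056.SwapSymm s f := by
    intro u w
    let σ := Equiv.swap u w
    let τ : RandomGraph.EdgeSlot n → RandomGraph.EdgeSlot n :=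
      fun e => ⟨e.1.map σ, by rw [Sym2.isDiag_map σ.injective]; exact e.2⟩
    have hinv : Function.Involutive τ := by
      intro e
      apply Subtype.ext
      simp only [τ, Sym2.map_map]
      have : (σ : Fin n → Fin n) ∘ σ = id := by funext v; simp [σ]
      rw [this, Sym2.map_id]; rfl
    have hgraph : ∀ x : RandomGraph.EdgeSlot n → Bool,
        RandomGraph.graphOf (x ∘ τ) = (RandomGraph.graphOf x).map σ.toEmbedding := by
      intro x
      ext a b
      rw [SimpleGraph.map_adj, hadj]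
      constructor
      · rintro ⟨h, h'⟩
        refine ⟨σ a, σ b, (hadj x _ _).2 ⟨(τ ⟨s(a, b), h⟩).2, h'⟩, ?_, ?_⟩ <;> simp [σ]
      · rintro ⟨a', b', h, rfl, rfl⟩
        obtain ⟨h1, h2⟩ := (hadj x _ _).1 h
        refine ⟨(τ ⟨s(a', b'), h1⟩).2, ?_⟩
        have := hinv ⟨s(a', b'), h1⟩
        show x (τ (τ ⟨s(a', b'), h1⟩)) = true
        rw [this]; exact h2
    have himp : ∀ x : RandomGraph.EdgeSlot n → Bool,
        RandomGraph.graphOf x ∈ P → RandomGraph.graphOf (x ∘ τ) ∈ P := by
      intro x hx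
      rw [hgraph]; exact hsymm σ _ hx
    refine ⟨hinv.toPerm, ?_, ?_⟩
    · intro e v
      show v ∈ (e.1.map σ).toFinset ↔ σ v ∈ e.1.toFinset
      rw [Sym2.mem_toFinset, Sym2.mem_toFinset, Sym2.mem_map]
      constructor
      · rintro ⟨a, ha, rfl⟩
        simpa [σ] using ha
      · intro h
        exact ⟨σ v, h, by simp [σ]⟩
    · intro x
      show decide (RandomGraph.graphOf (x ∘ τ) ∈ P) = decide (RandomGraph.graphOf x ∈ P)
      rw [decide_eq_decide]
      refine ⟨fun h => ?_, himp x⟩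
      have := himp _ h
      have h2 : (x ∘ τ) ∘ τ = x := by funext e; simp [hinv e]
      rwa [h2] at this
  have hfm : ∀ x e, f (Function.update x e false) = true → f (Function.update x e true) = true := by
    intro x e h
    simp only [f, decide_eq_true_eq] at h ⊢
    refine hmono _ _ ?_ h
    intro a b hab
    obtain ⟨h1, h2⟩ := (hadj _ _ _).1 hab
    refine (hadj _ _ _).2 ⟨h1, ?_⟩
    by_cases he : (⟨s(a, b), h1⟩ : RandomGraph.EdgeSlot n) = e
    · rw [he]; simp
    · rw [Function.update_of_ne he] at h2 ⊢; exact h2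
  have e1 : ∀ t, RandomGraph.gnpProb n t P
      = Crest.Agent.Lib.BiasedCube.Ex t (Crest.Agent.Lib.BiasedCube.ind f) := by
    intro t
    unfold RandomGraph.gnpProb
    rw [Crest.Agent.Lib.BiasedCube.bernoulliProb_eq_Ex]
    refine Crest.Agent.Lib.BiasedCube.Ex_congr t fun x => ?_
    simp [Crest.Agent.Lib.BiasedCube.ind, f]
  have hn' : (1 : ℝ) < n := by exact_mod_cast (by omega : 1 < n)
  have hL : 0 < Real.log n ^ 2 := pow_pos (Real.log_pos hn') 2
  rw [e1] at hp ⊢
  refine Crest.Agent.R056.threshold_ode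
    (fun t => Crest.Agent.Lib.BiasedCube.Ex t (Crest.Agent.Lib.BiasedCube.ind f))
    (fun t => ∑ e, Crest.Agent.Lib.BiasedCube.Inf t f e) (2 ^ 17 / Real.log n ^ 2) (by positivity)
    (Crest.Agent.Lib.BiasedCube.continuous_Ex _)
    (fun t h0 h1 => Crest.Agent.Lib.BiasedCube.hasDerivAt_Ex_ind h0 h1 f hfm)
    (fun t h0 h1 => Finset.sum_nonneg fun e _ =>
      Crest.Agent.Lib.BiasedCube.Inf_nonneg h0.le h1.le f e)
    ?_ ε hε0 hε p q hp0 hq1 hp ?_
  · intro t h0 h1
    have main := Crest.Agent.R056.var_mul_log_le (n := n) (r := 2) hn le_rfl h0 h1 hs hr hsym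
    have h2 : (((2 : ℕ) : ℝ) / (((2 : ℕ) : ℝ) - 1)) = 2 := by norm_num
    rw [h2, Real.rpow_two] at main
    rw [div_mul_eq_mul_div, le_div_iff₀ hL]
    have hI : 0 ≤ ∑ e, Crest.Agent.Lib.BiasedCube.Inf t f e := Finset.sum_nonneg fun e _ =>
      Crest.Agent.Lib.BiasedCube.Inf_nonneg h0.le h1.le f e
    refine main.trans (mul_le_mul_of_nonneg_right (by norm_num) hI)
  · refine le_trans (le_of_eq ?_) hq
    ring

end Crest.Agent.S0077
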