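import Crest.Statements.S0078
import Crest.Agent.R056.Final

set_option autoImplicit false
open Crest Crest.CombinatoricsR

namespace Crest.Agent.S0078

/-- For every r ≥ 3 there is a real constant C such that for all n ≥ r, all 0 < p < 1 and every Boolean function f of the simple r-uniform hypergraph on n labelled vertices that is invariant under renaming the vertices (no monotonicity assumed), the variance of f under independent edge-coins of bias p, namely P(f = true) · (1 - P(f = true)), is at most C · (log n)^(-r/(r-1)) times the total pivotal influence of f at bias p (natural logarithm). -/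
theorem result (r : ℕ) (hr : 3 ≤ r) :
    ∃ C : ℝ, ∀ n : ℕ, r ≤ n → ∀ p : ℝ, 0 < p → p < 1 →
      ∀ f : (Crest.CombinatoricsR.HypergraphCube.HyperedgeSlot n r → Bool) → Bool,
        Crest.CombinatoricsR.HypergraphCube.IsSymmetric f →
          Crest.CombinatoricsR.HypergraphCube.probTrue p f *
              (1 - Crest.CombinatoricsR.HypergraphCube.probTrue p f) ≤
            C / Real.log n ^ ((r : ℝ) / ((r : ℝ) - 1)) *
              Crest.CombinatoricsR.HypergraphCube.totalInfluence p f := by
  refine ⟨1024 * r, fun n hn p h0 h1 f hf => ?_⟩
  have hsym : Crest.Agent.R056.SwapSymm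
      (fun e : HypergraphCube.HyperedgeSlot n r => e.1) f := by
    intro u w
    have hinv : Function.Involutive
        (HypergraphCube.relabelSlot (n := n) (r := r) (Equiv.swap u w)) := by
      intro e
      apply Subtype.ext
      ext v
      simp [HypergraphCube.relabelSlot, Finset.mem_map_equiv]
    refine ⟨hinv.toPerm, ?_, fun x => hf (Equiv.swap u w) x⟩
    intro e v
    simp [HypergraphCube.relabelSlot, Finset.mem_map_equiv]
  have main := Crest.Agent.R056.var_mul_log_le (n := n) (r := r) (by omega) (by omega) h0 h1
    (s := fun e : HypergraphCube.HyperedgeSlot n r => e.1) Subtype.val_injective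
    (fun e => e.2) hsym
  have e1 : HypergraphCube.probTrue p f
      = Crest.Agent.Lib.BiasedCube.Ex p (Crest.Agent.Lib.BiasedCube.ind f) := by
    unfold HypergraphCube.probTrue
    rw [Crest.Agent.Lib.BiasedCube.bernoulliProb_eq_Ex]
    rfl
  have e2 : HypergraphCube.totalInfluence p f = ∑ e, Crest.Agent.Lib.BiasedCube.Inf p f e := by
    unfold HypergraphCube.totalInfluence
    refine Finset.sum_congr rfl fun e _ => ?_
    unfold HypergraphCube.pivotalInfluence
    rw [Crest.Agent.Lib.BiasedCube.bernoulliProb_eq_Ex]
    rfl
  have hn' : (1 : ℝ) < n := by exact_mod_cast (by omega : 1 < n)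
  have hL : 0 < Real.log n ^ ((r : ℝ) / ((r : ℝ) - 1)) :=
    Real.rpow_pos_of_pos (Real.log_pos hn') _
  rw [e1, e2, div_mul_eq_mul_div, le_div_iff₀ hL]
  exact main

end Crest.Agent.S0078
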