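import Crest.Statements.S0084
import Crest.Agent.R062.Final
import Crest.Agent.R062.Alg

set_option autoImplicit false
open Classical
open scoped Matrix
open Crest Crest.CombinatoricsR

namespace Crest.Agent.S0084

/-- For every d ≥ 3 there are a threshold n₀ and a polynomial-time map F on bit strings such that for every even n ≥ n₀, reading the output of F on the unary string of length n as an n × n adjacency bit matrix gives a simple d-regular graph on n vertices all of whose adjacency eigenvalues on the space orthogonal to the constant vector lie strictly between -2√(d-1) and 2√(d-1): for every non-zero real vector x with zero coordinate sum, the absolute value of xᵀ A x is less than 2√(d-1) · xᵀ x. -/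
theorem result (d : ℕ) (hd : 3 ≤ d) :
    ∃ n₀ : ℕ, ∃ F : List Bool → List Bool, Crest.Complexity.PolyTime F ∧
      ∀ n : ℕ, n₀ ≤ n → Even n →
        (Crest.CombinatoricsR.GraphCode.adjGraph n
            (F (Crest.CombinatoricsR.GraphCode.unary n))).IsRegularOfDegree d ∧
        ∀ x : Fin n → ℝ, ∑ i, x i = 0 → x ≠ 0 →
          |x ⬝ᵥ ((Crest.CombinatoricsR.GraphCode.adjGraph n
              (F (Crest.CombinatoricsR.GraphCode.unary n))).adjMatrix ℝ *ᵥ x)| <
            2 * Real.sqrt ((d : ℝ) - 1) * (x ⬝ᵥ x) := by
  obtain ⟨n₀, hn₀⟩ := R062.exists_big hd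
  refine ⟨n₀, R062.algo d, R062.polyTime_algo d, fun n hn he => ?_⟩
  have h := hn₀ n hn
  have hd0 : 0 < d := by omega
  obtain ⟨hp, hs, hq⟩ := h.final_spec he
  have e : R062.algo d (GraphCode.unary n) = R062.outBits d n (R062.final d n) := by
    simp [R062.algo, GraphCode.unary]
  rw [e]
  refine ⟨R062.regular_outBits hd0 hp hs, fun x hx hx0 => ?_⟩
  rw [R062.form_outBits hd0 hp hs]
  have h1 := hq 1 (Or.inl rfl) x hx
  have h2 := hq (-1) (Or.inr rfl) x hx
  have hpos : 0 < x ⬝ᵥ x := by
    have h0 : 0 ≤ x ⬝ᵥ x := Finset.sum_nonneg fun i _ => mul_self_nonneg _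
    rcases h0.lt_or_eq with h | h
    · exact h
    · exact absurd (dotProduct_self_eq_zero.1 h.symm) hx0
  have h3 := mul_lt_mul_of_pos_right h.theta_lt hpos
  push_cast at h1 h2
  rw [abs_lt]
  constructor <;> linarith

end Crest.Agent.S0084
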