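import Crest.Statements.S0085
import Crest.Agent.R063.Step2

set_option autoImplicit false
open Crest Crest.CombinatoricsR

namespace Crest.Agent.S0085

/-- For every real C > 0 there are a natural number n, a Boolean function f on the n-dimensional Boolean cube and a natural number d such that: f is non-constant; every Fourier–Walsh coefficient of f (values and inputs read as signs +1 for true and -1 for false, averaged over the uniform cube) indexed by a set of more than d coordinates vanishes, so f has degree at most d; and the sum of the n singleton Fourier–Walsh coefficients of f exceeds C times the square root of d. -/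
theorem result (C : ℝ) (hC : 0 < C) :
    ∃ n : ℕ, ∃ f : (Fin n → Bool) → Bool, ∃ d : ℕ,
      (∃ x y, f x ≠ f y) ∧
      (∀ S : Finset (Fin n), d < S.card →
        ∑ x : Fin n → Bool, ((if f x then (1 : ℝ) else -1) * ∏ i ∈ S, (if x i then (1 : ℝ) else -1)) = 0) ∧
      C * Real.sqrt d <
        ∑ i : Fin n, (∑ x : Fin n → Bool, ((if f x then (1 : ℝ) else -1) * (if x i then (1 : ℝ) else -1))) / 2 ^ n := by
  classical
  obtain ⟨Ω, _, _, d, f, hdeg, hlt⟩ := Crest.Agent.R063.exists_boolean C hC
  let ι := Crest.Agent.R063.Cube.ι Ω
  let σ : ι ≃ Fin (Fintype.card ι) := Fintype.equivFin ι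
  let E : Ω ≃ (Fin (Fintype.card ι) → Bool) :=
    Crest.Agent.R063.Cube.e.trans (Equiv.arrowCongr σ (Equiv.refl Bool))
  have hE : ∀ (x : Ω) (i : ι), E x (σ i) = Crest.Agent.R063.Cube.e x i := by
    intro x i; simp [E]
  have hcard : (Fintype.card Ω : ℝ) = 2 ^ Fintype.card ι := by
    rw [Fintype.card_congr E]; simp
  refine ⟨Fintype.card ι, fun y => f (E.symm y), d, ?_, ?_, ?_⟩
  · by_contra hne
    push Not at hne
    have h1 : ∀ x, f x = f (Classical.arbitrary Ω) := fun x => by
      simpa using hne (E x) (E (Classical.arbitrary Ω))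
    simp only [h1] at hlt
    rw [Crest.Agent.R063.ex_mul_left, Crest.Agent.R063.ex_L, mul_zero] at hlt
    have := Real.sqrt_nonneg (d : ℝ)
    nlinarith
  · intro S hS
    have h1 := Crest.Agent.R063.fourier_zero hdeg (S.map σ.symm.toEmbedding) (by simpa using hS)
    rw [← h1, ← Equiv.sum_comp E]
    refine Finset.sum_congr rfl fun x _ => ?_
    simp only [Finset.prod_map, E.symm_apply_apply]
    congr 1
  · refine hlt.trans_le (le_of_eq ?_)
    rw [← Finset.sum_div, Finset.sum_comm, ← hcard, ← Equiv.sum_comp E]
    unfold Crest.Agent.R063.ex Crest.Agent.R063.L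
    congr 1
    refine Finset.sum_congr rfl fun x _ => ?_
    simp only [E.symm_apply_apply]
    rw [Finset.mul_sum, ← Equiv.sum_comp σ]
    refine Finset.sum_congr rfl fun i _ => ?_
    rw [hE]
    rfl

end Crest.Agent.S0085
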