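import Crest.Statements.S0094
import Crest.Agent.R071.Core
import Crest.Agent.R071.Sample

set_option autoImplicit false
open Pointwise Crest.AnalysisR
open Crest Crest.AnalysisR

namespace Crest.Agent.S0094

/-- For all real a, b ≥ 1 there are n ≥ 1 and a compact convex set K in Euclidean n-space with nonempty interior, symmetric about 0, such that, with L the cube of points having all coordinates in [-1, 1] and polars taken for the standard inner product (the y pairing to at most 1 with each point of the set): some m translates of a⁻¹ • (polar of K) cover the polar of L, while any k translates of L covering K satisfy b * log m < log k. So log N(K, L) > b log N(L°, a⁻¹K°) for covering numbers N. -/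
theorem result
    (a b : ℝ) (ha : 1 ≤ a) (hb : 1 ≤ b) :
    ∃ n : ℕ, 0 < n ∧ ∃ K : Set (EuclideanSpace ℝ (Fin n)),
      Convex ℝ K ∧ IsCompact K ∧ (interior K).Nonempty ∧ (∀ x ∈ K, -x ∈ K) ∧
      ∃ t₁ : Finset (EuclideanSpace ℝ (Fin n)),
        polarSet {x : EuclideanSpace ℝ (Fin n) | ∀ i, |x i| ≤ 1} ⊆ ⋃ y ∈ t₁, (y +ᵥ a⁻¹ • polarSet K) ∧
        ∀ t₂ : Finset (EuclideanSpace ℝ (Fin n)),
          K ⊆ ⋃ x ∈ t₂, (x +ᵥ {z : EuclideanSpace ℝ (Fin n) | ∀ i, |z i| ≤ 1}) →
          b * Real.log t₁.card < Real.log t₂.card := by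
  classical
  have ha0 : 0 < a := by linarith
  obtain ⟨m, k, X, W, _, _, f, hX, hm, hk, hW, hR, hS, hlog⟩ :=
    Crest.Agent.R071.core0 (1 / (24 * a)) b (by positivity) hb
  set n := Fintype.card X with hn
  have : Nonempty (Fin n) := ⟨⟨0, hX⟩⟩
  let e : X ≃ Fin n := Fintype.equivFin X
  let g : W → Fin n → ℝ := fun w i => f w (e.symm i)
  let F : W → EuclideanSpace ℝ (Fin n) := fun w => WithLp.toLp 2 (g w)
  let S : Set (EuclideanSpace ℝ (Fin n)) :=
    Set.range fun p : W × Bool => (R071.sg p.2 * 3) • F p.1
  let η : ℝ := 1 / (4 * a)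
  have hη : 0 < η := by positivity
  have hSne : S.Nonempty := Set.range_nonempty _
  have hSneg : -S = S := by
    ext x
    simp only [Set.mem_neg, S, Set.mem_range]
    constructor
    · rintro ⟨⟨w, β⟩, h⟩
      refine ⟨(w, !β), ?_⟩
      simp only [R071.sg_not, neg_mul, neg_smul] at h ⊢
      rw [h, neg_neg]
    · rintro ⟨⟨w, β⟩, h⟩
      refine ⟨(w, !β), ?_⟩
      simp only [R071.sg_not, neg_mul, neg_smul] at h ⊢
      rw [h]
  let z : (Fin m → Fin n × Bool) → EuclideanSpace ℝ (Fin n) := fun ω =>
    (m : ℝ)⁻¹ • ∑ i, EuclideanSpace.single (ω i).1 (R071.sg (ω i).2)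
  have hm' : (0 : ℝ) < m := by exact_mod_cast hm
  have hz : ∀ ω, ‖z ω‖ ≤ 1 := by
    intro ω
    simp only [z]
    rw [norm_smul, norm_inv, Real.norm_natCast, inv_mul_le_iff₀ hm', mul_one]
    refine (norm_sum_le _ _).trans ?_
    refine (Finset.sum_le_sum (g := fun _ => (1 : ℝ)) fun i _ => ?_).trans (by simp)
    rcases R071.sg_cases (ω i).2 with h | h <;> simp [h]
  refine ⟨n, hX, convexHull ℝ S + Metric.closedBall 0 η,
    (convex_convexHull ℝ S).add (convex_closedBall _ _),
    ((Set.finite_range _).isCompact_convexHull ℝ).add (isCompact_closedBall _ _), ?_, ?_,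
    Finset.univ.image z, ?_, ?_⟩
  · refine Set.Nonempty.mono (interior_maximal
      (Set.add_subset_add_left Metric.ball_subset_closedBall) Metric.isOpen_ball.add_left) ?_
    exact (hSne.mono (subset_convexHull ℝ S)).add ⟨0, Metric.mem_ball_self hη⟩
  · rintro _ ⟨x, hx, y, hy, rfl⟩
    refine ⟨-x, ?_, -y, by simpa using hy, by simp [add_comm]⟩
    rw [← hSneg, convexHull_neg]
    simpa using hx
  · intro y hy
    have hy1 : ∑ i, |y i| ≤ 1 := by
      have := hy (WithLp.toLp 2 fun i => if 0 ≤ y i then (1 : ℝ) else -1) (by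
        intro i
        by_cases h : 0 ≤ y i <;> simp [h])
      refine le_trans (le_of_eq ?_) this
      rw [PiLp.inner_apply]
      refine Finset.sum_congr rfl fun i _ => ?_
      by_cases h : 0 ≤ y i
      · simp [h, abs_of_nonneg h]
      · simp [h, abs_of_neg (not_le.1 h)]
    have hy2 : ‖y‖ ≤ 1 := by
      rw [← sq_le_one_iff₀ (norm_nonneg _), EuclideanSpace.real_norm_sq_eq]
      refine le_trans (Finset.sum_le_sum fun i _ => ?_) hy1
      have h1 : |y i| ≤ 1 := (Finset.single_le_sum (f := fun i => |y i|)
        (fun _ _ => abs_nonneg _) (Finset.mem_univ i)).trans hy1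
      rw [← sq_abs]
      nlinarith [abs_nonneg (y i)]
    obtain ⟨ω, hω⟩ := R071.sample g m hm (1 / (24 * a))
      (fun x w => hR (fun i => e.symm (x i)) w) (fun i => y i) hy1
    simp only [Set.mem_iUnion]
    refine ⟨z ω, Finset.mem_image_of_mem _ (Finset.mem_univ _), ?_⟩
    refine ⟨a⁻¹ • (a • (y - z ω)), ⟨a • (y - z ω), ?_, rfl⟩, ?_⟩
    · rintro _ ⟨x, hx, x', hx', rfl⟩
      have h1 : inner ℝ x (y - z ω) ≤ 1 / (2 * a) := by
        have hconv : Convex ℝ {x : EuclideanSpace ℝ (Fin n) | inner ℝ x (y - z ω) ≤ 1 / (2 * a)} :=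
          convex_halfSpace_le ⟨fun _ _ => inner_add_left _ _ _, fun _ _ => real_inner_smul_left _ _ _⟩ _
        refine convexHull_min ?_ hconv hx
        rintro _ ⟨⟨w, β⟩, rfl⟩
        have e1 : inner ℝ (F w) (y - z ω)
            = ∑ x, g w x * y x - (∑ i, R071.sg (ω i).2 * g w (ω i).1) / m := by
          rw [inner_sub_right]
          congr 1
          · rw [PiLp.inner_apply]
            simp [F, mul_comm]
          · simp only [z]
            rw [inner_smul_right, inner_sum, div_eq_inv_mul]
            simp [EuclideanSpace.inner_single_right, F]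
        have e2 := hω w
        rw [← e1, abs_le] at e2
        have e3 : 4 * (1 / (24 * a)) * 3 = 1 / (2 * a) := by field_simp; norm_num
        show inner ℝ ((R071.sg β * 3) • F w) (y - z ω) ≤ 1 / (2 * a)
        rw [real_inner_smul_left]
        rcases R071.sg_cases β with h | h <;> rw [h] <;> linarith [e2.1, e2.2]
      have h2 : inner ℝ x' (y - z ω) ≤ 1 / (2 * a) := by
        refine (real_inner_le_norm _ _).trans ?_
        have b1 : ‖x'‖ ≤ η := by simpa using hx'
        have b2 : ‖y - z ω‖ ≤ 2 := (norm_sub_le _ _).trans (by linarith [hz ω])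
        refine (mul_le_mul b1 b2 (norm_nonneg _) hη.le).trans (le_of_eq ?_)
        simp only [η]
        field_simp
        norm_num
      show inner ℝ (x + x') (a • (y - z ω)) ≤ 1
      rw [real_inner_smul_right, inner_add_left]
      calc a * (inner ℝ x (y - z ω) + inner ℝ x' (y - z ω)) ≤ a * (1 / (2 * a) + 1 / (2 * a)) :=
            mul_le_mul_of_nonneg_left (add_le_add h1 h2) ha0.le
        _ = 1 := by field_simp; norm_num
    · simp [smul_smul, inv_mul_cancel₀ ha0.ne']
  · intro t₂ ht₂
    have h1 : ∀ w : W, ∃ c ∈ t₂, ∀ i, |3 * g w i - c i| ≤ 1 := by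
      intro w
      have hmem : (3 : ℝ) • F w ∈ convexHull ℝ S + Metric.closedBall 0 η :=
        ⟨(3 : ℝ) • F w, subset_convexHull ℝ S ⟨(w, true), by simp [R071.sg]⟩, 0,
          Metric.mem_closedBall_self hη.le, by simp⟩
      have := ht₂ hmem
      simp only [Set.mem_iUnion] at this
      obtain ⟨c, hc, u, hu, h⟩ := this
      refine ⟨c, hc, fun i => ?_⟩
      have h' : c i + u i = 3 * g w i := by
        have := congrArg (fun v : EuclideanSpace ℝ (Fin n) => v i) h
        simpa [F] using this
      rw [← h', add_sub_cancel_left]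
      exact hu i
    choose c hc hc' using h1
    have h2 := Finset.card_le_mul_card_image_of_maps_to (s := (Finset.univ : Finset W)) (t := t₂)
      (f := c) (fun w _ => hc w) k (fun d _ => hS _ (fun w hw w' hw' x => by
        rw [Finset.mem_filter] at hw hw'
        have a1 := hc' w (e x)
        have a2 := hc' w' (e x)
        rw [hw.2] at a1
        rw [hw'.2] at a2
        simp only [g, Equiv.symm_apply_apply] at a1 a2
        rw [abs_le] at a1 a2
        rw [abs_lt]
        constructor <;> linarith [a1.1, a1.2, a2.1, a2.2]))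
    rw [Finset.card_univ] at h2
    have hk' : (0 : ℝ) < k := by exact_mod_cast hk
    have hW' : 0 < Fintype.card W := Fintype.card_pos
    have ht : 0 < t₂.card := by
      rcases Nat.eq_zero_or_pos t₂.card with h | h
      · rw [h] at h2; omega
      · exact h
    have h3 : Real.log (Fintype.card W) ≤ Real.log k + Real.log t₂.card := by
      rw [← Real.log_mul hk'.ne' (by exact_mod_cast ht.ne')]
      exact Real.log_le_log (by exact_mod_cast hW') (by exact_mod_cast h2)
    have h4 : Real.log (Finset.univ.image z).card ≤ m * Real.log (2 * n) := by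
      rw [← Real.log_pow]
      refine Real.log_le_log ?_ ?_
      · exact_mod_cast (Finset.univ_nonempty.image z).card_pos
      · have := Finset.card_image_le (s := Finset.univ) (f := z)
        simp only [Finset.card_univ, Fintype.card_fun, Fintype.card_prod, Fintype.card_fin,
          Fintype.card_bool] at this
        rw [mul_comm] at this
        exact_mod_cast this
    have h5 := mul_le_mul_of_nonneg_left h4 (by linarith : 0 ≤ b)
    linarith

end Crest.Agent.S0094
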