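import Crest.Statements.S0096
import Crest.Agent.R072.Transfer

set_option autoImplicit false
open Crest Crest.AnalysisR

namespace Crest.Agent.S0096

open MeasureTheory Filter Crest.Agent.R072
open scoped ENNReal Topology

theorem count_scale (n : ℕ) (F G : ℝ × ℝ → ℂ) {s : ℝ} (hs : s ≠ 0) :
    annulusCount n (fun z => (s : ℂ) * F z) (fun z => ((s⁻¹ : ℝ) : ℂ) * G z) =
      annulusCount n F G := by
  have h : ∀ ε R z, annularTriangularHT (fun z => (s : ℂ) * F z)
      (fun z => ((s⁻¹ : ℝ) : ℂ) * G z) ε R z = annularTriangularHT F G ε R z := by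
    intro ε R z
    unfold annularTriangularHT
    congr 1
    funext t
    have hs' : (s : ℂ) ≠ 0 := by exact_mod_cast hs
    congr 1
    push_cast
    field_simp
  funext z
  simp only [annulusCount, h]

theorem lint_cube (F : ℝ × ℝ → ℂ) : ∫⁻ z, ‖F z‖ₑ ^ 3 = eLpNorm F 3 volume ^ 3 := by
  rw [eLpNorm_eq_lintegral_rpow_enorm_toReal (by norm_num) (by norm_num), ← ENNReal.rpow_natCast,
    ← ENNReal.rpow_mul]
  norm_num

theorem lint_cube_mul (F : ℝ × ℝ → ℂ) {s : ℝ} (hs : 0 ≤ s) :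
    ∫⁻ z, ‖(s : ℂ) * F z‖ₑ ^ 3 = (ENNReal.ofReal s * eLpNorm F 3 volume) ^ 3 := by
  rw [mul_pow, ← lint_cube, ← lintegral_const_mul' _ _ (by finiteness)]
  refine lintegral_congr fun z => ?_
  rw [enorm_mul, mul_pow]
  congr 2
  rw [← ofReal_norm, Complex.norm_real, Real.norm_of_nonneg hs]

theorem meas_case {c : ℝ} (hc0 : 0 ≤ c) {n : ℕ}
    (hc : ∀ F G : ℝ × ℝ → ℂ, Measurable F → Measurable G →
      ∫⁻ z, annulusCount n F G z ^ (3 / 2 : ℝ) ≤
        ENNReal.ofReal ((c * √n) ^ (3 / 2 : ℝ)) * ((∫⁻ z, ‖F z‖ₑ ^ 3) + ∫⁻ z, ‖G z‖ₑ ^ 3))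
    {F G : ℝ × ℝ → ℂ} (hF : Measurable F) (hG : Measurable G)
    (hF3 : eLpNorm F 3 volume ≠ ⊤) (hG3 : eLpNorm G 3 volume ≠ ⊤) :
    (∫⁻ z, annulusCount n F G z ^ (3 / 2 : ℝ)) ^ (2 / 3 : ℝ) ≤
      ENNReal.ofReal (2 * c * √n) * eLpNorm F 3 volume * eLpNorm G 3 volume := by
  set P := (eLpNorm F 3 volume).toReal with hP
  set Q := (eLpNorm G 3 volume).toReal with hQ
  have hP0 : 0 ≤ P := ENNReal.toReal_nonneg
  have hQ0 : 0 ≤ Q := ENNReal.toReal_nonneg
  have hFP : eLpNorm F 3 volume = ENNReal.ofReal P := (ENNReal.ofReal_toReal hF3).symm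
  have hGQ : eLpNorm G 3 volume = ENNReal.ofReal Q := (ENNReal.ofReal_toReal hG3).symm
  have hk : 0 ≤ c * √n := by positivity
  have key : ∀ δ : ℝ, 0 < δ → (∫⁻ z, annulusCount n F G z ^ (3 / 2 : ℝ)) ^ (2 / 3 : ℝ) ≤
      ENNReal.ofReal (2 * c * √n * (P + δ) * (Q + δ)) := by
    intro δ hδ
    obtain ⟨p, hp0, hp⟩ : ∃ p : ℝ, 0 < p ∧ p ^ 2 = P + δ :=
      ⟨√(P + δ), Real.sqrt_pos.2 (by linarith), Real.sq_sqrt (by linarith)⟩
    obtain ⟨q, hq0, hq⟩ : ∃ q : ℝ, 0 < q ∧ q ^ 2 = Q + δ :=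
      ⟨√(Q + δ), Real.sqrt_pos.2 (by linarith), Real.sq_sqrt (by linarith)⟩
    have hs : 0 < q / p := by positivity
    have h1 := hc (fun z => ((q / p : ℝ) : ℂ) * F z) (fun z => (((q / p)⁻¹ : ℝ) : ℂ) * G z)
      (hF.const_mul _) (hG.const_mul _)
    rw [count_scale n F G hs.ne', lint_cube_mul F hs.le, lint_cube_mul G (inv_pos.2 hs).le,
      hFP, hGQ, ← ENNReal.ofReal_mul hs.le, ← ENNReal.ofReal_mul (inv_pos.2 hs).le] at h1
    have h2 : q / p * P ≤ p * q := by
      calc q / p * P ≤ q / p * p ^ 2 := by gcongr; linarith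
        _ = p * q := by field_simp
    have h3 : (q / p)⁻¹ * Q ≤ p * q := by
      calc (q / p)⁻¹ * Q ≤ (q / p)⁻¹ * q ^ 2 := by gcongr; linarith
        _ = p * q := by field_simp
    have h4 : ∫⁻ z, annulusCount n F G z ^ (3 / 2 : ℝ) ≤
        ENNReal.ofReal ((2 * c * √n * (P + δ) * (Q + δ)) ^ (3 / 2 : ℝ)) := by
      refine h1.trans ?_
      calc ENNReal.ofReal ((c * √n) ^ (3 / 2 : ℝ)) *
            (ENNReal.ofReal (q / p * P) ^ 3 + ENNReal.ofReal ((q / p)⁻¹ * Q) ^ 3)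
          ≤ ENNReal.ofReal ((c * √n) ^ (3 / 2 : ℝ)) *
            (ENNReal.ofReal (p * q) ^ 3 + ENNReal.ofReal (p * q) ^ 3) := by gcongr
        _ = ENNReal.ofReal ((c * √n) ^ (3 / 2 : ℝ) * (2 * (p * q) ^ 3)) := by
            rw [← ENNReal.ofReal_pow (by positivity),
              ← ENNReal.ofReal_add (by positivity) (by positivity),
              ← ENNReal.ofReal_mul (by positivity)]
            congr 2; ring
        _ ≤ _ := by
            refine ENNReal.ofReal_le_ofReal ?_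
            have e1 : 2 * c * √n * (P + δ) * (Q + δ) = (c * √n) * (2 * (p * q) ^ 2) := by
              rw [← hp, ← hq]; ring
            have e2 : ((p * q) ^ 2) ^ (3 / 2 : ℝ) = (p * q) ^ 3 := by
              rw [← Real.rpow_natCast, ← Real.rpow_mul (by positivity), ← Real.rpow_natCast]
              norm_num
            have e3 : (2 : ℝ) ≤ 2 ^ (3 / 2 : ℝ) := by
              conv_lhs => rw [← Real.rpow_one 2]
              exact Real.rpow_le_rpow_of_exponent_le (by norm_num) (by norm_num)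
            rw [e1, Real.mul_rpow hk (by positivity),
              Real.mul_rpow (x := 2) (by norm_num) (by positivity), e2]
            gcongr
    refine (ENNReal.rpow_le_rpow h4 (by norm_num)).trans (le_of_eq ?_)
    rw [ENNReal.ofReal_rpow_of_nonneg (by positivity) (by norm_num),
      ← Real.rpow_mul (by positivity)]
    norm_num
  have hlim : Tendsto (fun δ : ℝ => ENNReal.ofReal (2 * c * √n * (P + δ) * (Q + δ))) (𝓝[>] 0)
      (𝓝 (ENNReal.ofReal (2 * c * √n * (P + 0) * (Q + 0)))) := by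
    refine tendsto_nhdsWithin_of_tendsto_nhds (ENNReal.continuous_ofReal.continuousAt.tendsto.comp ?_)
    exact Continuous.tendsto (by fun_prop) 0
  have h := ge_of_tendsto hlim (eventually_mem_nhdsWithin.mono fun δ hδ => key δ hδ)
  rw [hFP, hGQ, ← ENNReal.ofReal_mul (by positivity), ← ENNReal.ofReal_mul (by positivity)]
  simpa using h

/-- There is an absolute constant C such that for every integer n ≥ 1 and all complex F, G on ℝ × ℝ in L³ (Lebesgue measure), the disjoint-annulus count annulusCount n F G (pointwise supremum of ∑_j ‖B_{ε_j,R_j}(F,G)‖ over at most n rational annuli 0 < ε_j < R_j with pairwise disjoint open intervals, B the truncated triangular Hilbert transform) has L^{3/2} quasi-norm (∫ S^{3/2})^{2/3} at most C √n log(2+n) ‖F‖₃ ‖G‖₃. -/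
theorem result :
    ∃ C : ℝ, ∀ n : ℕ, 1 ≤ n → ∀ F G : ℝ × ℝ → ℂ,
      MeasureTheory.MemLp F 3 MeasureTheory.volume → MeasureTheory.MemLp G 3 MeasureTheory.volume →
        (∫⁻ z, Crest.AnalysisR.annulusCount n F G z ^ (3 / 2 : ℝ)) ^ (2 / 3 : ℝ) ≤
          ENNReal.ofReal (C * Real.sqrt n * Real.log (2 + n)) * MeasureTheory.eLpNorm F 3 MeasureTheory.volume *
            MeasureTheory.eLpNorm G 3 MeasureTheory.volume := by
  obtain ⟨c, hc0, hc⟩ := cont_add
  refine ⟨2 * c, fun n hn F G hF hG => ?_⟩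
  have h := meas_case hc0 (hc n hn) hF.1.measurable_mk hG.1.measurable_mk
    (by rw [← eLpNorm_congr_ae hF.1.ae_eq_mk]; exact hF.2.ne)
    (by rw [← eLpNorm_congr_ae hG.1.ae_eq_mk]; exact hG.2.ne)
  rw [← eLpNorm_congr_ae hF.1.ae_eq_mk, ← eLpNorm_congr_ae hG.1.ae_eq_mk] at h
  have h2 : ∫⁻ z, annulusCount n F G z ^ (3 / 2 : ℝ) =
      ∫⁻ z, annulusCount n (hF.1.mk F) (hG.1.mk G) z ^ (3 / 2 : ℝ) := by
    refine lintegral_congr_ae ?_
    filter_upwards [annulusCount_congr_ae hF.1.ae_eq_mk hG.1.ae_eq_mk] with z hz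
    rw [hz n]
  rw [h2]
  refine h.trans ?_
  have hlog : 1 ≤ Real.log (2 + n) := by
    rw [Real.le_log_iff_exp_le (by positivity)]
    have h1 : (1 : ℝ) ≤ n := by exact_mod_cast hn
    have := Real.exp_one_lt_d9
    linarith
  have h3 : 2 * c * √(n : ℝ) ≤ 2 * c * √(n : ℝ) * Real.log (2 + n) :=
    le_mul_of_one_le_right (by positivity) hlog
  exact mul_le_mul_left (mul_le_mul_left (ENNReal.ofReal_le_ofReal h3) _) _

end Crest.Agent.S0096
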