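import Crest.Statements.S0099
import Crest.Agent.R074.Main

set_option autoImplicit false
open Crest Crest.AnalysisR

namespace Crest.Agent.S0099

/-- Let X and Y be nonzero real Banach spaces and let f be a surjective distance-preserving map from the unit sphere of X onto the unit sphere of Y. Then there is a surjective real-linear isometry T from X to Y that agrees with f on the unit sphere, and every real-linear map from X to Y that agrees with f on the unit sphere coincides with T. -/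
theorem result
    {X Y : Type*} [NormedAddCommGroup X] [NormedSpace ℝ X] [CompleteSpace X] [Nontrivial X]
    [NormedAddCommGroup Y] [NormedSpace ℝ Y] [CompleteSpace Y] [Nontrivial Y]
    (f : Metric.sphere (0 : X) 1 → Metric.sphere (0 : Y) 1) (hf₁ : Isometry f)
    (hf₂ : Function.Surjective f) :
    ∃ T : X ≃ₗᵢ[ℝ] Y, (∀ x : Metric.sphere (0 : X) 1, T x = f x) ∧
      ∀ T' : X →ₗ[ℝ] Y, (∀ x : Metric.sphere (0 : X) 1, T' x = f x) → ∀ x : X, T' x = T x := by
  classical
  let g : Metric.sphere (0 : Y) 1 → Metric.sphere (0 : X) 1 := Function.surjInv hf₂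
  let F : X → Y := fun x => if h : ‖x‖ = 1 then (f ⟨x, by simpa using h⟩ : Y) else 0
  let G : Y → X := fun y => if h : ‖y‖ = 1 then (g ⟨y, by simpa using h⟩ : X) else 0
  have hFe : ∀ x : Metric.sphere (0 : X) 1, F x = f x := by
    intro x
    have hx : ‖(x : X)‖ = 1 := by simpa using x.2
    simp only [F, dif_pos hx]
  have hF : ∀ x, ‖x‖ = 1 → ‖F x‖ = 1 := by
    intro x hx
    simp only [F, dif_pos hx]
    simpa using (f ⟨x, by simpa using hx⟩).2
  have hG : ∀ y, ‖y‖ = 1 → ‖G y‖ = 1 := by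
    intro y hy
    simp only [G, dif_pos hy]
    simpa using (g ⟨y, by simpa using hy⟩).2
  have hFG : ∀ y, ‖y‖ = 1 → F (G y) = y := by
    intro y hy
    simp only [G, dif_pos hy]
    rw [hFe, Function.surjInv_eq hf₂]
  have hiso : ∀ x x', ‖x‖ = 1 → ‖x'‖ = 1 → ‖F x - F x'‖ = ‖x - x'‖ := by
    intro x x' hx hx'
    simp only [F, dif_pos hx, dif_pos hx']
    have := hf₁.dist_eq ⟨x, by simpa using hx⟩ ⟨x', by simpa using hx'⟩
    rw [Subtype.dist_eq, Subtype.dist_eq, dist_eq_norm, dist_eq_norm] at this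
    exact this
  obtain ⟨x0, hx0⟩ := exists_norm_eq X (zero_le_one' ℝ)
  have hdec : ∀ x : X, ∃ u : X, ‖u‖ = 1 ∧ ‖x‖ • u = x ∧
      ‖x‖ • F (R074.nrm x) = ‖x‖ • F u := by
    intro x
    by_cases hx : x = 0
    · exact ⟨x0, hx0, by simp [hx], by simp [hx]⟩
    · exact ⟨R074.nrm x, R074.norm_nrm hx, R074.norm_smul_nrm x, rfl⟩
  let Φ : X → Y := fun x => ‖x‖ • F (R074.nrm x)
  have hΦi : Isometry Φ := by
    refine Isometry.of_dist_eq fun x y => ?_
    obtain ⟨u, hu, hu1, hu2⟩ := hdec x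
    obtain ⟨v, hv, hv1, hv2⟩ := hdec y
    rw [dist_eq_norm, dist_eq_norm]
    simp only [Φ]
    rw [hu2, hv2, R074.norm_smul_sub_eq F G hF hG hFG hiso hu hv (norm_nonneg _) (norm_nonneg _),
      hu1, hv1]
  have hΦs : Function.Surjective Φ := by
    intro y
    by_cases hy : y = 0
    · exact ⟨0, by simp [Φ, hy]⟩
    · have h1 := R074.norm_nrm hy
      have h2 := hG _ h1
      have hy' : 0 < ‖y‖ := norm_pos_iff.mpr hy
      have h3 : ‖‖y‖ • G (R074.nrm y)‖ = ‖y‖ := by rw [norm_smul, h2, norm_norm, mul_one]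
      refine ⟨‖y‖ • G (R074.nrm y), ?_⟩
      simp only [Φ]
      rw [h3, R074.nrm, h3, smul_smul, inv_mul_cancel₀ hy'.ne', one_smul, hFG _ h1,
        R074.norm_smul_nrm]
  let e : X ≃ᵢ Y := ⟨Equiv.ofBijective Φ ⟨hΦi.injective, hΦs⟩, hΦi⟩
  have he0 : e 0 = 0 := by
    change Φ 0 = 0
    simp [Φ]
  have hT : ∀ x : Metric.sphere (0 : X) 1, e.toRealLinearIsometryEquivOfMapZero he0 x = f x := by
    intro x
    have hx : ‖(x : X)‖ = 1 := by simpa using x.2
    change Φ x = f x
    simp only [Φ, R074.nrm, hx, inv_one, one_smul]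
    exact hFe x
  refine ⟨e.toRealLinearIsometryEquivOfMapZero he0, hT, fun T' hT' x => ?_⟩
  obtain ⟨u, hu, hu1, -⟩ := hdec x
  have h1 := hT' ⟨u, by simpa using hu⟩
  have h2 := hT ⟨u, by simpa using hu⟩
  rw [← hu1, map_smul, map_smul]
  congr 1
  exact h1.trans h2.symm

end Crest.Agent.S0099
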