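import Crest.Statements.S0100
import Crest.Agent.R075.Near
import Crest.Agent.R075.Round

set_option autoImplicit false
open Crest Crest.AnalysisR

namespace Crest.Agent.S0100

open Crest.Agent.R075 Crest.Agent.R210 Finset Filter Topology

/-- For every real `ε` with `0 < ε < 1` there is a threshold `N₀` such that for every integer `N ≥ N₀` one can choose signs `c 0, …, c (N-1)` in `{-1, 1}` so that the polynomial `∑ k, c k * z ^ k` has modulus between `(1 - ε) * √N` and `(1 + ε) * √N` at every complex number `z` of modulus one. -/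
theorem result (ε : ℝ) (hε : 0 < ε)
    (hε₁ : ε < 1) :
    ∃ N₀ : ℕ, ∀ N ≥ N₀, ∃ c : Fin N → ℤˣ, ∀ z : ℂ, ‖z‖ = 1 →
      (1 - ε) * Real.sqrt N ≤ ‖∑ k : Fin N, ((c k : ℤ) : ℂ) * z ^ (k : ℕ)‖ ∧
        ‖∑ k : Fin N, ((c k : ℤ) : ℂ) * z ^ (k : ℕ)‖ ≤ (1 + ε) * Real.sqrt N := by
  obtain ⟨C, C0, hC⟩ := round_signs
  obtain ⟨e, ⟨d1, d2⟩, e0⟩ := (((ev_small (fun e => 10 * e + C * √(√(20 * e))) (by fun_prop)
    (by simp) hε).and (ev_small (fun e => 10 * e) (by fun_prop) (by simp) one_pos)).and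
    self_mem_nhdsWithin).exists
  replace e0 : 0 < e := e0
  obtain ⟨N₀, h⟩ := eventually_atTop.1 (exists_near e e0 (by linarith))
  refine ⟨N₀, fun N hN => ?_⟩
  obtain ⟨a, h1, h2⟩ := h N hN
  have p : 0 < 1 + 9 * e := by positivity
  have sN := Real.sqrt_nonneg (N : ℝ)
  have nm : ∀ θ : ℝ, ‖∑ j : Fin N, ((a j / (1 + 9 * e) : ℝ) : ℂ) * ee ((j : ℕ) * θ)‖ =
      ‖∑ j : Fin N, (a j : ℂ) * ee ((j : ℕ) * θ)‖ / (1 + 9 * e) := fun θ => by
    conv_rhs => rw [← Real.norm_of_nonneg p.le, ← Complex.norm_real, ← norm_div, sum_div]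
    congr 1
    exact sum_congr rfl fun j _ => by push_cast; ring
  have bd : ∀ θ ∈ Set.Ico (0 : ℝ) 1, (1 - 10 * e) * √N ≤
      ‖∑ j : Fin N, ((a j / (1 + 9 * e) : ℝ) : ℂ) * ee ((j : ℕ) * θ)‖ ∧
      ‖∑ j : Fin N, ((a j / (1 + 9 * e) : ℝ) : ℂ) * ee ((j : ℕ) * θ)‖ ≤ √N := fun θ hθ => by
    have := abs_le.1 (h2 θ hθ)
    have q := mul_nonneg e0.le sN
    have q' := mul_nonneg e0.le q
    rw [nm, le_div_iff₀ p, div_le_iff₀ p]
    constructor <;> linarith
  have a1 : ∀ j, |a j / (1 + 9 * e)| ≤ 1 := fun j => by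
    rw [abs_div, abs_of_pos p, div_le_one p]; exact h1 j
  have par := parseval_lower (fun j => a j / (1 + 9 * e)) ((1 - 10 * e) * √N)
    (mul_nonneg (by linarith) sN) fun θ hθ => (bd θ ⟨hθ.1.le, hθ.2⟩).1
  obtain ⟨c, hc⟩ := hC N (fun j => a j / (1 + 9 * e)) (20 * e) (by positivity) a1 (by
    have : ∑ j, (1 - |a j / (1 + 9 * e)|) ≤ ∑ j, (1 - (a j / (1 + 9 * e)) ^ 2) :=
      sum_le_sum fun j _ => by
        rw [← sq_abs]
        nlinarith [a1 j, abs_nonneg (a j / (1 + 9 * e))]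
    rw [sum_sub_distrib (g := fun j => (a j / (1 + 9 * e)) ^ 2)] at this
    simp only [sum_const, card_univ, Fintype.card_fin, nsmul_eq_mul, mul_one] at this
    rw [mul_pow, Real.sq_sqrt (Nat.cast_nonneg _)] at par
    have q : 0 ≤ e ^ 2 * N := by positivity
    linarith)
  refine ⟨c, fun z hz => ?_⟩
  obtain ⟨θ, rfl⟩ := exists_phase hz
  rw [← ee_fract]
  simp only [ee_pow]
  have b := bd _ ⟨Int.fract_nonneg θ, Int.fract_lt_one θ⟩
  have H := hc (Int.fract θ)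
  simp only [sub_mul, sum_sub_distrib] at H
  have := abs_le.1 ((abs_norm_sub_norm_le _ _).trans H)
  have q := mul_le_mul_of_nonneg_right d1.le sN
  have q' := mul_nonneg e0.le sN
  constructor <;> linarith

end Crest.Agent.S0100
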