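import Crest.Statements.S0104
import Crest.Agent.R078X.Model
import Crest.Agent.R078X.Near
import Crest.Agent.R078X.Obs

set_option autoImplicit false
open Crest Crest.AnalysisR Crest.AnalysisR.OperatorAlgebra

namespace Crest.Agent.S0104

open Crest.Agent.R078X

/-- The commutant of a set and its adjoints. -/
noncomputable def vN {H : Type} [NormedAddCommGroup H] [InnerProductSpace ℂ H] [CompleteSpace H]
    (s : Set (H →L[ℂ] H)) : VonNeumannAlgebra H where
  toStarSubalgebra := StarSubalgebra.centralizer ℂ s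
  centralizer_centralizer' := by
    change Set.centralizer (Set.centralizer ((StarSubalgebra.centralizer ℂ s :
      StarSubalgebra ℂ (H →L[ℂ] H)) : Set (H →L[ℂ] H))) =
        ((StarSubalgebra.centralizer ℂ s : StarSubalgebra ℂ (H →L[ℂ] H)) : Set (H →L[ℂ] H))
    rw [StarSubalgebra.coe_centralizer, Set.centralizer_centralizer_centralizer]

theorem mem_vN {H : Type} [NormedAddCommGroup H] [InnerProductSpace ℂ H] [CompleteSpace H]
    {Γ : Type} [Group Γ] {a b : Γ → H →L[ℂ] H} (ha : ∀ g, star (a g) = a g⁻¹)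
    (hb : ∀ g, star (b g) = b g⁻¹) {y : H →L[ℂ] H} :
    y ∈ vN (Set.range a ∪ Set.range b) ↔ (∀ g, Commute y (a g)) ∧ ∀ g, Commute y (b g) := by
  change y ∈ StarSubalgebra.centralizer ℂ _ ↔ _
  rw [StarSubalgebra.mem_centralizer_iff]
  constructor
  · intro h
    exact ⟨fun g => (h _ (Or.inl ⟨g, rfl⟩)).1.symm, fun g => (h _ (Or.inr ⟨g, rfl⟩)).1.symm⟩
  · rintro ⟨h1, h2⟩ _ (⟨g, rfl⟩ | ⟨g, rfl⟩)
    · exact ⟨(h1 g).eq.symm, by rw [ha]; exact (h1 _).eq.symm⟩
    · exact ⟨(h2 g).eq.symm, by rw [hb]; exact (h2 _).eq.symm⟩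

/-- There is ε₀ > 0 such that for every δ > 0 some separable complex Hilbert space H carries von Neumann algebras M and N with the following two properties: every element of M of norm at most 1 lies within operator-norm distance less than δ of some element of N; and every unitary operator u on H with u M u⋆ ⊆ N satisfies ‖u − 1‖ ≥ ε₀. -/
theorem result :
    ∃ ε₀ : ℝ, 0 < ε₀ ∧ ∀ δ : ℝ, 0 < δ →
      ∃ (H : Type) (_ : NormedAddCommGroup H) (_ : InnerProductSpace ℂ H) (_ : CompleteSpace H)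
        (_ : TopologicalSpace.SeparableSpace H) (M N : VonNeumannAlgebra H),
        (∀ x ∈ M, ‖x‖ ≤ 1 → ∃ y ∈ N, ‖x - y‖ < δ) ∧
        ∀ u : H →L[ℂ] H, u ∈ unitary (H →L[ℂ] H) →
          (∀ x ∈ M, u * x * star u ∈ N) → ε₀ ≤ ‖u - 1‖ := by
  refine ⟨1 / 1000, by norm_num, fun δ hδ => ?_⟩
  obtain ⟨m, hm⟩ := exists_nat_gt (440 / δ)
  have hm0 : (0 : ℝ) < m := lt_trans (by positivity) hm
  have hm1 : 0 < m := by exact_mod_cast hm0
  obtain ⟨H, i1, i2, i3, i4, ⟨M⟩⟩ := exists_model (Fin 4) (FreeGroup (Fin (1600 ^ 2)))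
  obtain ⟨u, hu⟩ := exists_phase (pow_pos hm1 2)
  have hU : dg M.r u ∈ unitary (H →L[ℂ] H) := M.res_r.dg_unitary hu.norm_eq
  have hUc : ∀ {y : H →L[ℂ] H}, M.Z.Com y → Commute y (dg M.r u) := fun hy =>
    M.res_r.commute_dg (fun n => (hu.norm_eq n).le) fun n => hy.f _
  obtain ⟨α, hα⟩ := exists_tree (T := M.L 1) (treePar_unitary hU
    (hUc ((M.indepZ 1).f 1)).symm fun g => (hUc ((M.indepZ 1).lam g)).symm)
  obtain ⟨β, hβ⟩ := exists_tree (T := M.L 3) (treePar_unitary M.V_unitary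
    (((M.indepZ 3).f 1).lam _).symm fun g => (((M.indepZ 3).lam g).lam _).symm)
  have c1 : ∀ g h, Commute ((M.L 0).lam g) (α h) := fun g h => by
    have e := hUc ((M.indepZ 0).lam g)
    refine hα.commute (((M.indep 0 1 (by decide)).lam g).f 1)
      ((M.indep 0 1 (by decide)).lam g).lam (e.smul_right _) ?_ h
    rw [star_smul]
    exact (commute_star_of_unitary hU e).smul_right _
  have c2 : ∀ g h, Commute ((M.L 2).lam g) (β h) := fun g h => by
    have e : Commute ((M.L 2).lam g) M.V := ((M.indepZ 2).lam g).lam _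
    refine hβ.commute (((M.indep 2 3 (by decide)).lam g).f 1)
      ((M.indep 2 3 (by decide)).lam g).lam (e.smul_right _) ?_ h
    rw [star_smul]
    exact (commute_star_of_unitary M.V_unitary e).smul_right _
  have s1 : ∀ g, star ((M.L 0).lam g * α g) = (M.L 0).lam g⁻¹ * α g⁻¹ := fun g => by
    rw [star_mul, hα.star_eq, (M.L 0).star_lam, (c1 _ _).eq]
  have s2 : ∀ g, star ((M.L 2).lam g * β g) = (M.L 2).lam g⁻¹ * β g⁻¹ := fun g => by
    rw [star_mul, hβ.star_eq, (M.L 2).star_lam, (c2 _ _).eq]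
  refine ⟨H, i1, i2, i3, i4,
    (vN (Set.range (fun g => (M.L 0).lam g * α g) ∪ Set.range (M.L 2).rho)).commutant,
    vN (Set.range (M.L 0).rho ∪ Set.range fun g => (M.L 2).lam g * β g), fun x hx hx1 => ?_,
    fun v hv h => ?_⟩
  · obtain ⟨y, h1, h2, h3⟩ := near_incl M hm1 hu hα hβ (x := x) (fun y h1 h2 =>
      VonNeumannAlgebra.mem_commutant_iff.1 hx y
        ((mem_vN s1 (M.L 2).star_rho).2 ⟨h1, h2⟩)) hx1
    refine ⟨y, (mem_vN (M.L 0).star_rho s2).2 ⟨h1, h2⟩, h3.trans_lt ?_⟩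
    rw [div_lt_iff₀ hm0]
    rw [div_lt_iff₀ hδ] at hm
    linarith
  · by_contra hlt
    refine no_small_unitary (by simp) M hu hα hβ hv (not_le.1 hlt).le (fun g k => ?_)
      fun g k => ?_
    · refine ((mem_vN (M.L 0).star_rho s2).1 (h _ ?_)).2 k
      exact VonNeumannAlgebra.mem_commutant_iff.2 fun y hy =>
        (((mem_vN s1 (M.L 2).star_rho).1 hy).1 g).eq
    · refine ((mem_vN (M.L 0).star_rho s2).1 (h _ ?_)).1 k
      exact VonNeumannAlgebra.mem_commutant_iff.2 fun y hy =>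
        (((mem_vN s1 (M.L 2).star_rho).1 hy).2 g).eq

end Crest.Agent.S0104
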