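import Crest.Statements.S0105
import Crest.Agent.R078X.Model
import Crest.Agent.R078X.Nonconj

set_option autoImplicit false
open Crest Crest.AnalysisR Crest.AnalysisR.OperatorAlgebra

namespace Crest.Agent.S0105

open Crest.Agent.R078X

/-- For every ε > 0 some separable complex Hilbert space H carries two norm-closed, norm-separable unital ⋆-subalgebras A and B of its bounded operators such that every element of norm at most 1 of either lies within distance less than ε of an element of norm at most 1 of the other, A and B have the same double commutant, and no unitary operator u on H satisfies u A u⋆ = B. -/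
theorem result (ε : ℝ) (hε : 0 < ε) :
    ∃ (H : Type) (_ : NormedAddCommGroup H) (_ : InnerProductSpace ℂ H) (_ : CompleteSpace H)
      (_ : TopologicalSpace.SeparableSpace H) (A B : StarSubalgebra ℂ (H →L[ℂ] H)),
      IsClosed (A : Set (H →L[ℂ] H)) ∧ IsClosed (B : Set (H →L[ℂ] H)) ∧
      TopologicalSpace.IsSeparable (A : Set (H →L[ℂ] H)) ∧
      TopologicalSpace.IsSeparable (B : Set (H →L[ℂ] H)) ∧
      (∀ a ∈ A, ‖a‖ ≤ 1 → ∃ b ∈ B, ‖b‖ ≤ 1 ∧ ‖a - b‖ < ε) ∧
      (∀ b ∈ B, ‖b‖ ≤ 1 → ∃ a ∈ A, ‖a‖ ≤ 1 ∧ ‖b - a‖ < ε) ∧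
      Set.centralizer (Set.centralizer (A : Set (H →L[ℂ] H))) =
        Set.centralizer (Set.centralizer (B : Set (H →L[ℂ] H))) ∧
      ¬ ∃ u : H →L[ℂ] H, u ∈ unitary (H →L[ℂ] H) ∧
          ∀ y : H →L[ℂ] H, y ∈ B ↔ ∃ x ∈ A, y = u * x * star u := by
  obtain ⟨t, ht0, ht1, ht2⟩ : ∃ t : ℝ, 0 < t ∧ t ≤ 1 / 2 ∧ 80 * t < ε :=
    ⟨min (1 / 2) (ε / 100), by positivity, min_le_left _ _, by
      linarith [min_le_right (1 / 2 : ℝ) (ε / 100)]⟩
  obtain ⟨d, hd⟩ := exists_nat_gt (max 4 (4 / t ^ 2))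
  have hd1 : 4 < d := by exact_mod_cast (le_max_left _ _).trans_lt hd
  have hd2 : 4 < t ^ 2 * d := by
    have := (le_max_right _ _).trans_lt hd
    rw [div_lt_iff₀ (by positivity)] at this
    linarith
  obtain ⟨H, i1, i2, i3, i4, ⟨M⟩⟩ := exists_model (Fin 2) (FreeGroup (Fin d))
  obtain ⟨π, hπ⟩ := exists_tree (treePar_scalar (M.L 1) ht0.le ht1)
  have g0 := good_lam M
  have g1 := hπ.good
  have hκ : ∀ g, ‖π g - (M.L 1).lam g‖ ≤ 20 * t := fun g => by
    have h1 : ‖(1 : H →L[ℂ] H)‖ ≤ 1 := ContinuousLinearMap.norm_id_le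
    have h2 : ‖(t : ℂ) • (1 : H →L[ℂ] H)‖ ≤ t := by
      rw [norm_smul, Complex.norm_real, Real.norm_of_nonneg ht0.le]
      nlinarith
    have := hπ.lip (isTree_zero (M.L 1)) (y := 1) (Commute.one_left _)
      (fun _ => Commute.one_left _) (d := t) (by simpa using h2) (by simpa using h2) ?_ g
    · simpa using this
    · have h3 : √(1 - t ^ 2) ≤ 1 := Real.sqrt_le_one.2 (by nlinarith)
      have h4 : 1 - t ≤ √(1 - t ^ 2) := Real.le_sqrt_of_sq_le (by nlinarith)
      have h5 : |√(1 - t ^ 2) - 1| ≤ t := abs_le.2 ⟨by linarith, by linarith⟩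
      calc _ ≤ t * 1 := mul_le_mul h5 h1 (norm_nonneg _) ht0.le
        _ = t := mul_one t
  refine ⟨H, i1, i2, i3, i4, At M (M.L 1).lam, At M π, At_closed _, At_closed _, At_sep g0,
    At_sep g1, fun a ha ha1 => At_close g0 g1 (κ := 20 * t)
      (fun g => by rw [norm_sub_rev]; exact hκ g) (by linarith) ha ha1,
    fun b hb hb1 => At_close g1 g0 hκ (by linarith) hb hb1, ?_, ?_⟩
  · rw [centralizer_At g0, centralizer_At g1]
  · rintro ⟨u, hu, h⟩
    exact not_conj M hπ ht0 (by simpa using hd1) (by simpa using hd2) hu h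

end Crest.Agent.S0105
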