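import Crest.Statements.S0108
import Crest.Agent.R081.Final

set_option autoImplicit false
open Crest.AnalysisR.Torus3
open Crest Crest.AnalysisR Crest.AnalysisR.Torus3

namespace Crest.Agent.S0108

open MeasureTheory Crest.Agent.R081 in
/-- There are a volume-preserving smooth diffeomorphism `T` of the three-torus `(ℝ/ℤ)³` (normalised Haar measure) and a real square-integrable function `g` of mean zero whose two-sided orbit `g ∘ Tⁿ`, `n ∈ ℤ`, is an orthonormal basis of the complex mean-zero square-integrable functions: the functions `g ∘ Tⁿ` are orthonormal, and a complex square-integrable function of mean zero that is orthogonal to all of them vanishes almost everywhere. -/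
theorem result :
    ∃ (T : Equiv.Perm T3) (g : T3 → ℝ), IsSmoothDiffeo T ∧
      MeasureTheory.MeasurePreserving T MeasureTheory.volume MeasureTheory.volume ∧
      MeasureTheory.MemLp g 2 MeasureTheory.volume ∧ ∫ x, g x = 0 ∧
      (∀ m n : ℤ, ∫ x, g ((T ^ m) x) * g ((T ^ n) x) = if m = n then 1 else 0) ∧
      (∀ h : T3 → ℂ, MeasureTheory.MemLp h 2 MeasureTheory.volume → ∫ x, h x = 0 →
        (∀ n : ℤ, ∫ x, h x * (g ((T ^ n) x) : ℂ) = 0) → h =ᵐ[MeasureTheory.volume] 0) := by
  obtain ⟨T, G, hstar, hmean, horth, hcomp⟩ := exists_cyclic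
  have hG : MemLp (G : T3 → ℂ) 2 volume := Lp.memLp G
  have hre : (fun x => (((G x).re : ℝ) : ℂ)) =ᵐ[volume] G := by
    have h1 := Lp.coeFn_star G
    rw [hstar] at h1
    filter_upwards [h1] with x hx
    have hx' : (starRingEnd ℂ) (G x) = G x := hx.symm
    exact Complex.conj_eq_iff_re.mp hx'
  have hg : MemLp (fun x => (G x).re) 2 volume := hG.re
  have hgc : MemLp (fun x => (((G x).re : ℝ) : ℂ)) 2 volume := hg.ofReal
  have hGe : G = L3 fun x => (((G x).re : ℝ) : ℂ) := by rw [L3_congr hre, L3_coe]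
  have hmp : ∀ n : ℤ, MeasurePreserving (((T : Equiv.Perm T3) ^ n : Equiv.Perm T3)) volume volume :=
    fun n => (T ^ n).2.2.1
  have hgn : ∀ n : ℤ, MemLp (fun x => (((G (((T : Equiv.Perm T3) ^ n) x)).re : ℝ) : ℂ)) 2 volume :=
    fun n => hgc.comp_measurePreserving (hmp n)
  have hk : ∀ n : ℤ, kp (T ^ n) G = L3 fun x => (((G (((T : Equiv.Perm T3) ^ n) x)).re : ℝ) : ℂ) := by
    intro n
    conv_lhs => rw [hGe]
    rw [kp_L3 _ hgc]
    rfl
  refine ⟨T, fun x => (G x).re, T.2.1, T.2.2.1, hg, ?_, fun m n => ?_, fun h hh h0 hn => ?_⟩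
  · rw [hGe, inner_L3 (memLp_const _) hgc] at hmean
    simp only [map_one, one_mul] at hmean
    rw [integral_complex_ofReal] at hmean
    exact_mod_cast hmean
  · have h1 := horth (n - m)
    rw [← (kp (T ^ m)).inner_map_map, ← kp_mul, ← zpow_add, sub_add_cancel, hk, hk,
      inner_L3 (hgn m) (hgn n)] at h1
    simp only [Complex.conj_ofReal, ← Complex.ofReal_mul] at h1
    rw [integral_complex_ofReal] at h1
    by_cases hmn : m = n
    · simp only [hmn, sub_self, if_true] at h1 ⊢
      exact_mod_cast h1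
    · rw [if_neg (by omega)] at h1
      rw [if_neg hmn]
      exact_mod_cast h1
  · have hz := hcomp (L3 h) (by rw [inner_L3 (memLp_const _) hh]; simpa using h0) (fun i => by
      rw [hk, inner_L3 (hgn i) hh, ← hn i]
      simp only [Complex.conj_ofReal, mul_comm])
    have h2 := L3_coeFn hh
    rw [hz] at h2
    exact h2.symm.trans (Lp.coeFn_zero _ _ _)

end Crest.Agent.S0108
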