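import Crest.Statements.S0109
import Crest.Agent.R082.Main

set_option autoImplicit false
open MeasureTheory
open scoped ENNReal NNReal
open Crest.AnalysisR.OT
open Crest Crest.AnalysisR Crest.AnalysisR.OT

namespace Crest.Agent.S0109

/-- Fix d ≥ 2, a compact convex K ⊆ ℝᵈ with nonempty interior, ρ the uniform probability measure on K, and a nonempty compact Y ⊆ ℝᵈ. There is a constant C such that for all probability measures μ, ν carried by Y, all quadratic optimal transport maps Tμ from ρ to μ and Tν from ρ to ν, and every coupling π of μ and ν, ∫ ‖Tμ - Tν‖² dρ ≤ C · (∫ ‖y - z‖² dπ)^(1/3). With the best coupling: the L²(ρ) distance of the maps is at most √C times the cube root of the Wasserstein-2 distance of the targets. -/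
theorem result
    (d : ℕ) (hd : 2 ≤ d) (K : Set (EuclideanSpace ℝ (Fin d))) (hKc : IsCompact K) (hKv : Convex ℝ K)
    (hKi : (interior K).Nonempty) (Y : Set (EuclideanSpace ℝ (Fin d))) (hYc : IsCompact Y) (hYn : Y.Nonempty) :
    ∃ C : ℝ≥0, ∀ μ ν : Measure (EuclideanSpace ℝ (Fin d)), IsProbabilityOn Y μ → IsProbabilityOn Y ν →
      ∀ Tμ Tν : EuclideanSpace ℝ (Fin d) → EuclideanSpace ℝ (Fin d),
        IsOptimalMap (uniformProbOn K) μ Tμ → IsOptimalMap (uniformProbOn K) ν Tν →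
        ∀ π : Measure (EuclideanSpace ℝ (Fin d) × EuclideanSpace ℝ (Fin d)), IsPairCoupling μ ν π →
          ∫⁻ x, ‖Tμ x - Tν x‖ₑ ^ 2 ∂(uniformProbOn K) ≤ C * quadCost π ^ (1 / 3 : ℝ) := by
  obtain ⟨R, hR, hKY⟩ := (hKc.isBounded.union hYc.isBounded).exists_pos_norm_le
  have hK : Crest.Agent.R082.IsBody K R :=
    ⟨hKc, hKv, hKi, hR, fun x hx => hKY x (Or.inl hx)⟩
  obtain ⟨C, hC, H⟩ := Crest.Agent.R082.map_stab hK
  refine ⟨⟨C, hC⟩, ?_⟩
  intro μ ν hμ hν Tμ Tν hTμ hTν π hπ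
  have := hμ.1
  have := hν.1
  have hμR : ∀ᵐ y ∂μ, ‖y‖ ≤ R := by
    have : ∀ᵐ y ∂μ, y ∈ Y := hμ.2
    exact this.mono fun y hy => hKY y (Or.inr hy)
  have hνR : ∀ᵐ y ∂ν, ‖y‖ ≤ R := by
    have : ∀ᵐ y ∂ν, y ∈ Y := hν.2
    exact this.mono fun y hy => hKY y (Or.inr hy)
  obtain ⟨φ0, ψ0, T0, h0⟩ := Crest.Agent.R082.exists_isBrenier hK μ hμR
  obtain ⟨φ1, ψ1, T1, h1⟩ := Crest.Agent.R082.exists_isBrenier hK ν hνR
  have g0 := h0.of_isOptimalMap hK hTμ
  have g1 := h1.of_isOptimalMap hK hTν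
  have hπp : IsProbabilityMeasure π := by
    constructor
    have : π Set.univ = (π.map Prod.fst) Set.univ := by
      rw [Measure.map_apply measurable_fst MeasurableSet.univ, Set.preimage_univ]
    rw [this, hπ.1, measure_univ]
  have h1R : ∀ᵐ p ∂π, ‖p.1‖ ≤ R := by
    rw [← hπ.1] at hμR
    exact ae_of_ae_map measurable_fst.aemeasurable hμR
  have h2R : ∀ᵐ p ∂π, ‖p.2‖ ≤ R := by
    rw [← hπ.2] at hνR
    exact ae_of_ae_map measurable_snd.aemeasurable hνR
  rw [← hπ.1] at g0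
  rw [← hπ.2] at g1
  have key := H π h1R h2R _ _ _ _ _ _ g0 g1
  have IW : Integrable (fun p : EuclideanSpace ℝ (Fin d) × EuclideanSpace ℝ (Fin d) =>
      ‖p.1 - p.2‖ ^ 2) π := by
    refine Integrable.of_bound (by fun_prop) ((2 * R) ^ 2) ?_
    filter_upwards [h1R, h2R] with p a b
    rw [Real.norm_eq_abs, abs_of_nonneg (sq_nonneg _)]
    exact pow_le_pow_left₀ (norm_nonneg _) ((norm_sub_le _ _).trans (by linarith)) 2
  have IT : Integrable (fun x => ‖Tμ x - Tν x‖ ^ 2) (uniformProbOn K) := by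
    refine hK.integrable_of_bdd ((g0.measT.sub g1.measT).norm.pow_const 2).aestronglyMeasurable
      ((2 * R) ^ 2) ?_
    filter_upwards [g0.memT, g1.memT] with p a b
    rw [Real.norm_eq_abs, abs_of_nonneg (sq_nonneg _)]
    exact pow_le_pow_left₀ (norm_nonneg _) ((norm_sub_le _ _).trans (by linarith)) 2
  have e1 : ∫⁻ x, ‖Tμ x - Tν x‖ₑ ^ 2 ∂(uniformProbOn K) =
      ENNReal.ofReal (∫ x, ‖Tμ x - Tν x‖ ^ 2 ∂(uniformProbOn K)) := by
    rw [ofReal_integral_eq_lintegral_ofReal IT (Filter.Eventually.of_forall fun _ => sq_nonneg _)]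
    refine lintegral_congr fun x => ?_
    rw [ENNReal.ofReal_pow (norm_nonneg _), ofReal_norm]
  have e2 : quadCost π = ENNReal.ofReal (∫ p, ‖p.1 - p.2‖ ^ 2 ∂π) := by
    unfold quadCost
    rw [ofReal_integral_eq_lintegral_ofReal IW (Filter.Eventually.of_forall fun _ => sq_nonneg _)]
    refine lintegral_congr fun x => ?_
    rw [ENNReal.ofReal_pow (norm_nonneg _), ofReal_norm]
  rw [e1, e2, ENNReal.ofReal_rpow_of_nonneg (integral_nonneg fun _ => sq_nonneg _) (by norm_num)]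
  refine (ENNReal.ofReal_le_ofReal key).trans (le_of_eq ?_)
  rw [ENNReal.ofReal_mul hC, ENNReal.ofReal_eq_coe_nnreal hC]
  rfl

end Crest.Agent.S0109
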