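import Crest.Statements.S0111
import Crest.Agent.R083.Gadget
import Crest.Agent.R083.Gam
import Crest.Agent.R083.Tree
import Crest.Agent.R083.FMain
import Crest.Agent.R083.Scale

set_option autoImplicit false
open MeasureTheory
open Crest.AnalysisR.PDE.Calderon
open Crest Crest.AnalysisR Crest.AnalysisR.PDE Crest.AnalysisR.PDE.Calderon

namespace Crest.Agent.S0111

/-- There are two measurable real conductivities on ℝ³, bounded between two positive constants, equal to 1 outside some ball of radius less than 3 (hence near the sphere of radius 3) and differing on a set of positive volume, with the same boundary energies on the ball of radius 3: for every continuously differentiable datum, the infimum of ∫ γ ‖∇u‖² over continuously differentiable u equal to the datum on the sphere is the same for both. Equivalently, their voltage-to-current maps coincide. -/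
theorem result :
    ∃ γ₀ γ₁ : EuclideanSpace ℝ (Fin 3) → ℝ, ∃ c C : ℝ, 0 < c ∧ Measurable γ₀ ∧ Measurable γ₁ ∧
      (∀ x, c ≤ γ₀ x ∧ γ₀ x ≤ C ∧ c ≤ γ₁ x ∧ γ₁ x ≤ C) ∧
      (∃ r : ℝ, r < 3 ∧ ∀ x : EuclideanSpace ℝ (Fin 3), r < ‖x‖ → γ₀ x = 1 ∧ γ₁ x = 1) ∧
      0 < volume {x : EuclideanSpace ℝ (Fin 3) | γ₀ x ≠ γ₁ x} ∧
      SameBoundaryEnergies γ₀ γ₁ := by
  obtain ⟨G⟩ := R083.exists_gadget
  obtain ⟨γ, hm, hb, hR, hS, ho⟩ := R083.exists_gam G
  obtain ⟨c, hmc, hc, hco, hpos, hF⟩ := R083.tree_data G hm hb hR hS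
  have hsbe := R083.sbe_of_fdata (R := 300) (by norm_num) (by norm_num) G.hc hm hb hmc hc hF
  have hsm : Measurable fun x : R083.E => (100 : ℝ) • x := measurable_id.const_smul (100 : ℝ)
  have hG := G.hc
  have hG1 := G.hC1
  refine ⟨fun x => γ ((100 : ℝ) • x), fun x => c ((100 : ℝ) • x) ^ 2 * γ ((100 : ℝ) • x), G.c / 4, 4 * G.C, by positivity, hm.comp hsm,
    ((hmc.pow_const 2).mul hm).comp hsm, fun x => ?_, ⟨2, by norm_num, fun x hx => ?_⟩, ?_,
    R083.scale hsbe⟩
  · obtain ⟨h1, h2⟩ := hb ((100 : ℝ) • x)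
    obtain ⟨h3, h4⟩ := hc ((100 : ℝ) • x)
    have h5 : 1 / 4 ≤ c ((100 : ℝ) • x) ^ 2 := by nlinarith
    have h6 : c ((100 : ℝ) • x) ^ 2 ≤ 4 := by nlinarith
    beta_reduce
    refine ⟨by linarith, by linarith, by nlinarith, by nlinarith⟩
  · have : (100 : ℝ) • x ∉ R083.PP := fun h => by
      have := R083.PP_norm h
      rw [norm_smul, Real.norm_ofNat] at this
      linarith
    simp [ho _ this, hco _ this]
  · refine (R083.scale_pos hpos).trans_le (measure_mono fun x hx h => hx ?_)
    beta_reduce at h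
    have h1 := (hb ((100 : ℝ) • x)).1
    have h3 := (hc ((100 : ℝ) • x)).1
    have h5 : (c ((100 : ℝ) • x) - 1) * ((c ((100 : ℝ) • x) + 1) * γ ((100 : ℝ) • x)) = 0 := by
      linarith
    rcases mul_eq_zero.1 h5 with h | h
    · linarith
    · exact absurd h (mul_pos (by linarith) (by linarith)).ne'

end Crest.Agent.S0111
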