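import Crest.Statements.S0114
import Crest.Agent.R086.All
import Crest.Agent.R086.NB.Fin

set_option autoImplicit false
open MeasureTheory
open scoped ContDiff
open Crest.AnalysisR.PDE.NLS
open Crest Crest.AnalysisR Crest.AnalysisR.PDE Crest.AnalysisR.PDE.NLS

namespace Crest.Agent.S0114

/-- Defocusing nonlinear Schrödinger equation i ∂ₜu + Δu = ‖u‖^(p-1) u on the torus (ℝ/2πℤ)¹², with odd powers p as large as desired: for every p₀ there are an odd p ≥ max(p₀, 3), an integer k > 8 and a nonempty set U of smooth 2π-periodic functions on ℝ¹², open among such functions for the Sobolev distance of order k, such that every u₀ in U launches a classical periodic solution on a finite interval [0, T) with (T - t)^(1/(p-1)) · ‖u(t, x⁎)‖ tending to a positive limit as t ↑ T at some x⁎. -/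
theorem result
    (p₀ : ℕ) : ∃ p : ℕ, p₀ ≤ p ∧ Odd p ∧ 3 ≤ p ∧ ∃ k : ℕ, 8 < k ∧ ∃ U : Set (R12 → ℂ), U.Nonempty ∧
      (∀ v ∈ U, IsSmoothPeriodic v) ∧
      (∀ u₀ ∈ U, ∃ δ : ℝ, 0 < δ ∧ ∀ v : R12 → ℂ, IsSmoothPeriodic v → sobolevDistSq k v u₀ < δ → v ∈ U) ∧
      ∀ u₀ ∈ U, ∃ T : ℝ, 0 < T ∧ ∃ u : ℝ → R12 → ℂ, IsClassicalSolution p T u ∧ u 0 = u₀ ∧
        ∃ xs : R12, ∃ c₀ : ℝ, 0 < c₀ ∧
          Filter.Tendsto (fun t : ℝ => (T - t) ^ (1 / ((p : ℝ) - 1)) * ‖u t xs‖)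
            (nhdsWithin T (Set.Iio T)) (nhds c₀) := by
  exact Crest.Agent.R086.all_of Crest.Agent.R086.NB.limit Crest.Agent.R086.NB.matchS p₀

end Crest.Agent.S0114
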