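import Crest.Statements.S0118
import Crest.Agent.R089.Integral
import Crest.Agent.R089.Chi

set_option autoImplicit false
open Crest Crest.AnalysisR Crest.AnalysisR.OperatorAlgebra

namespace Crest.Agent.S0118

/-- There are a unital complex C⋆-algebra with a faithful tracial state τ, an integer n ≥ 2, a self-adjoint n-tuple X and a standard semicircular n-tuple S (Catalan moments) such that X, S₁, …, S_n are free, the free Fisher information of X + √s S is finite for every s > 0 with s ↦ n/(1+s) − Φ*(X + √s S) integrable on (0, ∞), and the microstates free entropy χ(X) (operator-norm cutoff, limsup over matrix sizes) satisfies −∞ < χ(X) ≤ χ*(X) − 1/2, where χ* is the non-microstates free entropy. -/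
theorem result :
    ∃ (A : Type) (_ : CStarAlgebra A) (τ : A →ₗ[ℂ] ℂ) (n : ℕ) (X S : Fin n → A),
      Crest.OpAlg.IsFaithfulTracialState τ ∧ 2 ≤ n ∧ (∀ i, IsSelfAdjoint (X i)) ∧
      Crest.OpAlg.IsStandardSemicircular τ S ∧ Crest.OpAlg.IsFreeFamily τ (Crest.OpAlg.withNoise X S) ∧
      (∀ s : ℝ, 0 < s → Crest.OpAlg.freeFisher τ (Crest.OpAlg.heatTuple X S s) < ⊤) ∧
      MeasureTheory.IntegrableOn
        (fun s : ℝ => (n : ℝ) / (1 + s) - (Crest.OpAlg.freeFisher τ (Crest.OpAlg.heatTuple X S s)).toReal)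
        (Set.Ioi 0) ∧
      ⊥ < Crest.OpAlg.chi τ X ∧ Crest.OpAlg.chi τ X ≤ ((Crest.OpAlg.chiStar τ X S - 1 / 2 : ℝ) : EReal) := by
  obtain ⟨K, D, hK, hD, hnum⟩ := R089.exists_params
  obtain ⟨n, ⟨I⟩⟩ : ∃ n : ℕ, Nonempty (R089.Idx n D) :=
    ⟨_, ⟨⟨(Fintype.equivFin _).symm⟩⟩⟩
  obtain ⟨A, inst, ⟨F⟩⟩ := R089.exists_fock (Fin n ⊕ Fin n)
  have hD1 : 1 ≤ D := by rw [hD]; exact Nat.one_le_pow _ _ (by omega)
  have hn := I.card
  have hnR : (n : ℝ) = 2 * D + (D : ℝ) ^ 2 := by rw [hn]; push_cast; ring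
  have hZ : ∀ i, Continuous fun s => I.ZZ F s i := by
    intro i
    unfold R089.Idx.ZZ Crest.OpAlg.heatTuple
    fun_prop
  obtain ⟨hint, hge⟩ := R089.integral_analysis
    (fun s => Crest.OpAlg.freeFisher (F.cf []) (I.ZZ F s))
    (R089.measurable_freeFisher _ F.cont _ hZ) (D := D) (c := 80 * (K : ℝ) ^ 3) (N := n)
    (by exact_mod_cast hD1) (by positivity) hnR (fun s hs => I.fisher_le_one F hD1 hs)
    (fun s hs => I.fisher_le_two F hK hD hs) (fun s hs => I.fisher_ge F hs)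
  refine ⟨A, inst, F.cf [], n, I.XX F, R089.Idx.S1 F, F.faithful, by omega, I.XX_sa F,
    ⟨fun i => F.sa _, fun i k => F.catalan_moments _ k⟩, ?_, ?_, hint, ?_, ?_⟩
  · refine F.isFreeFamily (Sum.elim (fun _ => none) some) _ ?_
    rintro (_ | t) i
    · exact I.XX_mem F _ (fun j => F.s_mem_locAlg _ _ _ rfl) i
    · exact F.s_mem_locAlg _ _ _ rfl
  · intro s hs
    exact lt_of_le_of_lt (I.fisher_le_one F hD1 hs.le) ENNReal.ofReal_lt_top
  · exact R089.chi_lower _ I.cc I.hcc _ (by simp [F.cf_one])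
      (F.sd_rec Sum.inl Sum.inl_injective)
  · refine (R089.chi_upper _ I.cc I.hcc (R089.Idx.S0 F) ?_).trans ?_
    · intro i
      simp [R089.Idx.S0, F.left_nil, F.cf_s]
    · rw [EReal.coe_le_coe_iff]
      unfold Crest.OpAlg.chiStar
      have : (3 : ℝ) ≤ ∫ s in Set.Ioi (0 : ℝ), ((n : ℝ) / (1 + s) -
          (Crest.OpAlg.freeFisher (F.cf [])
            (Crest.OpAlg.heatTuple (I.XX F) (R089.Idx.S1 F) s)).toReal) := hnum.trans hge
      linarith

end Crest.Agent.S0118
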