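import Crest.Statements.S0120
import Crest.Agent.R091.Main

set_option autoImplicit false
open Crest Crest.AnalysisR

namespace Crest.Agent.S0120

/-- There are separable real Banach spaces X and Y and a bijection Ψ from X to Y with (4/21) * ‖s - t‖ ≤ ‖Ψ s - Ψ t‖ ≤ (76/25) * ‖s - t‖ for all s, t in X, such that X contains a linearly isometric copy of c₀(ℓ₂), Y has no closed linear subspace linearly homeomorphic to c₀(ℓ₂), and X and Y are not linearly homeomorphic. Here ℓ₂ is the real Hilbert space of square-summable real sequences and c₀(ℓ₂) is the space of ℓ₂-valued sequences tending to zero, with the supremum norm. -/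
theorem result :
    ∃ (X : Type) (_ : NormedAddCommGroup X) (_ : NormedSpace ℝ X)
      (Y : Type) (_ : NormedAddCommGroup Y) (_ : NormedSpace ℝ Y),
      CompleteSpace X ∧ TopologicalSpace.SeparableSpace X ∧
      CompleteSpace Y ∧ TopologicalSpace.SeparableSpace Y ∧
      (∃ Ψ : X → Y, Function.Bijective Ψ ∧
        ∀ s t : X, (4 / 21 : ℝ) * ‖s - t‖ ≤ ‖Ψ s - Ψ t‖ ∧ ‖Ψ s - Ψ t‖ ≤ (76 / 25 : ℝ) * ‖s - t‖) ∧
      Nonempty (ZeroAtInftyContinuousMap ℕ (lp (fun _ : ℕ => ℝ) 2) →ₗᵢ[ℝ] X) ∧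
      (∀ S : Submodule ℝ Y, IsClosed (S : Set Y) →
        IsEmpty (S ≃L[ℝ] ZeroAtInftyContinuousMap ℕ (lp (fun _ : ℕ => ℝ) 2))) ∧
      IsEmpty (X ≃L[ℝ] Y) := by
  have : TopologicalSpace.SeparableSpace (lp (fun _ : ℕ => ℝ) 2) := R091.separable_lp2
  have : TopologicalSpace.SeparableSpace (ZeroAtInftyContinuousMap ℕ (lp (fun _ : ℕ => ℝ) 2)) :=
    R091.separable_c0
  obtain ⟨Y, i1, i2, h1, h2, ⟨Ψ, hs, hΨ⟩, hno⟩ := R091.main (lp (fun _ : ℕ => ℝ) 2)
  have he : (lp.single 2 0 1 : lp (fun _ : ℕ => ℝ) 2) ≠ 0 := by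
    rw [← norm_ne_zero_iff, lp.norm_single (by norm_num)]; simp
  refine ⟨Y × ZeroAtInftyContinuousMap ℕ (lp (fun _ : ℕ => ℝ) 2), inferInstance, inferInstance,
    Y, i1, i2, inferInstance, inferInstance, h1, h2,
    ⟨fun s => (3 / 4 : ℝ) • Ψ s, ⟨fun s t hst => ?_, fun y => ?_⟩, fun s t => ?_⟩,
    ⟨⟨LinearMap.inr ℝ _ _, fun v => by simp [Prod.norm_def]⟩⟩, fun S _ => ⟨fun e => ?_⟩,
    ⟨fun e => ?_⟩⟩
  · have h3 : Ψ s = Ψ t := smul_right_injective Y (by norm_num : (3 / 4 : ℝ) ≠ 0) hst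
    have h4 := (hΨ s t).1
    rw [h3, sub_self, norm_zero] at h4
    exact sub_eq_zero.1 (norm_le_zero_iff.1 (by linarith))
  · obtain ⟨s, hs⟩ := hs ((4 / 3 : ℝ) • y)
    exact ⟨s, by simp only [hs, smul_smul]; norm_num⟩
  · rw [← smul_sub, norm_smul, Real.norm_of_nonneg (by norm_num)]
    have := hΨ s t
    constructor <;> linarith [norm_nonneg (s - t)]
  · exact hno _ _ he (S.subtypeL.comp (e.symm : _ →L[ℝ] S)) _ (by positivity)
      fun v => R091.lower_of_equiv e.symm v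
  · refine hno _ _ he (e.toContinuousLinearMap.comp (ContinuousLinearMap.inr ℝ Y _))
      (‖e.symm.toContinuousLinearMap‖ + 1)⁻¹ (by positivity) fun v => ?_
    have := R091.lower_of_equiv e (0, v)
    rw [Prod.norm_def, norm_zero, max_eq_right (norm_nonneg v)] at this
    exact this

end Crest.Agent.S0120
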