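import Crest.Statements.S0122
import Crest.Agent.R092.Stages

set_option autoImplicit false
open Crest.AnalysisR.MassAction
open Crest Crest.AnalysisR Crest.AnalysisR.MassAction

namespace Crest.Agent.S0122

/-- For a finite reaction network on `d ≥ 1` species that is weakly reversible, with positive rate constants and mass-action kinetics, every positive stoichiometric class `P` contains a nonempty compact convex set `K` that is forward invariant and absorbing: from every point of `P` there is a solution defined for all forward time, it is unique, it stays coordinatewise positive, and it lies in `K` from some finite time on. -/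
theorem result
    (d : ℕ) (hd : 1 ≤ d) (R : Network d) (hR : IsWeaklyReversible R)
    (k : (Fin d → ℕ) × (Fin d → ℕ) → ℝ) (hk : ∀ r ∈ R, 0 < k r)
    (c : Fin d → ℝ) (hc : ∀ i, 0 < c i) :
    ∃ K : Set (Fin d → ℝ), K ⊆ positiveClass R c ∧ K.Nonempty ∧ IsCompact K ∧ Convex ℝ K ∧
      (∀ x : ℝ → (Fin d → ℝ), IsForwardSolution (field R k) x → x 0 ∈ K →
        ∀ t : ℝ, 0 ≤ t → x t ∈ K) ∧
      (∀ x₀ ∈ positiveClass R c,
        (∃ x : ℝ → (Fin d → ℝ), IsForwardSolution (field R k) x ∧ x 0 = x₀) ∧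
        (∀ x x' : ℝ → (Fin d → ℝ), IsForwardSolution (field R k) x →
          IsForwardSolution (field R k) x' → x 0 = x₀ → x' 0 = x₀ →
          ∀ t : ℝ, 0 ≤ t → x t = x' t) ∧
        (∀ x : ℝ → (Fin d → ℝ), IsForwardSolution (field R k) x → x 0 = x₀ →
          (∀ t : ℝ, 0 ≤ t → ∀ i, 0 < x t i) ∧
          ∃ T : ℝ, 0 ≤ T ∧ ∀ t : ℝ, T ≤ t → x t ∈ K)) := by
  -- for every base point: a compact convex invariant set with the absorption property
  have hfS : ∀ x, field R k x ∈ stoichSubspace R := by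
    intro x
    unfold field
    exact Submodule.sum_mem _ fun r hr =>
      Submodule.smul_mem _ _ (Submodule.subset_span ⟨r, hr, rfl⟩)
  have hT : ∀ (c : Fin d → ℝ) (γ v : ℝ → Fin d → ℝ),
      (∀ t, 0 ≤ t → HasDerivWithinAt γ (v t) (Set.Ici 0) t) → (∀ t, 0 ≤ t → v t ∈ stoichSubspace R) →
      γ 0 - c ∈ stoichSubspace R → ∀ t, 0 ≤ t → γ t ∈ {x | x - c ∈ stoichSubspace R} := by
    intro c γ v h1 h2 h3 t ht
    have := (stoichSubspace R).add_mem (R092.sub_mem_of_deriv_mem _ h1 h2 ht) h3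
    simpa using this
  have hlip : ∀ s : Set (Fin d → ℝ), IsCompact s → ∃ K, LipschitzOnWith K (field R k) s := by
    intro s hs
    have h1 : ContDiff ℝ 1 (field R k) := by unfold field; fun_prop
    exact h1.locallyLipschitz.locallyLipschitzOn.exists_lipschitzOnWith_of_compact hs
  obtain ⟨Q, r, R₀, hQ, hcQ, hr, hbox⟩ := R092.exists_nice hd R hR k hk c hc
  have hlow : ∀ x ∈ Q, (∀ i, 0 < x i) → ∀ i, r ≤ x i := fun x hx hp i => (hbox x hx hp i).1
  have hinv : ∀ x : ℝ → (Fin d → ℝ), IsForwardSolution (field R k) x →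
      x 0 ∈ Q ∩ positiveClass R c → ∀ t : ℝ, 0 ≤ t → x t ∈ Q ∩ positiveClass R c := by
    intro γ hγ h0 t ht
    have h1 := hT c γ _ hγ (fun t _ => hfS _) h0.2.2
    obtain ⟨h2, h3⟩ := hQ.invariant hr hlow hγ h1 (fun _ _ _ _ => rfl) h0.1 h0.2.1 t ht
    exact ⟨h2, h3, h1 t ht⟩
  refine ⟨Q ∩ positiveClass R c, Set.inter_subset_right, ⟨c, hcQ, hc, by simp⟩, ?_, ?_, hinv, ?_⟩
  · have : Q ∩ positiveClass R c = R092.box d r R₀ ∩ (Q ∩ {x | x - c ∈ stoichSubspace R}) := by
      ext x
      constructor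
      · rintro ⟨h1, h2, h3⟩; exact ⟨hbox x h1 h2, h1, h3⟩
      · rintro ⟨h1, h2, h3⟩; exact ⟨h2, fun i => hr.trans_le (h1 i).1, h3⟩
    rw [this]
    exact (R092.isCompact_box r R₀).inter_right (hQ.closed.inter (R092.isClosed_class R c))
  · apply hQ.convex.inter
    rintro x ⟨hx1, hx2⟩ y ⟨hy1, hy2⟩ a b ha hb hab
    refine ⟨fun i => ?_, ?_⟩
    · have h1 := hx1 i
      have h2 := hy1 i
      simp only [Pi.add_apply, Pi.smul_apply, smul_eq_mul]
      rcases ha.lt_or_eq with h | h
      · positivity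
      · have : b = 1 := by linarith
        rw [← h, this]; simpa using h2
    · have : a • x + b • y - c = a • (x - c) + b • (y - c) := by
        rw [smul_sub, smul_sub]
        have : c = a • c + b • c := by rw [← add_smul, hab, one_smul]
        conv_lhs => rw [this]
        abel
      rw [this]
      exact (stoichSubspace R).add_mem (Submodule.smul_mem _ _ hx2) (Submodule.smul_mem _ _ hy2)
  · intro x₀ hx₀
    obtain ⟨Q', r', R', hQ', hcQ', hr', hbox'⟩ := R092.exists_nice hd R hR k hk x₀ hx₀.1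
    have hlow' : ∀ x ∈ Q', (∀ i, 0 < x i) → ∀ i, r' ≤ x i := fun x hx hp i => (hbox' x hx hp i).1
    have hstay : ∀ γ : ℝ → (Fin d → ℝ), IsForwardSolution (field R k) γ → γ 0 = x₀ →
        ∀ t : ℝ, 0 ≤ t → γ t ∈ R092.box d r' R' := by
      intro γ hγ h0 t ht
      have h1 := hT x₀ γ _ hγ (fun t _ => hfS _) (by rw [h0]; simp)
      obtain ⟨h2, h3⟩ := hQ'.invariant hr' hlow' hγ h1 (fun _ _ _ _ => rfl) (h0 ▸ hcQ')
        (h0 ▸ hx₀.1) t ht
      exact hbox' _ h2 h3
    obtain ⟨K, hK⟩ := hlip _ (R092.isCompact_box r' R')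
    refine ⟨?_, ?_, ?_⟩
    · have hrR : r' ≤ R' := by
        have := hbox' x₀ hcQ' hx₀.1 ⟨0, hd⟩
        exact this.1.trans this.2
      set cl : (Fin d → ℝ) → (Fin d → ℝ) := fun x i => max r' (min (x i) R') with hcl
      have hcl1 : ∀ x, cl x ∈ R092.box d r' R' := fun x i =>
        ⟨le_max_left _ _, max_le hrR (min_le_right _ _)⟩
      have hcl2 : ∀ x ∈ R092.box d r' R', cl x = x := by
        intro x hx
        funext i
        simp only [hcl]
        rw [min_eq_left (hx i).2, max_eq_right (hx i).1]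
      have hcl3 : LipschitzWith 1 cl := by
        apply LipschitzWith.of_dist_le_mul
        intro x y
        rw [NNReal.coe_one, one_mul, dist_pi_le_iff dist_nonneg]
        intro i
        refine le_trans ?_ (dist_le_pi_dist x y i)
        have := (((LipschitzWith.id (α := ℝ)).min_const R').const_max r').dist_le_mul (x i) (y i)
        simpa using this
      have hg : LipschitzWith (K * 1) (field R k ∘ cl) := by
        rw [← lipschitzOnWith_univ]
        exact hK.comp hcl3.lipschitzOnWith (fun x _ => hcl1 x)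
      obtain ⟨L, hL⟩ := (R092.isCompact_box r' R').exists_bound_of_continuousOn
        (R092.continuous_field R k).continuousOn
      obtain ⟨γ, hγ, h0⟩ := R092.exists_global (L := Real.toNNReal L) hg
        (fun x => (hL _ (hcl1 x)).trans (Real.le_coe_toNNReal L)) x₀
      have h1 := hT x₀ γ _ hγ (fun t _ => hfS _) (by rw [h0]; simp)
      have h2 := hQ'.invariant hr' hlow' hγ h1 (fun t _ h1 h2 => by
        simp only [Function.comp]; rw [hcl2 _ (hbox' _ h1 h2)]) (h0 ▸ hcQ') (h0 ▸ hx₀.1)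
      refine ⟨γ, fun t ht => ?_, h0⟩
      have h3 := hγ t ht
      simp only [Function.comp] at h3
      rwa [hcl2 _ (hbox' _ (h2 t ht).1 (h2 t ht).2)] at h3
    · intro γ γ' hγ hγ' h0 h0' t ht
      refine ODE_solution_unique_of_mem_Icc_right (v := fun _ => field R k)
        (s := fun _ => R092.box d r' R') (a := 0) (b := t) (fun _ _ => hK)
        (fun s hs => (hγ s hs.1).continuousWithinAt.mono Set.Icc_subset_Ici_self)
        (fun s hs => (hγ s hs.1).mono (Set.Ici_subset_Ici.2 hs.1))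
        (fun s hs => hstay γ hγ h0 s hs.1)
        (fun s hs => (hγ' s hs.1).continuousWithinAt.mono Set.Icc_subset_Ici_self)
        (fun s hs => (hγ' s hs.1).mono (Set.Ici_subset_Ici.2 hs.1))
        (fun s hs => hstay γ' hγ' h0' s hs.1) (h0.trans h0'.symm) ⟨ht, le_rfl⟩
    · intro γ hγ h0
      have hpos : ∀ t : ℝ, 0 ≤ t → ∀ i, 0 < γ t i := fun t ht i =>
        hr'.trans_le (hstay γ hγ h0 t ht i).1
      have h1 := hT c γ _ hγ (fun t _ => hfS _) (by rw [h0]; exact hx₀.2)
      obtain ⟨t₀, ht₀, h2⟩ := hQ.abs γ hγ r' R' hr' (fun t ht => ⟨h1 t ht, hstay γ hγ h0 t ht⟩)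
      exact ⟨hpos, t₀, ht₀, fun t ht => ⟨h2 t ht, hpos t (ht₀.trans ht), h1 t (ht₀.trans ht)⟩⟩

end Crest.Agent.S0122
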