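import Crest.Statements.S0124
import Crest.Agent.R094.Red
import Crest.Agent.R094.Cone
import Crest.Agent.R094.ConeExt
import Crest.Agent.R094.HolderPt
import Crest.Agent.R094.Holder

set_option autoImplicit false
open scoped Gradient
open Crest Crest.AnalysisR Crest.AnalysisR.PDE

namespace Crest.Agent.S0124

open Crest.Agent.R094 in
theorem coneUp_div {E : Type*} [NormedAddCommGroup E] [InnerProductSpace ℝ E] {u : E → ℝ}
    (hu : ConeUp u) {c : ℝ} (hc : 0 < c) : ConeUp (fun x => u x / c) := by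
  intro x r₁ r₂ m₁ m₂ h0 h12 hx hm h1 h2 w hw1 hw2
  have := hu x r₁ r₂ (m₁ * c) (m₂ * c) h0 h12 hx (mul_le_mul_of_nonneg_right hm hc.le)
    (fun w hw => (div_le_iff₀ hc).1 (h1 w hw)) (fun w hw => (div_le_iff₀ hc).1 (h2 w hw)) w hw1 hw2
  rw [div_le_iff₀ hc]
  refine this.trans (le_of_eq ?_)
  ring

open Crest.Agent.R094 Metric in
/-- The normalised estimate. -/
theorem normalised {E : Type*} [NormedAddCommGroup E] [InnerProductSpace ℝ E]
    [FiniteDimensional ℝ E] [CompleteSpace E] :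
    ∃ α : ℝ, 0 < α ∧ α ≤ 1 / 3 ∧ ∃ C : ℝ, 0 ≤ C ∧ ∀ u : E → ℝ, ConeUp u → ConeUp (-u) →
      (∀ x ∈ ball (0 : E) 1, ∀ y ∈ ball (0 : E) 1, u x - u y ≤ 1) →
      ∃ g : E → E, (∀ x ∈ ball (0 : E) 2⁻¹, HasGradientAt u (g x) x ∧ ‖g x‖ ≤ C) ∧
        ∀ x ∈ ball (0 : E) 2⁻¹, ∀ y ∈ ball (0 : E) 2⁻¹, ‖g x - g y‖ ≤ C * ‖x - y‖ ^ α := by
  obtain ⟨β, N, hβ, hβ2, hN, hred⟩ := red (E := E)
  obtain ⟨C₁, ρ₀, hC₁, hρ₀, hpt⟩ :=
    holder_pt (E := E) β (5 * N) (1 / 128) hβ (by positivity) (by norm_num)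
  have hα : 0 < β / (2 + β) := by positivity
  obtain ⟨C, hC, hhol⟩ := holder (E := E) (β / (2 + β)) C₁ ρ₀ 8 hα hC₁ hρ₀
  refine ⟨β / (2 + β), hα, ?_, max C 8, le_max_of_le_left hC, ?_⟩
  · rw [div_le_div_iff₀ (by positivity) (by norm_num)]; linarith
  intro u hp hm hosc
  obtain ⟨U, hU, hUu, hcvx⟩ := cone_ext hp hm hosc
  have hex : ∀ x : E, ∃ g : E, x ∈ ball (0 : E) 2⁻¹ → ∀ ξ : E, ‖ξ‖ ≤ ρ₀ →
      |U (x + ξ) - U x - inner ℝ g ξ| ≤ C₁ * ‖ξ‖ ^ (1 + β / (2 + β)) := by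
    intro x
    by_cases hx : x ∈ ball (0 : E) 2⁻¹
    · have hx' : ‖x‖ ≤ 1 / 2 := by
        rw [mem_ball_zero_iff] at hx; linarith
      obtain ⟨g, hg⟩ := hpt U x (fun θ h0 h1 => by
        obtain ⟨h2, h3⟩ := hred U hU hcvx x hx' θ h0 h1
        obtain ⟨p, -, hp⟩ := exists_slope hU h0 h2 h3
        exact ⟨p, fun ξ => by have := hp ξ; linarith⟩)
      exact ⟨g, fun _ => hg⟩
    · exact ⟨0, fun h => absurd h hx⟩
  choose g hg using hex
  obtain ⟨h1, h2⟩ := hhol U (ball 0 2⁻¹) g hU hg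
  refine ⟨g, fun x hx => ⟨?_, (h1 x hx).2.trans (le_max_right _ _)⟩, fun x hx y hy => ?_⟩
  · refine (h1 x hx).1.congr_of_eventuallyEq ?_
    filter_upwards [isOpen_ball.mem_nhds hx] with w hw
    rw [mem_ball_zero_iff] at hw
    exact (hUu w (by linarith)).symm
  · exact (h2 x hx y hy).trans (mul_le_mul_of_nonneg_right (le_max_left _ _) (by positivity))

/-- For every dimension d ≥ 3 there are an exponent α with 0 < α ≤ 1/3 and a constant C, both depending only on d, such that every function u that is infinity-harmonic in the viscosity sense on the open unit ball of ℝᵈ and has oscillation at most M there (u x - u y ≤ M for all x, y in the ball) is differentiable at every point of the concentric open ball of radius 1/2, with ‖∇u(x)‖ ≤ C·M and ‖∇u(x) - ∇u(y)‖ ≤ C·M·‖x - y‖^α for all x, y in that smaller ball. -/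
theorem result
    (d : ℕ) (hd : 3 ≤ d) :
    ∃ α : ℝ, 0 < α ∧ α ≤ 1 / 3 ∧ ∃ C : ℝ,
      ∀ u : EuclideanSpace ℝ (Fin d) → ℝ,
        Crest.AnalysisR.PDE.IsInfinityHarmonicOn u (Metric.ball 0 1) →
        ∀ M : ℝ, (∀ x ∈ Metric.ball (0 : EuclideanSpace ℝ (Fin d)) 1,
            ∀ y ∈ Metric.ball (0 : EuclideanSpace ℝ (Fin d)) 1, u x - u y ≤ M) →
          (∀ x ∈ Metric.ball (0 : EuclideanSpace ℝ (Fin d)) 2⁻¹, DifferentiableAt ℝ u x) ∧
          ∀ x ∈ Metric.ball (0 : EuclideanSpace ℝ (Fin d)) 2⁻¹,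
            ∀ y ∈ Metric.ball (0 : EuclideanSpace ℝ (Fin d)) 2⁻¹,
              ‖∇ u x‖ ≤ C * M ∧ ‖∇ u x - ∇ u y‖ ≤ C * M * ‖x - y‖ ^ α := by
  obtain ⟨α, hα, hα3, C, hC, hmain⟩ := normalised (E := EuclideanSpace ℝ (Fin d))
  refine ⟨α, hα, hα3, C, ?_⟩
  intro u hu M hM
  obtain ⟨hp, hm⟩ := R094.coneUp_of_infHarmonic hu
  have hM0 : 0 ≤ M := by
    have := hM 0 (Metric.mem_ball_self one_pos) 0 (Metric.mem_ball_self one_pos)
    linarith
  have key : ∀ M' : ℝ, M < M' →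
      (∀ x ∈ Metric.ball (0 : EuclideanSpace ℝ (Fin d)) 2⁻¹, DifferentiableAt ℝ u x) ∧
      ∀ x ∈ Metric.ball (0 : EuclideanSpace ℝ (Fin d)) 2⁻¹,
        ∀ y ∈ Metric.ball (0 : EuclideanSpace ℝ (Fin d)) 2⁻¹,
          ‖∇ u x‖ ≤ C * M' ∧ ‖∇ u x - ∇ u y‖ ≤ C * M' * ‖x - y‖ ^ α := by
    intro M' hMM
    have hM' : 0 < M' := lt_of_le_of_lt hM0 hMM
    have hneg : (-fun x => u x / M') = fun x => (-u) x / M' := by
      funext x; simp [neg_div]
    obtain ⟨g, h1, h2⟩ := hmain (fun x => u x / M') (coneUp_div hp hM')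
      (by rw [hneg]; exact coneUp_div hm hM') (fun x hx y hy => by
        rw [← sub_div, div_le_one hM']; linarith [hM x hx y hy])
    have hgrad : ∀ x ∈ Metric.ball (0 : EuclideanSpace ℝ (Fin d)) 2⁻¹,
        HasGradientAt u (M' • g x) x := by
      intro x hx
      have h3 := (h1 x hx).1
      rw [hasGradientAt_iff_hasFDerivAt] at h3 ⊢
      have h4 := h3.const_mul M'
      have e : (fun y => M' * (u y / M')) = u := by
        funext y; field_simp
      rw [e] at h4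
      rw [map_smul]
      exact h4
    refine ⟨fun x hx => (hgrad x hx).differentiableAt, fun x hx y hy => ?_⟩
    rw [(hgrad x hx).gradient, (hgrad y hy).gradient, ← smul_sub, norm_smul, norm_smul,
      Real.norm_eq_abs, abs_of_pos hM']
    constructor
    · have := mul_le_mul_of_nonneg_left (h1 x hx).2 hM'.le
      linarith
    · have := mul_le_mul_of_nonneg_left (h2 x hx y hy) hM'.le
      linarith
  refine ⟨(key (M + 1) (by linarith)).1, fun x hx y hy => ⟨?_, ?_⟩⟩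
  · refine le_of_forall_pos_le_add fun ε hε => ?_
    have h1 := ((key (M + ε / (C + 1)) (by linarith [div_pos hε (by linarith : 0 < C + 1)])).2
      x hx y hy).1
    have h2 : C * (ε / (C + 1)) ≤ ε := by
      rw [← mul_div_assoc, div_le_iff₀ (by linarith)]; nlinarith
    linarith
  · refine le_of_forall_pos_le_add fun ε hε => ?_
    have hr : 0 ≤ ‖x - y‖ ^ α := by positivity
    have hpos : 0 < C * ‖x - y‖ ^ α + 1 := by positivity
    have h1 := ((key (M + ε / (C * ‖x - y‖ ^ α + 1)) (by linarith [div_pos hε hpos])).2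
      x hx y hy).2
    have h2 : C * ‖x - y‖ ^ α * (ε / (C * ‖x - y‖ ^ α + 1)) ≤ ε := by
      rw [← mul_div_assoc, div_le_iff₀ hpos]; nlinarith
    nlinarith

end Crest.Agent.S0124
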