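import Crest.Statements.S0125
import Crest.Agent.R095.Corner
import Crest.Agent.R095.Irr
import Crest.Agent.R095.Pack

set_option autoImplicit false
open Crest Crest.AnalysisR Crest.AnalysisR.OperatorAlgebra

namespace Crest.Agent.S0125

/-- Let H be a separable complex Hilbert space and M a von Neumann algebra on H that is a factor of type II₁: every element of M commuting with all of M is a scalar, M is infinite-dimensional, and M admits a faithful normal tracial state (presented in vector form). Then M is generated as a von Neumann algebra by one of its elements: some x in M is such that every von Neumann algebra on H containing x contains M. Separability of the predual is modelled by separability of H. -/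
theorem result
    (H : Type*) [NormedAddCommGroup H] [InnerProductSpace ℂ H] [CompleteSpace H]
    [TopologicalSpace.SeparableSpace H] (M : VonNeumannAlgebra H) (hM : Crest.OpAlg.IsTypeIIOneFactor M) :
    ∃ x ∈ M, ∀ N : VonNeumannAlgebra H, x ∈ N → M ≤ N := by
  obtain ⟨hfac, hinf, ξ, hξ⟩ := hM
  obtain ⟨τ, hτ, -, hW⟩ := R095.exists_vtr M ξ hξ
  obtain ⟨p, hpM, hp, hp0, hp1⟩ := R095.exists_nontrivial_proj M hinf
  have hfac' : R095.Irred (Set.univ : Set (R095.VN M)) := by
    intro x hx
    obtain ⟨c, hc⟩ := hfac x x.2 fun y hy => congrArg Subtype.val (hx ⟨y, hy⟩ trivial)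
    exact ⟨c, Subtype.ext hc⟩
  set p' : R095.VN M := ⟨p, hpM⟩ with hp'
  have hp'proj : IsStarProjection p' :=
    ⟨Subtype.ext hp.isIdempotentElem.eq, Subtype.ext hp.isSelfAdjoint.star_eq⟩
  have hp'0 : p' ≠ 0 := fun h => hp0 (congrArg Subtype.val h)
  have hp'1 : p' ≠ 1 := fun h => hp1 (congrArg Subtype.val h)
  obtain ⟨h, v, hh, hv, hhp, hv1, hirr⟩ :=
    R095.exists_irred_triple τ hτ hfac' p' hp'proj hp'0 hp'1
  set P : StarSubalgebra ℂ (R095.VN M) :=
    (StarAlgebra.adjoin ℂ ({h, p', v} : Set (R095.VN M))).topologicalClosure with hP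
  have hsub : ({h, p', v} : Set (R095.VN M)) ⊆ P :=
    (StarAlgebra.subset_adjoin ℂ _).trans (StarSubalgebra.le_topologicalClosure _)
  have hPirr : R095.Irred (P : Set (R095.VN M)) := fun x hx => hirr x fun y hy => hx y (hsub hy)
  obtain ⟨u, hu0, hu1, hu2, hgen⟩ := R095.amt_corner τ hτ P
    (StarSubalgebra.isClosed_topologicalClosure _) hPirr hinf p' hp'proj hp'0 (hsub (by simp))
  obtain ⟨x, hxM, hx⟩ := R095.exists_pack M h p v u h.2 hpM v.2 u.2 hp
    (congrArg Subtype.val hh.star_eq) (congrArg Subtype.val hv.star_eq)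
    (congrArg Subtype.val hhp) (congrArg Subtype.val hv1) (congrArg Subtype.val hu0)
    (congrArg Subtype.val hu1) (congrArg Subtype.val hu2)
  refine ⟨x, hxM, fun N hxN => ?_⟩
  obtain ⟨h1, h2, h3, h4⟩ := hx N hxN
  set B : StarSubalgebra ℂ (R095.VN M) :=
    N.toStarSubalgebra.comap M.toStarSubalgebra.subtype with hB
  have hBW : τ.WClosed (B : Set (R095.VN M)) := hW N
  have hPB : P ≤ B := by
    refine StarSubalgebra.topologicalClosure_minimal ?_ hBW.isClosed
    refine StarAlgebra.adjoin_le ?_
    rintro y (rfl | rfl | rfl)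
    exacts [h1, h2, h3]
  have htop := hgen B hBW hPB h4
  intro y hy
  have : (⟨y, hy⟩ : R095.VN M) ∈ B := htop ▸ StarSubalgebra.mem_top
  exact this

end Crest.Agent.S0125
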