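import Crest.Statements.S0126
import Crest.Agent.R095.AMT
import Crest.Agent.R095.Concrete

set_option autoImplicit false
open Crest Crest.AnalysisR Crest.AnalysisR.OperatorAlgebra

namespace Crest.Agent.S0126

/-- Let P ≤ M be von Neumann algebras on a separable complex Hilbert space H, both factors of type II₁, with P irreducible in M (an element of M commuting with all of P is a scalar), and let ξ present a faithful normal tracial state of M, with squared trace 2-norm x ↦ ∑ ‖x (ξ n)‖². Then the unitaries u of M such that every von Neumann algebra on H containing P and u contains M form a countable intersection of relatively 2-norm-open subsets of the unitaries of M, 2-norm-dense in the unitaries of M. -/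
theorem result
    (H : Type*) [NormedAddCommGroup H] [InnerProductSpace ℂ H] [CompleteSpace H]
    [TopologicalSpace.SeparableSpace H] (P M : VonNeumannAlgebra H) (hPM : P ≤ M)
    (hP : Crest.OpAlg.IsTypeIIOneFactor P) (hM : Crest.OpAlg.IsTypeIIOneFactor M)
    (hPM' : ∀ x ∈ M, (∀ y ∈ P, x * y = y * x) → ∃ c : ℂ, x = c • (1 : H →L[ℂ] H))
    (ξ : ℕ → H) (hξ : Crest.OpAlg.IsFaithfulTracialVectorState M ξ) :
    (∃ O : ℕ → Set (H →L[ℂ] H),
      (∀ k : ℕ, ∀ u ∈ M, u ∈ unitary (H →L[ℂ] H) → u ∈ O k → ∃ δ : ℝ, 0 < δ ∧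
        ∀ v ∈ M, v ∈ unitary (H →L[ℂ] H) → Crest.OpAlg.traceNormSq ξ (v - u) < δ → v ∈ O k) ∧
      (∀ u ∈ M, u ∈ unitary (H →L[ℂ] H) →
        ((∀ N : VonNeumannAlgebra H, P ≤ N → u ∈ N → M ≤ N) ↔ ∀ k : ℕ, u ∈ O k))) ∧
    (∀ u ∈ M, u ∈ unitary (H →L[ℂ] H) → ∀ ε : ℝ, 0 < ε →
      ∃ v ∈ M, v ∈ unitary (H →L[ℂ] H) ∧ (∀ N : VonNeumannAlgebra H, P ≤ N → v ∈ N → M ≤ N) ∧
        Crest.OpAlg.traceNormSq ξ (v - u) < ε) := by
  obtain ⟨τ, hτ, hn2, hW⟩ := R095.exists_vtr M ξ hξ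
  set ι := M.toStarSubalgebra.subtype with hι
  set P' : StarSubalgebra ℂ (R095.VN M) := P.toStarSubalgebra.comap ι with hP'
  have hunit : ∀ u : R095.VN M, u ∈ unitary (R095.VN M) ↔ (u : H →L[ℂ] H) ∈ unitary (H →L[ℂ] H) := by
    intro u
    simp only [Unitary.mem_iff]
    exact ⟨fun h => ⟨congrArg Subtype.val h.1, congrArg Subtype.val h.2⟩,
      fun h => ⟨Subtype.ext h.1, Subtype.ext h.2⟩⟩
  have hgen : ∀ (u : R095.VN M), (∀ B : StarSubalgebra ℂ (R095.VN M),
      τ.WClosed (B : Set (R095.VN M)) → P' ≤ B → u ∈ B → B = ⊤) →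
      ∀ N : VonNeumannAlgebra H, P ≤ N → (u : H →L[ℂ] H) ∈ N → M ≤ N := by
    intro u hu N hPN huN y hy
    have htop := hu (N.toStarSubalgebra.comap ι) (hW N) (fun x hx => hPN hx) huN
    have : (⟨y, hy⟩ : R095.VN M) ∈ N.toStarSubalgebra.comap ι := htop ▸ StarSubalgebra.mem_top
    exact this
  have hlt : ∀ (x : R095.VN M) (δ : ℝ), 0 < δ →
      (τ.n2 x < δ ↔ Crest.OpAlg.traceNormSq ξ (x : H →L[ℂ] H) < δ ^ 2) := by
    intro x δ hδ
    rw [← hn2, pow_lt_pow_iff_left₀ (τ.n2_nonneg x) hδ.le two_ne_zero]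
  refine ⟨?_, ?_⟩
  · haveI := hτ.sep
    haveI : Nonempty τ.L2 := ⟨0⟩
    obtain ⟨d, hd⟩ := TopologicalSpace.exists_dense_seq τ.L2
    refine ⟨fun k => {u | ∀ hu : u ∈ M,
      ∃ q ∈ StarAlgebra.adjoin ℂ ((P' : Set (R095.VN M)) ∪ {⟨u, hu⟩}),
        τ.n2 (τ.toL2.symm (d k.unpair.1) - q) < 1 / ((k.unpair.2 : ℝ) + 1)}, ?_, ?_⟩
    · intro k u huM hu hk
      obtain ⟨q, hq, hlt'⟩ := hk huM
      obtain ⟨C, hC0, hC⟩ := R095.adjoin_lipschitz τ _ ⟨u, huM⟩ ((hunit _).2 hu) q hq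
      set g := 1 / ((k.unpair.2 : ℝ) + 1) - τ.n2 (τ.toL2.symm (d k.unpair.1) - q) with hg
      have hg0 : 0 < g := sub_pos.2 hlt'
      have hδ : 0 < g / (C + 1) := by positivity
      refine ⟨(g / (C + 1)) ^ 2, by positivity, fun v hvM hv hvu hvM' => ?_⟩
      obtain ⟨q', hq', -, hqq⟩ := hC ⟨v, hvM⟩ ((hunit _).2 hv)
      refine ⟨q', hq', ?_⟩
      have h1 : τ.n2 ((⟨v, hvM⟩ : R095.VN M) - ⟨u, huM⟩) < g / (C + 1) := (hlt _ _ hδ).2 hvu
      rw [τ.n2_sub_comm] at h1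
      have h2 := τ.n2_triangle (τ.toL2.symm (d k.unpair.1)) q q'
      have h3 : C * τ.n2 ((⟨u, huM⟩ : R095.VN M) - ⟨v, hvM⟩) ≤ C * (g / (C + 1)) :=
        mul_le_mul_of_nonneg_left h1.le hC0
      have h4 : C * (g / (C + 1)) < g := by
        rw [mul_div_assoc', div_lt_iff₀ (by positivity)]; nlinarith
      linarith
    · intro u huM hu
      constructor
      · intro hN k huM'
        set B' := StarAlgebra.adjoin ℂ ((P' : Set (R095.VN M)) ∪ {⟨u, huM'⟩}) with hB'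
        obtain ⟨N, hNc⟩ := R095.exists_vn_bicommutant (B'.map ι)
        have hBN : ∀ b ∈ B', (b : H →L[ℂ] H) ∈ N := by
          intro b hb
          rw [← SetLike.mem_coe, hNc]
          exact Set.subset_centralizer_centralizer ⟨b, hb, rfl⟩
        have hMN : M ≤ N := by
          refine hN N (fun x hx => ?_) (hBN ⟨u, huM'⟩ (StarAlgebra.subset_adjoin ℂ _ (by simp)))
          exact hBN ⟨x, hPM hx⟩ (StarAlgebra.subset_adjoin ℂ _ (Or.inl hx))
        set y : R095.VN M := τ.toL2.symm (d k.unpair.1) with hy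
        have hyN : (y : H →L[ℂ] H) ∈ Set.centralizer (Set.centralizer
            ((B'.map ι : StarSubalgebra ℂ (H →L[ℂ] H)) : Set (H →L[ℂ] H))) := by
          rw [← hNc]; exact hMN y.2
        have hδ : (0 : ℝ) < 1 / ((k.unpair.2 : ℝ) + 1) := by positivity
        obtain ⟨b, ⟨q, hq, rfl⟩, hb⟩ := R095.bicommutant_approx (B'.map ι) ξ hξ.1.summable y hyN
          ((1 / ((k.unpair.2 : ℝ) + 1)) ^ 2) (by positivity)
        exact ⟨q, hq, (hlt _ _ hδ).2 hb⟩
      · intro hk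
        refine hgen ⟨u, huM⟩ fun B hB hPB huB => ?_
        refine R095.eq_top_of_dense τ hτ.faithful hτ.complete B hB fun y ε hε => ?_
        obtain ⟨i, hi⟩ := hd.exists_dist_lt (τ.toL2 y) (half_pos hε)
        obtain ⟨j, hj⟩ := exists_nat_one_div_lt (half_pos hε)
        obtain ⟨q, hq, hlt'⟩ := hk (Nat.pair i j) huM
        simp only [Nat.unpair_pair] at hlt'
        refine ⟨q, StarAlgebra.adjoin_le (S := B) ?_ hq, ?_⟩
        · rintro x (hx | rfl)
          exacts [hPB hx, huB]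
        · have h2 := τ.n2_triangle y (τ.toL2.symm (d i)) q
          have h3 : τ.n2 (y - τ.toL2.symm (d i)) < ε / 2 := by
            rw [← τ.dist_toL2]; simpa using hi
          linarith
  · intro u huM hu ε hε
    have hP'c : IsClosed (P' : Set (R095.VN M)) := (hW P).isClosed
    have hirr : R095.Irred (P' : Set (R095.VN M)) := by
      intro x hx
      obtain ⟨c, hc⟩ := hPM' x x.2 fun y hy => congrArg Subtype.val (hx ⟨y, hPM hy⟩ hy)
      exact ⟨c, Subtype.ext hc⟩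
    have hinf : ¬ FiniteDimensional ℂ P' := by
      intro hfd
      apply hP.2.1
      let f : P' →ₗ[ℂ] P.toStarSubalgebra :=
        { toFun := fun x => ⟨((x : R095.VN M) : H →L[ℂ] H), x.2⟩
          map_add' := fun _ _ => rfl
          map_smul' := fun _ _ => rfl }
      exact Module.Finite.of_surjective f fun y => ⟨⟨⟨y, hPM y.2⟩, y.2⟩, rfl⟩
    obtain ⟨v, hv, hvu, hvg⟩ := R095.amt τ hτ P' hP'c hirr hinf ⟨u, huM⟩ ((hunit _).2 hu) √ε
      (Real.sqrt_pos.2 hε)
    refine ⟨v, v.2, (hunit _).1 hv, hgen v hvg, ?_⟩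
    have := (hlt _ _ (Real.sqrt_pos.2 hε)).1 hvu
    rwa [Real.sq_sqrt hε.le] at this

end Crest.Agent.S0126
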