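import Crest.Statements.S0136
import Crest.Agent.R103.WM
import Crest.Agent.R103.Transfer
import Crest.Agent.R103.ChainTraj
import Crest.Agent.R103.TrajChain

set_option autoImplicit false
open MeasureTheory
open scoped symmDiff
open Crest.AnalysisR.Billiard
open Crest Crest.AnalysisR

namespace Crest.Agent.S0136

/-- In a non-degenerate plane triangle with an angle that is an irrational multiple of π, let orbits be complete two-sided unit-speed flight chains (specular reflection at open sides, no vertex met) and μ = area in the triangle × arc length on unit velocities. Then μ-a.e. point lies on an orbit, orbits through a point agree at all times, and for Φ agreeing a.e. with the orbits, each measurable set of pairs invariant up to (μ ⊗ μ)-null sets under all (x, y) ↦ (Φ_t x, Φ_t y) is null or co-null. -/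
theorem result
    (A : Fin 3 → Plane) (hA : AffineIndependent ℝ A)
    (hirr : ∃ i : Fin 3,
      Irrational (EuclideanGeometry.angle (A (i + 1)) (A i) (A (i + 2)) / Real.pi)) :
    (∀ᵐ p ∂(phaseMeasure A), (∃ c : Chain A, c.Through p) ∧
        ∀ c c' : Chain A, c.Through p → c'.Through p →
          ∀ (τ : ℝ) (y y' : Phase), c.IsStateAt τ y → c'.IsStateAt τ y' → y = y') ∧
    ∀ Φ : ℝ → Phase → Phase,
      (∀ᵐ p ∂(phaseMeasure A), ∃ c : Chain A, c.Through p ∧ ∀ τ : ℝ, c.IsStateAt τ (Φ τ p)) →
      ∀ s : Set (Phase × Phase), MeasurableSet s →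
        (∀ τ : ℝ, ((phaseMeasure A).prod (phaseMeasure A))
            (((fun z : Phase × Phase => (Φ τ z.1, Φ τ z.2)) ⁻¹' s) ∆ s) = 0) →
        ((phaseMeasure A).prod (phaseMeasure A)) s = 0 ∨
          ((phaseMeasure A).prod (phaseMeasure A)) sᶜ = 0 := by
  classical
  obtain ⟨Δ, hL⟩ := R103.exists_link hA
  have key : ∀ (c : Chain A) (m : R103.M), m ∈ Δ.Ω → c.Through (R103.pr m) →
      ∀ t, c.IsStateAt t (R103.pr (Δ.φ t m)) := by
    intro c m hm hc t
    obtain ⟨γ, h1, h2, h3⟩ := R103.traj_of_chain hL c m.2.2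
    have h4 : γ 0 = m := R103.pr_inj (R103.isStateAt_unique c (h3 0) hc) h2
    have h5 := h1.φ_eq 0 t
    rw [h4, zero_add] at h5
    rw [h5]
    exact h3 t
  refine ⟨?_, fun Φ hΦ s hs hinv => ?_⟩
  · filter_upwards [hL.ae_exists_pr Δ.ae_mem_Ω] with p hp
    obtain ⟨m, hm, rfl⟩ := hp
    refine ⟨?_, fun c c' hc hc' τ y y' hy hy' => ?_⟩
    · obtain ⟨c, hc⟩ := R103.chain_of_traj hL (Δ.isTraj_φ hm)
      refine ⟨c, ?_⟩
      have := hc 0
      rwa [Δ.φ_zero] at this
    · rw [R103.isStateAt_unique c hy (key c m hm hc τ),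
        R103.isStateAt_unique c' hy' (key c' m hm hc' τ)]
  · have h1 : ∀ᵐ m ∂Δ.μ, ∀ t, Φ t (R103.pr m) = R103.pr (Δ.φ t m) := by
      filter_upwards [hL.ae_pr hΦ, Δ.ae_mem_Ω] with m hm hΩ t
      obtain ⟨c, hc, hc'⟩ := hm
      exact R103.isStateAt_unique c (hc' t) (key c m hΩ hc t)
    obtain ⟨κ, hκ0, hκ1, hκ⟩ := hL.map_pr2
    have hpm : Measurable (Prod.map R103.pr R103.pr) :=
      R103.continuous_pr.measurable.prodMap R103.continuous_pr.measurable
    have hq : Measure.QuasiMeasurePreserving (Prod.map R103.pr R103.pr) Δ.μ2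
        ((phaseMeasure A).prod (phaseMeasure A)) :=
      ⟨hpm, by rw [hκ]; exact Measure.smul_absolutelyContinuous⟩
    set s' : Set (R103.M × R103.M) := Prod.map R103.pr R103.pr ⁻¹' s with hs'
    have hs'm : MeasurableSet s' := hpm hs
    have hInv : Δ.Inv (s'.indicator fun _ => (1 : ℝ)) := by
      intro t
      have h2 := hq.ae (measure_eq_zero_iff_ae_notMem.1 (hinv t))
      filter_upwards [h2, Δ.ae_fst h1, Δ.ae_snd h1] with n h3 h4 h5
      have h6 : (Δ.φ t n.1, Δ.φ t n.2) ∈ s' ↔ n ∈ s' := by
        simp only [hs', Set.mem_preimage, Prod.map, ← h4 t, ← h5 t]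
        simp only [Set.mem_symmDiff, Set.mem_preimage, Prod.map] at h3
        tauto
      simp only [Set.indicator_apply, h6]
    obtain ⟨c, hc⟩ := Δ.weak_mixing (hL.irr hirr) (measurable_const.indicator hs'm)
      (fun n => by rw [Set.indicator_apply]; split_ifs <;> simp) hInv
    have hnull : ∀ B : Set (Phase × Phase), MeasurableSet B →
        Δ.μ2 (Prod.map R103.pr R103.pr ⁻¹' B) = 0 →
          ((phaseMeasure A).prod (phaseMeasure A)) B = 0 := by
      intro B hB h0
      rw [← Measure.map_apply hpm hB, hκ, Measure.smul_apply, smul_eq_mul, mul_eq_zero] at h0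
      exact h0.resolve_left hκ0
    by_cases hc1 : c = 1
    · refine Or.inr (hnull _ hs.compl (measure_eq_zero_iff_ae_notMem.2 ?_))
      filter_upwards [hc] with n hn h
      rw [Set.indicator_of_notMem (s := s') h, hc1] at hn
      exact zero_ne_one hn
    · refine Or.inl (hnull _ hs (measure_eq_zero_iff_ae_notMem.2 ?_))
      filter_upwards [hc] with n hn h
      rw [Set.indicator_of_mem (s := s') h] at hn
      exact hc1 hn.symm

end Crest.Agent.S0136
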