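import Crest.Statements.S0143
import Crest.Agent.R109.Top

set_option autoImplicit false
open Crest Crest.AnalysisR Crest.AnalysisR.OperatorAlgebra

namespace Crest.Agent.S0143

/-- Let 0 < ε < 1 and r = ⌈400000000/ε²⌉ + ⌈4/ε⌉ + 1. For every von Neumann algebra M on a complex Hilbert space H, every maximal abelian unital ⋆-subalgebra A of M, every self-adjoint x in M, every finite set F of vectors and every δ > 0, there are r pairwise orthogonal projections p_i in A summing to 1 (some may be 0), a self-adjoint a in A with ‖a‖ ≤ ‖x‖ and a projection q in M with ‖(1 − q)ξ‖ < δ for ξ in F and ‖q(∑ p_i x p_i − a)q‖ ≤ ε‖x‖. -/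
theorem result (ε : ℝ) (hε : 0 < ε) (hε1 : ε < 1)
    (H : Type*) [NormedAddCommGroup H] [InnerProductSpace ℂ H] [CompleteSpace H] (M : VonNeumannAlgebra H) (A : StarSubalgebra ℂ (H →L[ℂ] H))
    (hAM : A ≤ M.toStarSubalgebra) (hA : ∀ a ∈ A, ∀ b ∈ A, a * b = b * a)
    (hAmax : ∀ y ∈ M, (∀ a ∈ A, a * y = y * a) → y ∈ A)
    (x : H →L[ℂ] H) (hxM : x ∈ M) (hx : IsSelfAdjoint x) (F : Finset H) (δ : ℝ) (hδ : 0 < δ) :
    ∃ p : Fin (Nat.ceil (400000000 / ε ^ 2) + Nat.ceil (4 / ε) + 1) → (H →L[ℂ] H),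
      (∀ i, p i ∈ A ∧ IsStarProjection (p i)) ∧ (∀ i j, i ≠ j → p i * p j = 0) ∧
      ∑ i, p i = 1 ∧
      ∃ a ∈ A, IsSelfAdjoint a ∧ ‖a‖ ≤ ‖x‖ ∧
        ∃ q ∈ M, IsStarProjection q ∧ (∀ ξ ∈ F, ‖(1 - q) ξ‖ < δ) ∧
          ‖q * (∑ i, p i * x * p i - a) * q‖ ≤ ε * ‖x‖ := by
  letI : PartialOrder M.toStarSubalgebra := CStarAlgebra.spectralOrder _
  haveI : StarOrderedRing M.toStarSubalgebra := CStarAlgebra.spectralOrderedRing _
  obtain ⟨W, hW⟩ := R109.exists_wst M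
  obtain ⟨A', hA', mA'⟩ := R109.exists_masa M A hAM hA hAmax
  let x' : M.toStarSubalgebra := ⟨x, hxM⟩
  let c : ℝ := ‖x‖
  have hc : 0 ≤ c := norm_nonneg _
  let x₁ : M.toStarSubalgebra := ((c⁻¹ : ℝ) : ℂ) • x'
  have hx₁ : IsSelfAdjoint x₁ := by
    have h0 : star x' = x' := Subtype.ext hx
    rw [IsSelfAdjoint, star_smul, h0, Complex.star_def, Complex.conj_ofReal]
  have hn₁ : ‖x₁‖ ≤ 1 := by
    rw [norm_smul, Complex.norm_real, Real.norm_of_nonneg (inv_nonneg.2 hc)]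
    exact inv_mul_le_one_of_le₀ le_rfl hc
  have hxx : x' = (c : ℂ) • x₁ := by
    rcases hc.eq_or_lt with h0 | h0
    · have : x' = 0 := Subtype.ext (norm_eq_zero.1 h0.symm)
      simp [x₁, this]
    · rw [smul_smul, ← Complex.ofReal_mul, mul_inv_cancel₀ h0.ne', Complex.ofReal_one, one_smul]
  obtain ⟨p, hp, a, ha, hsa, hna, q, hq, hqs, hb⟩ := R109.so_pave W hA' hx₁ hn₁ hε hε1
    (Nat.le_ceil _) (Nat.le_ceil _) F hδ
  have hproj : ∀ e : M.toStarSubalgebra, IsStarProjection e →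
      IsStarProjection (e : H →L[ℂ] H) := fun e he =>
    ⟨congrArg Subtype.val he.isIdempotentElem, congrArg Subtype.val he.isSelfAdjoint⟩
  refine ⟨fun i => p i, fun i => ⟨(mA' _).1 (hp.mem i), hproj _ (hp.proj i)⟩,
    fun i j hij => congrArg Subtype.val (hp.orth i j hij), ?_, (((c : ℂ) • a : _) : _),
    (mA' _).1 (SMulMemClass.smul_mem _ ha), ?_, ?_, q, q.2, hproj _ hq, fun ξ hξ => ?_, ?_⟩
  · have := congrArg M.toStarSubalgebra.subtype hp.sum
    rwa [map_sum, map_one] at this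
  · have : IsSelfAdjoint ((c : ℂ) • a) := by
      rw [IsSelfAdjoint, star_smul, hsa.star_eq, Complex.star_def, Complex.conj_ofReal]
    exact congrArg Subtype.val this
  · change ‖(c : ℂ) • a‖ ≤ c
    rw [norm_smul, Complex.norm_real, Real.norm_of_nonneg hc]
    exact mul_le_of_le_one_right hc hna
  · have := hqs ξ hξ
    rwa [hW] at this
  · have e : q * (R109.pinch p x' - (c : ℂ) • a) * q = (c : ℂ) • (q * (R109.pinch p x₁ - a) * q) := by
      rw [hxx, R109.pinch_smul, ← smul_sub, mul_smul_comm, smul_mul_assoc]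
    have h1 : ‖q * (R109.pinch p x' - (c : ℂ) • a) * q‖ ≤ ε * c := by
      rw [e, norm_smul, Complex.norm_real, Real.norm_of_nonneg hc, mul_comm]
      exact mul_le_mul_of_nonneg_right hb hc
    have h2 : ((R109.pinch p x' : M.toStarSubalgebra) : H →L[ℂ] H) = ∑ i, (p i : H →L[ℂ] H) * x * p i :=
      map_sum M.toStarSubalgebra.subtype _ _
    rw [← h2]
    exact h1

end Crest.Agent.S0143
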