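import Crest.Statements.S0144
import Crest.Agent.R109.Top

set_option autoImplicit false
universe u
open Crest Crest.AnalysisR Crest.AnalysisR.OperatorAlgebra

namespace Crest.Agent.S0144

/-- For some constant C > 0 and every 0 < ε < 1, some natural number R ≤ C/ε⁶ has this property: for every von Neumann algebra M on a complex Hilbert space, every maximal abelian unital ⋆-subalgebra A of M, every self-adjoint x in M, every finite set F of vectors and δ > 0, there are a self-adjoint y in M with ‖y‖ ≤ 3‖x‖ and ‖(y − x)ξ‖ < δ for ξ in F, R pairwise orthogonal projections p_i in A with sum 1 (some may be 0), and a self-adjoint a in A with ‖a‖ ≤ ‖y‖ and ‖∑ p_i y p_i − a‖ ≤ ε‖y‖. -/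
theorem result :
    ∃ C : ℝ, 0 < C ∧ ∀ ε : ℝ, 0 < ε → ε < 1 → ∃ R : ℕ, (R : ℝ) ≤ C / ε ^ 6 ∧
      ∀ (H : Type u) [NormedAddCommGroup H] [InnerProductSpace ℂ H] [CompleteSpace H]
        (M : VonNeumannAlgebra H) (A : StarSubalgebra ℂ (H →L[ℂ] H)),
        A ≤ M.toStarSubalgebra → (∀ a ∈ A, ∀ b ∈ A, a * b = b * a) →
        (∀ y ∈ M, (∀ a ∈ A, a * y = y * a) → y ∈ A) →
        ∀ x ∈ M, IsSelfAdjoint x → ∀ (F : Finset H) (δ : ℝ), 0 < δ →
          ∃ y ∈ M, IsSelfAdjoint y ∧ ‖y‖ ≤ 3 * ‖x‖ ∧ (∀ ξ ∈ F, ‖(y - x) ξ‖ < δ) ∧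
            ∃ p : Fin R → (H →L[ℂ] H),
              (∀ i, p i ∈ A ∧ IsStarProjection (p i)) ∧ (∀ i j, i ≠ j → p i * p j = 0) ∧
              ∑ i, p i = 1 ∧
              ∃ a ∈ A, IsSelfAdjoint a ∧ ‖a‖ ≤ ‖y‖ ∧ ‖∑ i, p i * y * p i - a‖ ≤ ε * ‖y‖ := by
  refine ⟨6400000011, by norm_num, fun ε hε hε1 =>
    ⟨Nat.ceil (400000000 / (ε / 4) ^ 2) + Nat.ceil (8 / ε) + 1, ?_, ?_⟩⟩
  · have h1 := Nat.ceil_lt_add_one (show 0 ≤ 400000000 / (ε / 4) ^ 2 by positivity)
    have h2 := Nat.ceil_lt_add_one (show 0 ≤ 8 / ε by positivity)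
    have h6 : 0 < ε ^ 6 := by positivity
    have k1 : 400000000 / (ε / 4) ^ 2 ≤ 6400000000 / ε ^ 6 := by
      rw [div_le_div_iff₀ (by positivity) h6]
      have : ε ^ 6 ≤ ε ^ 2 := pow_le_pow_of_le_one hε.le hε1.le (by norm_num)
      nlinarith
    have k2 : 8 / ε ≤ 8 / ε ^ 6 := by
      have : ε ^ 6 ≤ ε ^ 1 := pow_le_pow_of_le_one hε.le hε1.le (by norm_num)
      rw [pow_one] at this
      gcongr
    have k3 : (3 : ℝ) ≤ 3 / ε ^ 6 := by
      rw [le_div_iff₀ h6]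
      have : ε ^ 6 ≤ 1 := pow_le_one₀ hε.le hε1.le
      linarith
    have k4 : (6400000011 : ℝ) / ε ^ 6 = 6400000000 / ε ^ 6 + 8 / ε ^ 6 + 3 / ε ^ 6 := by ring
    push_cast
    linarith
  intro H _ _ _ M A hAM hA hAmax x hxM hx F δ hδ
  rcases eq_or_ne x 0 with rfl | hx0
  · refine ⟨0, zero_mem _, IsSelfAdjoint.zero _, by simp, fun ξ _ => by simpa using hδ,
      Pi.single (Fin.last _) 1, fun i => ?_, fun i j hij => ?_, by simp, 0, zero_mem _,
      IsSelfAdjoint.zero _, by simp, by simp⟩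
    · rcases eq_or_ne i (Fin.last _) with rfl | hi
      · simpa using one_mem A
      · simpa [hi] using zero_mem A
    · rcases eq_or_ne i (Fin.last _) with rfl | hi
      · simp [hij.symm]
      · simp [hi]
  letI : PartialOrder M.toStarSubalgebra := CStarAlgebra.spectralOrder _
  haveI : StarOrderedRing M.toStarSubalgebra := CStarAlgebra.spectralOrderedRing _
  obtain ⟨W, hW⟩ := R109.exists_wst M
  obtain ⟨A', hA', mA'⟩ := R109.exists_masa M A hAM hA hAmax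
  let x' : M.toStarSubalgebra := ⟨x, hxM⟩
  let c : ℝ := ‖x‖
  have hc : 0 < c := norm_pos_iff.2 hx0
  let x₁ : M.toStarSubalgebra := ((c⁻¹ : ℝ) : ℂ) • x'
  have hx₁ : IsSelfAdjoint x₁ := by
    have h0 : star x' = x' := Subtype.ext hx
    rw [IsSelfAdjoint, star_smul, h0, Complex.star_def, Complex.conj_ofReal]
  have hn₁ : ‖x₁‖ = 1 := by
    rw [norm_smul, Complex.norm_real, Real.norm_of_nonneg (inv_nonneg.2 hc.le)]
    exact inv_mul_cancel₀ hc.ne'
  have hxx : x' = (c : ℂ) • x₁ := by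
    rw [smul_smul, ← Complex.ofReal_mul, mul_inv_cancel₀ hc.ne', Complex.ofReal_one, one_smul]
  obtain ⟨y, hy, hy3, hys, p, hp, a, ha, hsa, hna, hb⟩ := R109.ap_pave W hA' hx₁ hn₁ hε hε1
    (Nat.le_ceil _) (Nat.le_ceil _) F (div_pos hδ hc)
  have hproj : ∀ e : M.toStarSubalgebra, IsStarProjection e →
      IsStarProjection (e : H →L[ℂ] H) := fun e he =>
    ⟨congrArg Subtype.val he.isIdempotentElem, congrArg Subtype.val he.isSelfAdjoint⟩
  have hsm : ∀ b : M.toStarSubalgebra, IsSelfAdjoint b →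
      IsSelfAdjoint (((c : ℂ) • b : M.toStarSubalgebra) : H →L[ℂ] H) := fun b hb => by
    have : IsSelfAdjoint ((c : ℂ) • b) := by
      rw [IsSelfAdjoint, star_smul, hb.star_eq, Complex.star_def, Complex.conj_ofReal]
    exact congrArg Subtype.val this
  have hnm : ∀ b : M.toStarSubalgebra,
      ‖(((c : ℂ) • b : M.toStarSubalgebra) : H →L[ℂ] H)‖ = c * ‖b‖ := fun b => by
    change ‖(c : ℂ) • b‖ = _
    rw [norm_smul, Complex.norm_real, Real.norm_of_nonneg hc.le]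
  refine ⟨(((c : ℂ) • y : M.toStarSubalgebra) : H →L[ℂ] H), ((c : ℂ) • y).2, hsm y hy, ?_,
    fun ξ hξ => ?_, fun i => p i, fun i => ⟨(mA' _).1 (hp.mem i), hproj _ (hp.proj i)⟩,
    fun i j hij => congrArg Subtype.val (hp.orth i j hij), ?_, (((c : ℂ) • a : _) : _),
    (mA' _).1 (SMulMemClass.smul_mem _ ha), hsm a hsa, ?_, ?_⟩
  · rw [hnm, mul_comm]
    exact mul_le_mul_of_nonneg_right hy3 hc.le
  · have h1 := hys ξ hξ
    rw [hW, lt_div_iff₀ hc] at h1
    have h2 : (((c : ℂ) • y : M.toStarSubalgebra) : H →L[ℂ] H) - x =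
        (c : ℂ) • ((y - x₁ : M.toStarSubalgebra) : H →L[ℂ] H) := by
      have h3 : (c : ℂ) • y - x' = (c : ℂ) • (y - x₁) := by rw [smul_sub, ← hxx]
      exact congrArg Subtype.val h3
    rw [h2, smul_apply, norm_smul, Complex.norm_real, Real.norm_of_nonneg hc.le, mul_comm]
    exact h1
  · have := congrArg M.toStarSubalgebra.subtype hp.sum
    rwa [map_sum, map_one] at this
  · rw [hnm, hnm]
    exact mul_le_mul_of_nonneg_left hna hc.le
  · have e : R109.pinch p ((c : ℂ) • y) - (c : ℂ) • a = (c : ℂ) • (R109.pinch p y - a) := by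
      rw [R109.pinch_smul, ← smul_sub]
    have h1 : ‖((R109.pinch p ((c : ℂ) • y) - (c : ℂ) • a : M.toStarSubalgebra) : H →L[ℂ] H)‖ ≤
        ε * ‖(((c : ℂ) • y : M.toStarSubalgebra) : H →L[ℂ] H)‖ := by
      rw [e, hnm, hnm, mul_left_comm]
      exact mul_le_mul_of_nonneg_left hb hc.le
    have h2 : ((R109.pinch p ((c : ℂ) • y) : M.toStarSubalgebra) : H →L[ℂ] H) =
        ∑ i, (p i : H →L[ℂ] H) * (((c : ℂ) • y : M.toStarSubalgebra) : H →L[ℂ] H) * p i :=
      map_sum M.toStarSubalgebra.subtype _ _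
    rw [← h2]
    exact h1

end Crest.Agent.S0144
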