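import Crest.Statements.S0145
import Crest.Agent.R110.Iter

set_option autoImplicit false
open Crest Crest.AnalysisR Crest.AnalysisR.OperatorAlgebra

namespace Crest.Agent.S0145

/-- Let C be a complex C⋆-algebra, possibly without unit, in which every positive element h is properly infinite (for every ε > 0 some r, s satisfy ‖r⋆hr − h‖ < ε, ‖s⋆hs − h‖ < ε, ‖r⋆hs‖ < ε; this is h ⊕ h ≾ h written entrywise). Then for all positive a, b, every c and every ε > 0 there are s, t in C with ‖s⋆as − a‖ < ε, ‖t⋆bt − b‖ < ε and ‖s⋆ct‖ < ε. Positive elements are those of the form x⋆x. -/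
theorem result
    (C : Type*) [NonUnitalCStarAlgebra C]
    (hC : ∀ x : C, Crest.OpAlg.IsProperlyInfinite (star x * x))
    (a b c : C) (ha : ∃ x : C, a = star x * x) (hb : ∃ y : C, b = star y * y) (ε : ℝ) (hε : 0 < ε) :
    ∃ s t : C, ‖star s * a * s - a‖ < ε ∧ ‖star t * b * t - b‖ < ε ∧ ‖star s * c * t‖ < ε := by
  letI := CStarAlgebra.spectralOrder (Unitization ℂ C)
  haveI := CStarAlgebra.spectralOrderedRing (Unitization ℂ C)
  have hmem : ∀ (x : C) (u v : Unitization ℂ C),
      ∃ y : C, u * (x : Unitization ℂ C) * v = (y : Unitization ℂ C) := by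
    intro x u v
    induction u using Unitization.ind with
    | inl_add_inr r m =>
      induction v using Unitization.ind with
      | inl_add_inr r' m' =>
        refine ⟨r' • (r • x + m * x) + (r • x + m * x) * m', ?_⟩
        have e1 : (Unitization.inl r + (m : Unitization ℂ C)) * (x : Unitization ℂ C)
            = ((r • x + m * x : C) : Unitization ℂ C) := by
          rw [add_mul, Unitization.inl_mul_inr, Unitization.inr_add, Unitization.inr_mul]
        rw [e1, mul_add, Unitization.inr_mul_inl, ← Unitization.inr_mul, ← Unitization.inr_add]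
  have hpi : ∀ x : C, Crest.Agent.R110.Pi (x : Unitization ℂ C) := by
    intro x u v
    obtain ⟨y, hy⟩ := hmem x u v
    rw [hy]
    intro δ hδ
    obtain ⟨r, s, h1, h2, h3⟩ := hC y δ hδ
    refine ⟨(r : Unitization ℂ C), (s : Unitization ℂ C), ?_, ?_, ?_⟩
    · rw [← Unitization.norm_inr (𝕜 := ℂ)] at h1
      simpa only [Unitization.inr_sub, Unitization.inr_mul, Unitization.inr_star] using h1
    · rw [← Unitization.norm_inr (𝕜 := ℂ)] at h2
      simpa only [Unitization.inr_sub, Unitization.inr_mul, Unitization.inr_star] using h2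
    · rw [← Unitization.norm_inr (𝕜 := ℂ)] at h3
      simpa only [Unitization.inr_sub, Unitization.inr_mul, Unitization.inr_star] using h3
  have hpos : ∀ z : C, (∃ x : C, z = star x * x) → 0 ≤ (z : Unitization ℂ C) := by
    rintro z ⟨x, rfl⟩
    rw [Unitization.inr_mul, Unitization.inr_star]
    exact star_mul_self_nonneg _
  obtain ⟨s, t, ⟨u, v, hs⟩, ⟨u', v', ht⟩, h1, h2, h3⟩ :=
    Crest.Agent.R110.exists_diag (c : Unitization ℂ C) (hpos a ha) (hpos b hb) (hpi a) (hpi b) hε
  obtain ⟨s₀, hs₀⟩ := hmem a u v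
  obtain ⟨t₀, ht₀⟩ := hmem b u' v'
  rw [hs, hs₀] at h1 h3
  rw [ht, ht₀] at h2 h3
  refine ⟨s₀, t₀, ?_, ?_, ?_⟩
  · rw [← Unitization.norm_inr (𝕜 := ℂ)]
    simpa only [Unitization.inr_sub, Unitization.inr_mul, Unitization.inr_star] using h1
  · rw [← Unitization.norm_inr (𝕜 := ℂ)]
    simpa only [Unitization.inr_sub, Unitization.inr_mul, Unitization.inr_star] using h2
  · rw [← Unitization.norm_inr (𝕜 := ℂ)]
    simpa only [Unitization.inr_sub, Unitization.inr_mul, Unitization.inr_star] using h3

end Crest.Agent.S0145
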