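import Crest.Statements.S0150
import Crest.Agent.R113.TA2

set_option autoImplicit false
open Crest.AnalysisR.TwoAdic MeasureTheory
attribute [local instance] Crest.AnalysisR.TwoAdic.borelTwoAdic Crest.AnalysisR.TwoAdic.borelSpace_twoAdic
open Crest Crest.AnalysisR Crest.AnalysisR.TwoAdic

namespace Crest.Agent.S0150

/-- On L²(ℤ₂; ℓ²(ℤ)) (2-adic integers, Haar probability) measurable weights β_j > 0, b_j ∈ [0,1] give fibre shifts S_x δ_j = β_j(x) δ_{j+1} forming a bounded S and a contraction V commuting with S, acting along x ↦ x + 1 by V_x δ_j = b_j(x) δ_{j−1}, with: each S_x has exactly the tails, 0, ℓ²(ℤ) as closed invariant subspaces; ‖S‖ = e^{−10}, ‖Sⁿ‖ ≤ exp(−10⌊(n+1)²/4⌋); off a null set b_j > 0 and V_x maps each tail densely into the next lower one; S, V and bounded multipliers act transitively. -/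
theorem result :
    ∃ (β b : ℤ → ℤ_[2] → ℝ) (Sfib Vfib : ℤ_[2] → (seqHilbert →L[ℂ] seqHilbert))
      (S V : fibreSpace →L[ℂ] fibreSpace),
      (∀ j, Measurable (β j)) ∧ (∀ j x, 0 < β j x) ∧
      (∀ x j, Sfib x (basisVec j) = (β j x : ℂ) • basisVec (j + 1)) ∧
      (∀ f : fibreSpace, ∀ᵐ x ∂haarTwoAdic, (S f : ℤ_[2] → seqHilbert) x = Sfib x ((f : ℤ_[2] → seqHilbert) x)) ∧
      (∀ x, ∀ W : Submodule ℂ seqHilbert, IsClosed (W : Set seqHilbert) →
        ((∀ v ∈ W, Sfib x v ∈ W) ↔ (W = ⊥ ∨ W = ⊤ ∨ ∃ h : ℤ, W = tailSpace h))) ∧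
      S ≠ 0 ∧ ‖S‖ = Real.exp (-10) ∧
      (∀ n : ℕ, 1 ≤ n → ‖S ^ n‖ ≤ Real.exp (-10 * (((n + 1) ^ 2 / 4 : ℕ) : ℝ))) ∧
      ‖V‖ ≤ 1 ∧ V * S = S * V ∧
      (∀ j, Measurable (b j)) ∧ (∀ j x, 0 ≤ b j x ∧ b j x ≤ 1) ∧
      (∀ x j, Vfib x (basisVec j) = (b j x : ℂ) • basisVec (j - 1)) ∧
      (∀ f : fibreSpace, ∀ᵐ x ∂haarTwoAdic,
        (V f : ℤ_[2] → seqHilbert) (x + 1) = Vfib x ((f : ℤ_[2] → seqHilbert) x)) ∧
      (∃ N : Set ℤ_[2], haarTwoAdic N = 0 ∧ ∀ x, x ∉ N →
        (∀ j, 0 < b j x) ∧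
        (∀ h : ℤ, closure (Vfib x '' (tailSpace h : Set seqHilbert)) = (tailSpace (h - 1) : Set seqHilbert)) ∧
        closure (Set.range (Vfib x)) = Set.univ) ∧
      (∀ W : Submodule ℂ fibreSpace, IsClosed (W : Set fibreSpace) →
        (∀ f ∈ W, S f ∈ W) → (∀ f ∈ W, V f ∈ W) →
        (∀ g : ℤ_[2] → ℂ, Measurable g → (∃ C : ℝ, ∀ x, ‖g x‖ ≤ C) →
          ∀ f ∈ W, ∀ f' : fibreSpace,
            (∀ᵐ x ∂haarTwoAdic, (f' : ℤ_[2] → seqHilbert) x = g x • (f : ℤ_[2] → seqHilbert) x) → f' ∈ W) →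
        W = ⊥ ∨ W = ⊤) := by
  open Crest.Agent.R113 in
  choose Sfib hSb hSn hSc using fun x : ℤ_[2] => exists_shift (fun j => taBeta j x) (C := 1)
    (fun j => by rw [abs_of_pos (taBeta_pos j x)]; exact taBeta_le j x) 1
  open Crest.Agent.R113 in
  choose Vfib hVb hVn hVc using fun x : ℤ_[2] => exists_shift (fun j => taB j x) (C := 1)
    (fun j => by rw [abs_of_pos (taB_pos j x)]; exact taB_le j x) (-1)
  obtain ⟨S, -, hS⟩ := R113.exists_fibred Sfib R113.taBeta 1 R113.measurable_taBeta hSc hSn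
  obtain ⟨V0, hV0n, hV0⟩ := R113.exists_fibred Vfib R113.taB (-1) R113.measurable_taB hVc hVn
  let U : fibreSpace →ₗᵢ[ℂ] fibreSpace :=
    Lp.compMeasurePreservingₗᵢ ℂ (fun x : ℤ_[2] => x + (-1)) (R113.ta_mp (-1))
  let V : fibreSpace →L[ℂ] fibreSpace := U.toContinuousLinearMap.comp V0
  have hV : ∀ f : fibreSpace, ∀ᵐ x ∂haarTwoAdic,
      (V f : ℤ_[2] → seqHilbert) (x + 1) = Vfib x ((f : ℤ_[2] → seqHilbert) x) := by
    intro f
    have h1 : ∀ᵐ y ∂haarTwoAdic, (V f : ℤ_[2] → seqHilbert) y =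
        (V0 f : ℤ_[2] → seqHilbert) (y + (-1)) :=
      Lp.coeFn_compMeasurePreserving (V0 f) (R113.ta_mp (-1))
    filter_upwards [R113.ta_ae_shift 1 h1, hV0 f] with x h2 h3
    rw [h2, add_neg_cancel_right, h3]
  have hSb' : ∀ x j, Sfib x (basisVec j) =
      ((Real.exp (-10 * R113.taA x j) : ℝ) : ℂ) • basisVec (j + 1) := hSb
  have hpow : ∀ n : ℕ, ‖S ^ n‖ ≤ Real.exp (-10 * (((n + 1) ^ 2 / 4 : ℕ) : ℝ)) := by
    intro n
    refine ContinuousLinearMap.opNorm_le_bound _ (Real.exp_pos _).le fun f => ?_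
    refine Lp.norm_le_mul_norm_of_ae_le_mul ?_
    filter_upwards [R113.ta_pow_ae hS n f] with x hx
    rw [hx]
    exact ((Sfib x ^ n).le_opNorm _).trans (mul_le_mul_of_nonneg_right
      (R113.norm_pow_le (R113.taA_injective x) (R113.one_le_taA x) (hSb' x) n) (norm_nonneg _))
  have hnb : ∀ j, ‖basisVec j‖ = 1 := fun j => by
    unfold basisVec
    rw [lp.norm_single (by norm_num)]
    simp
  have hnorm : ‖S‖ = Real.exp (-10) := by
    refine le_antisymm (by simpa using hpow 1) ?_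
    set f : fibreSpace := Lp.const 2 haarTwoAdic (basisVec 0) with hf
    have hf1 : ‖f‖ = 1 := by
      rw [hf, Lp.norm_const' _ _ _ (by norm_num) (by norm_num)]
      simp [hnb]
    have hSf : S f = Lp.const 2 haarTwoAdic (((Real.exp (-10) : ℝ) : ℂ) • basisVec 1) := by
      ext1
      filter_upwards [hS f, Lp.coeFn_const 2 haarTwoAdic (basisVec 0),
        Lp.coeFn_const 2 haarTwoAdic (((Real.exp (-10) : ℝ) : ℂ) • basisVec 1)] with x h1 h2 h3
      rw [h1, h3, h2]
      simp only [Function.const_apply]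
      rw [hSb', R113.taA_zero]
      simp
    have h2 := S.le_opNorm f
    rw [hf1, mul_one, hSf, Lp.norm_const' _ _ _ (by norm_num) (by norm_num), norm_smul, hnb] at h2
    rw [Complex.norm_real, Real.norm_of_nonneg (Real.exp_pos _).le] at h2
    simpa using h2
  have hVb' : ∀ x j, Vfib x (basisVec j) = (R113.taB j x : ℂ) • basisVec (j - 1) := hVb
  have hVc' : ∀ x (v : seqHilbert) j, (Vfib x v) (j - 1) = (R113.taB j x : ℂ) * v j := hVc
  have hBne : ∀ j x, (R113.taB j x : ℂ) ≠ 0 := fun j x => by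
    exact_mod_cast (R113.taB_pos j x).ne'
  have hbasis : ∀ x j, basisVec (j - 1) = Vfib x ((R113.taB j x : ℂ)⁻¹ • basisVec j) := by
    intro x j
    rw [map_smul, hVb', smul_smul, inv_mul_cancel₀ (hBne j x), one_smul]
  refine ⟨R113.taBeta, R113.taB, Sfib, Vfib, S, V, R113.measurable_taBeta, R113.taBeta_pos, hSb,
    hS, fun x W hW => R113.unicellular (R113.taA_injective x) (R113.taA_strictMonoOn x)
      (R113.taA_strictAntiOn x) (R113.one_le_taA x) (hSb' x) W hW, ?_, hnorm, fun n _ => hpow n,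
    ?_, ?_, R113.measurable_taB, fun j x => ⟨(R113.taB_pos j x).le, R113.taB_le j x⟩, hVb', hV,
    ⟨∅, measure_empty, fun x _ => ⟨fun j => R113.taB_pos j x, fun h => ?_, ?_⟩⟩, ?_⟩
  · intro h0
    rw [h0, norm_zero] at hnorm
    exact (Real.exp_pos _).ne hnorm
  · refine ContinuousLinearMap.opNorm_le_bound _ zero_le_one fun f => ?_
    have : ‖V f‖ = ‖V0 f‖ := U.norm_map _
    rw [this]
    exact (V0.le_opNorm f).trans (mul_le_mul_of_nonneg_right hV0n (norm_nonneg _))
  · ext1 f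
    ext1
    have h1 : ∀ᵐ x ∂haarTwoAdic, ((V * S) f : ℤ_[2] → seqHilbert) (x + 1) =
        ((S * V) f : ℤ_[2] → seqHilbert) (x + 1) := by
      filter_upwards [hV (S f), hS f, R113.ta_ae_shift 1 (hS (V f)), hV f, R113.ae_taG]
        with x h1 h2 h3 h4 hx
      change (V (S f) : ℤ_[2] → seqHilbert) (x + 1) = (S (V f) : ℤ_[2] → seqHilbert) (x + 1)
      rw [h1, h2, h3, h4]
      refine lp.ext (funext fun j => ?_)
      have e1 := hVc' x (Sfib x ((f : ℤ_[2] → seqHilbert) x)) (j + 1)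
      have e2 := hSc (x + 1) (Vfib x ((f : ℤ_[2] → seqHilbert) x)) (j - 1)
      rw [add_sub_cancel_right] at e1
      rw [sub_add_cancel] at e2
      rw [e1, e2, hSc, hVc', ← mul_assoc, ← mul_assoc]
      congr 1
      exact_mod_cast R113.ta_cocycle hx j
    filter_upwards [R113.ta_ae_shift (-1) h1] with x hx
    simpa using hx
  · apply Set.Subset.antisymm
    · refine closure_minimal ?_ (Submodule.isClosed_topologicalClosure _)
      rintro _ ⟨v, hv, rfl⟩
      refine R113.mem_tailSpace.2 fun j hj => ?_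
      have := hVc' x v (j + 1)
      rw [add_sub_cancel_right] at this
      rw [this, R113.mem_tailSpace.1 hv (j + 1) (by omega), mul_zero]
    · have : Submodule.span ℂ (Set.range fun j : {j : ℤ // h - 1 ≤ j} => basisVec (j : ℤ)) ≤
          (tailSpace h).map (Vfib x : seqHilbert →ₗ[ℂ] seqHilbert) := by
        rw [Submodule.span_le]
        rintro _ ⟨⟨j, hj⟩, rfl⟩
        refine ⟨(R113.taB (j + 1) x : ℂ)⁻¹ • basisVec (j + 1), ?_, ?_⟩
        · refine Submodule.smul_mem _ _ (R113.mem_tailSpace.2 fun k hk => ?_)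
          rw [R113.basisVec_apply, if_neg (by omega)]
        · have := hbasis x (j + 1)
          rw [add_sub_cancel_right] at this
          exact this.symm
      exact closure_mono this
  · refine Set.eq_univ_of_forall fun v => ?_
    have h1 := lp.hasSum_single (E := fun _ : ℤ => ℂ) (p := 2) (by simp) v
    refine mem_closure_of_tendsto h1 (Filter.Eventually.of_forall fun s => ?_)
    change _ ∈ LinearMap.range (Vfib x : seqHilbert →ₗ[ℂ] seqHilbert)
    refine Submodule.sum_mem _ fun j _ => ?_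
    have e : (lp.single 2 j (v j) : seqHilbert) = (v j) • basisVec j := by
      unfold basisVec
      rw [← lp.single_smul]
      simp
    rw [e]
    refine Submodule.smul_mem _ _ ⟨(R113.taB (j + 1) x : ℂ)⁻¹ • basisVec (j + 1), ?_⟩
    have := hbasis x (j + 1)
    rw [add_sub_cancel_right] at this
    exact this.symm
  · intro W hW hWS hWV hWM
    by_contra hcon
    push Not at hcon
    obtain ⟨hbot, htop⟩ := hcon
    obtain ⟨f, hfW, hf0⟩ := (Submodule.ne_bot_iff W).1 hbot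
    have : CompleteSpace W := hW.completeSpace_coe
    have horth : Wᗮ ≠ ⊥ := fun h => htop ((Submodule.orthogonal_eq_bot_iff).1 h)
    obtain ⟨g, hgW, hg0⟩ := (Submodule.ne_bot_iff _).1 horth
    obtain ⟨c, hc⟩ := R113.ta_exists_pos hf0
    obtain ⟨c', hc'⟩ := R113.ta_exists_pos hg0
    have hpowW : ∀ (T : fibreSpace →L[ℂ] fibreSpace), (∀ f ∈ W, T f ∈ W) →
        ∀ (n : ℕ), ∀ f ∈ W, (T ^ n) f ∈ W := by
      intro T hT n
      induction n with
      | zero => intro f hf; simpa using hf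
      | succ n ih => intro f hf; rw [pow_succ']; exact hT _ (ih f hf)
    have hVm : ∀ m : ℕ, ∀ᵐ (x : ℤ_[2]) ∂haarTwoAdic, (f : ℤ_[2] → seqHilbert) x c ≠ 0 →
        ((V ^ m) f : ℤ_[2] → seqHilbert) (x + m) (c - m) ≠ 0 := by
      intro m
      induction m with
      | zero => simp
      | succ m ih =>
        filter_upwards [ih, R113.ta_ae_shift (m : ℤ_[2]) (hV ((V ^ m) f))] with x h1 h2 hx
        rw [pow_succ']
        change (V ((V ^ m) f) : ℤ_[2] → seqHilbert) _ _ ≠ 0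
        rw [Nat.cast_succ, Nat.cast_succ, ← add_assoc, h2, ← sub_sub, hVc']
        exact mul_ne_zero (hBne _ _) (h1 hx)
    have hA : MeasurableSet {x | (f : ℤ_[2] → seqHilbert) x c ≠ 0} :=
      (R113.ta_coord_measurable (Lp.stronglyMeasurable f) c (measurableSet_singleton 0)).compl
    refine R113.ta_recur hA hc hc' (c - c').toNat ?_
    rw [ae_all_iff]
    intro m
    have h1 : ∀ᵐ x ∂haarTwoAdic, ∀ n : ℕ, inner ℂ ((g : ℤ_[2] → seqHilbert) x)
        ((Sfib x ^ n) (((V ^ m) f : ℤ_[2] → seqHilbert) x)) = 0 := by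
      rw [ae_all_iff]
      intro n
      filter_upwards [R113.ta_inner_ae hWM hgW (hpowW S hWS n _ (hpowW V hWV m f hfW)),
        R113.ta_pow_ae hS n ((V ^ m) f)] with x h2 h3
      rw [← h3]; exact h2
    filter_upwards [h1, R113.ta_ae_shift (-(m : ℤ_[2])) (hVm m)] with x h2 h3 hm hxA hxB
    rw [neg_add_cancel_right, ← sub_eq_add_neg] at h3
    obtain ⟨n, hn⟩ := R113.exists_inner_pow_ne_zero (R113.taA_injective x)
      (R113.taA_strictMonoOn x) (R113.taA_strictAntiOn x) (R113.one_le_taA x) (hSb' x)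
      (h3 hxA) hxB (by omega)
    exact hn (h2 n)

end Crest.Agent.S0150
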