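import Crest.Statements.S0149
import Crest.Agent.R113.Main
import Crest.Agent.R113.Build
import Crest.Agent.R113.Sys2
import Crest.Agent.R113.Transfer

set_option autoImplicit false
open Crest.AnalysisR.RotationRep
open Crest Crest.AnalysisR Crest.AnalysisR.RotationRep

namespace Crest.Agent.S0149


section aux

open Crest.Agent.R113 MeasureTheory Set
open scoped InnerProductSpace

theorem ch_coe (r : ℝ) : ch 1 (r : X) = Complex.exp (((2 * Real.pi * r : ℝ) : ℂ) * Complex.I) := by
  rw [ch, fourier_coe_apply]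
  congr 1
  push_cast
  ring

theorem ch_inj : Function.Injective (ch 1) := by
  intro x y h
  rw [ch, fourier_one, fourier_one] at h
  exact AddCircle.injective_toCircle one_ne_zero (Subtype.coe_injective h)

theorem ch_surj {z : ℂ} (hz : ‖z‖ = 1) : ∃ x : X, ch 1 x = z := by
  refine ⟨((z.arg / (2 * Real.pi) : ℝ) : X), ?_⟩
  rw [ch_coe, mul_div_cancel₀ _ (by positivity)]
  have := Complex.norm_mul_exp_arg_mul_I z
  rwa [hz, Complex.ofReal_one, one_mul] at this

theorem ch_zero : ch 1 0 = 1 := by simp [ch]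

theorem lint_top : ∫⁻ t in Ioo (0 : ℝ) (2 * Real.pi), ENNReal.ofReal t⁻¹ = ⊤ := by
  by_contra h
  have hi : IntegrableOn (fun t : ℝ => t⁻¹) (Ioo 0 (2 * Real.pi)) := by
    refine (lintegral_ofReal_ne_top_iff_integrable measurable_inv.aestronglyMeasurable ?_).mp h
    filter_upwards [ae_restrict_mem measurableSet_Ioo] with t ht
    exact inv_nonneg.mpr ht.1.le
  have hpi : (0 : ℝ) < 2 * Real.pi := by positivity
  rw [← intervalIntegrable_iff_integrableOn_Ioo_of_le hpi.le, intervalIntegrable_inv_iff] at hi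
  rcases hi with hi | hi
  · exact hpi.ne hi
  · exact hi left_mem_uIcc

theorem proj_trivial {α : X} {p : H →L[ℂ] H} (hp : p ∈ M α) (hpp : IsStarProjection p)
    (h : (⟪vac, p vac⟫_ℂ).re = 0) : p = 0 := by
  apply faithful hp
  have h1 := tilt_norm_sq vac p
  have h2 : p * p = p := hpp.isIdempotentElem
  rw [hpp.isSelfAdjoint.star_eq, h2, h] at h1
  simpa using h1

end aux

open Crest.Agent.R113 MeasureTheory Set in
open scoped InnerProductSpace in
/-- For every irrational θ in (0,1) there is a continuous real function f on ℂ, with values in [0,1] on the unit circle and vanishing there exactly at 1, with ∫ log f = −∞ over the circle (the lower integral of −log f(e^{it}) over (0, 2π] is infinite), such that for the generators U, V of the rotation algebra with angle θ in its left regular representation on ℓ²(ℤ × ℤ), each projection p in the von Neumann algebra of U, V with (1 − p) U f(V) p = 0 is 0 or 1 (f(V) by functional calculus). -/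
theorem result
    (θ : ℝ) (hθ₁ : Irrational θ) (hθ₂ : 0 < θ) (hθ₃ : θ < 1) :
    ∃ f : ℂ → ℝ, Continuous f ∧ (∀ z : ℂ, ‖z‖ = 1 → 0 ≤ f z ∧ f z ≤ 1) ∧
      (∀ z : ℂ, ‖z‖ = 1 → (f z = 0 ↔ z = 1)) ∧
      (∫⁻ t in Set.Ioc (0 : ℝ) (2 * Real.pi),
          ENNReal.ofReal (- Real.log (f (Complex.exp ((t : ℂ) * Complex.I)))) = ⊤) ∧
      ∀ U V : lp (fun _ : ℤ × ℤ => ℂ) 2 →L[ℂ] lp (fun _ : ℤ × ℤ => ℂ) 2, IsRotationPair θ U V →
        ∀ p : lp (fun _ : ℤ × ℤ => ℂ) 2 →L[ℂ] lp (fun _ : ℤ × ℤ => ℂ) 2,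
          p ∈ vonNeumannGenerated {U, V} → IsStarProjection p →
          (1 - p) * (U * cfc (fun z : ℂ => (f z : ℂ)) V) * p = 0 → p = 0 ∨ p = 1 := by
  have hα : addOrderOf ((θ : ℝ) : X) = 0 := by
    rw [← AddCircle.denseRange_zsmul_iff, AddCircle.denseRange_zsmul_coe_iff]
    simpa using hθ₁
  obtain ⟨F, hFc, hF01, hF0, hFle, ⟨S⟩⟩ := exists_system hα
  have hemb : Topology.IsClosedEmbedding (ch 1) :=
    (fourier (T := 1) 1).continuous.isClosedEmbedding ch_inj
  obtain ⟨f, hf⟩ := ContinuousMap.exists_extension' hemb ⟨F, hFc⟩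
  have hf' : ∀ x, f (ch 1 x) = F x := fun x => congrFun hf x
  refine ⟨f, f.continuous, fun z hz => ?_, fun z hz => ?_, ?_, fun U V hUV p hp hpp hinv => ?_⟩
  · obtain ⟨x, rfl⟩ := ch_surj hz
    rw [hf']; exact hF01 x
  · obtain ⟨x, rfl⟩ := ch_surj hz
    rw [hf', hF0, ← ch_zero, ch_inj.eq_iff]
  · rw [eq_top_iff, ← lint_top, ← Measure.restrict_congr_set Ioo_ae_eq_Ioc]
    refine setLIntegral_mono' measurableSet_Ioo fun t ht => ENNReal.ofReal_le_ofReal ?_
    have hpi : (0 : ℝ) < 2 * Real.pi := by positivity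
    set r : ℝ := t / (2 * Real.pi) with hr
    have hr0 : 0 < r := div_pos ht.1 hpi
    have hr1 : r < 1 := (div_lt_one hpi).mpr ht.2
    have e1 : Complex.exp ((t : ℂ) * Complex.I) = ch 1 (r : X) := by
      rw [ch_coe, hr, mul_div_cancel₀ _ hpi.ne']
    have hx : (r : X) ≠ 0 := by
      intro h
      have := (AddCircle.coe_eq_zero_iff_of_mem_Ico (p := (1 : ℝ)) ⟨hr0.le, hr1⟩).mp h
      exact hr0.ne' this
    have hn : 0 < ‖(r : X)‖ := norm_pos_iff.mpr hx
    have hn2 : ‖(r : X)‖ ≤ t := by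
      have h1 : ‖(r : X)‖ ≤ ‖r‖ := QuotientAddGroup.norm_mk_le_norm
      rw [Real.norm_eq_abs, abs_of_pos hr0] at h1
      refine h1.trans ?_
      rw [hr, div_le_iff₀ hpi]
      nlinarith [Real.pi_gt_three, ht.1]
    have hFpos : 0 < F (r : X) := lt_of_le_of_ne (hF01 _).1 fun h => hx ((hF0 _).mp h.symm)
    have h2 : F (r : X) ≤ Real.exp (-‖(r : X)‖⁻¹) := by
      have := hFle (r : X)
      rwa [expNegInvGlue, if_neg (not_le.mpr hn)] at this
    rw [e1, hf']
    have h3 := (Real.log_le_iff_le_exp hFpos).mpr h2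
    have h4 : t⁻¹ ≤ ‖(r : X)‖⁻¹ := inv_anti₀ hn hn2
    linarith
  · obtain ⟨p', hp', hpp', hinv', h0, h1⟩ := transfer θ f.continuous hUV hp hpp hinv
    have e : (fun x => f (ch 1 x)) = F := funext hf'
    rw [e] at hinv'
    rcases S.trivial hα (tiltSys (BM.of_continuous hFc) hp' hpp' hinv') with h | h
    · exact Or.inl (h0 (proj_trivial hp' hpp' h))
    · refine Or.inr (h1 ?_)
      have h2 : (1 - p') = 0 := by
        refine proj_trivial (sub_mem (one_mem _) hp') hpp'.one_sub ?_
        rw [sub_apply, inner_sub_right, Complex.sub_re, h, one_apply_eq_self,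
          inner_self_eq_norm_sq_to_K, norm_vac]
        simp
      exact (sub_eq_zero.mp h2).symm

end Crest.Agent.S0149
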