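import Crest.Statements.S0153
import Crest.Agent.R114.SU
import Crest.Agent.R114.CaseA
import Crest.Agent.R114.L2

set_option autoImplicit false
open Crest.AnalysisR
open Crest Crest.AnalysisR

namespace Crest.Agent.S0153

/-- Assume that the continuum is real-valued measurable: some probability measure defined on all subsets of the real line vanishes on singletons and is additive over every pairwise disjoint family of fewer than continuum many sets. Then, over the real or the complex field, every infinite-dimensional Banach space has a closed linear subspace whose quotient is separable and infinite-dimensional. -/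
theorem result
    (𝕜 : Type) [RCLike 𝕜] (hc : ContinuumRVM)
    (X : Type*) [NormedAddCommGroup X] [NormedSpace 𝕜 X] [CompleteSpace X]
    (hX : ¬ FiniteDimensional 𝕜 X) :
    ∃ M : Submodule 𝕜 X, IsClosed (M : Set X) ∧
      TopologicalSpace.SeparableSpace (X ⧸ M) ∧ ¬ FiniteDimensional 𝕜 (X ⧸ M) := by
  change R114.SQ 𝕜 X
  by_contra hn
  obtain ⟨h, h1, hh⟩ := R114.exists_su hc hX hn
  apply hn
  by_cases ht : R114.TailNull h
  · exact R114.sq_of_tailNull hh (fun k e => by simpa [e] using h1 k) ht
  obtain ⟨b, hb, hl⟩ := R114.exists_l1 hh ht
  rcases R114.stabilise b with ⟨c, hcb, hnull⟩ | ⟨c, δ, hcb, hδ, hs⟩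
  · exact R114.sq_of_tailNull (hcb.su hb) (hcb.isL1 hl).ne_zero ((hcb.isL1 hl).tailNull hnull)
  · exact R114.sq_of_stable (hcb.isL1 hl).1 hδ hs

end Crest.Agent.S0153
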