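import Crest.Statements.S0163
import Crest.Agent.R123.Smooth
import Crest.Agent.R123.Converge
import Crest.Agent.R123.Entropy
import Crest.Agent.R123.Transport
import Crest.Agent.R123.Glue
import Crest.Agent.R123.Cocycle

set_option autoImplicit false
open scoped Manifold ContDiff
open Crest Crest.AnalysisR

namespace Crest.Agent.S0163

open Crest.Agent.R123 in
/-- The map as a bundled continuous map. -/
noncomputable def FC : C(MM, MM) := ⟨F, continuous_F⟩

open Crest.Agent.R123 in
/-- The inclusion of the sphere. -/
noncomputable def jj : C(S2, MM) := ⟨fun x => (x, 1, nrm 0, nrm 0), by fun_prop⟩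

open Crest.Agent.R123 in
lemma F_jj (x : S2) :
    F (jj x) = (R123.sq x, Circle.exp (Real.pi / 8 * step 0 x.s), nrm 0, nrm 0) := by
  have hβ : (jj x).β = 0 := ang_one
  have hz : (nrm 0).z = 0 := by rw [nrm_z, mul_zero]
  have hV : ∀ i, (jj x).V i = 0 := fun i => by
    have h1 : ((jj x).reg i).z = 0 := by cases i <;> exact hz
    have h2 : zet 0 = 0 := bmp_eq_zero_of_ge (by norm_num)
    rw [MM.V, inV, hβ, h1, h2]
    simp
  have hW : (jj x).W = 0 := outW_eq_zero (by rw [hβ]; norm_num) _ _
  unfold F
  rw [hV, hV, hW, mob_zero, MM.st, hβ]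
  exact Prod.ext rfl (Prod.ext (one_mul _) rfl)

open Crest.Agent.R123 in
lemma homotopic_jj : (FC.comp jj).Homotopic (jj.comp R123.sq) := by
  have hc : Continuous fun x : S2 => step 0 x.s :=
    step_contDiff.continuous.comp (continuous_const.prodMk S2.continuous_s)
  refine ⟨⟨⟨fun p => (R123.sq p.2, Circle.exp ((1 - (p.1 : ℝ)) * (Real.pi / 8 * step 0 p.2.s)),
    nrm 0, nrm 0), ?_⟩, fun x => ?_, fun x => ?_⟩⟩
  · have h2 : Continuous fun p : unitInterval × S2 => step 0 p.2.s := hc.comp continuous_snd
    fun_prop
  · change _ = F (jj x)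
    rw [F_jj]
    simp
  · simp [jj]

/-- There is a compact smooth manifold without boundary (of some finite dimension, modelled on Euclidean space, with a compatible metric) carrying a continuously differentiable self-map whose topological entropy is zero while the map it induces on second singular homology with real coefficients has `2` as an eigenvalue; so topological entropy can be strictly smaller than the logarithm of the homological spectral radius for `C¹` self-maps. -/
theorem result :
    ∃ (n : ℕ) (M : Type) (_ : MetricSpace M) (_ : CompactSpace M) (_ : Nonempty M)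
      (_ : ChartedSpace (EuclideanSpace ℝ (Fin n)) M)
      (_ : IsManifold (modelWithCornersSelf ℝ (EuclideanSpace ℝ (Fin n))) ∞ M)
      (f : C(M, M)),
      ContMDiff (modelWithCornersSelf ℝ (EuclideanSpace ℝ (Fin n)))
          (modelWithCornersSelf ℝ (EuclideanSpace ℝ (Fin n))) 1 ⇑f ∧
        Dynamics.coverEntropy ⇑f Set.univ = 0 ∧
        Module.End.HasEigenvalue
          (((AlgebraicTopology.singularHomologyFunctor (ModuleCat.{0} ℝ) 2).obj
              (ModuleCat.of ℝ ℝ)).map (TopCat.ofHom f)).hom (2 : ℝ) := by
  obtain ⟨n, cs, im, hf⟩ := R123.exists_euclidean_model R123.II R123.MM R123.F R123.contMDiff_F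
  have : Nonempty R123.MM := ⟨jj (R123.nrm 0)⟩
  refine ⟨n, R123.MM, inferInstance, inferInstance, inferInstance, cs, im, FC, hf,
    R123.coverEntropy_eq_zero_of_tendsto_dist R123.F R123.continuous_F R123.tendsto_dist_F, ?_⟩
  obtain ⟨g, σp, σm, τp, τm, w, hg, hd⟩ := R123.exists_chainData_S2
  exact R123.hasEigenvalue_transfer g jj ContinuousMap.fst rfl FC
    (homotopic_jj.trans ((ContinuousMap.Homotopic.refl jj).comp hg))
    (R123.hasEigenvalue_of_chainData hd)

end Crest.Agent.S0163
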