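import Crest.Statements.S0166
import Crest.Agent.R125.Space
import Crest.Agent.R125.Daugavet
import Crest.Agent.R125.Reflexive

set_option autoImplicit false
open Crest Crest.AnalysisR

namespace Crest.Agent.S0166

open Crest.Agent.R125

/-- There is a real Banach space (RealBanach record) that is separable, infinite-dimensional and reflexive, whose given norm has at every t > 0 averaged midpoint asymptotic modulus at least √(1 + t²/12) - 1 and at least (√(1 + t²/4) - 1)/2 and maximum-based midpoint modulus at least √(1 + t²/4) - 1, on which no equivalent norm is asymptotically uniformly convex, and in which for every k every map of the depth-k countably branching diamond graph of distortion at most D has 1 + k/4 ≤ D². -/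
theorem result :
    ∃ E : Crest.AnalysisR.RealBanach, E.IsSeparableInfiniteDim ∧ E.IsReflexive ∧
      (∀ t : ℝ, 0 < t → E.MidpointModulusGE E.norm t (Real.sqrt (1 + t ^ 2 / 12) - 1) ∧
        E.MidpointModulusGE E.norm t ((Real.sqrt (1 + t ^ 2 / 4) - 1) / 2) ∧
        E.MaxMidpointModulusGE E.norm t (Real.sqrt (1 + t ^ 2 / 4) - 1)) ∧
      (∀ N : E.X → ℝ, E.IsEquivNorm N → ¬ E.IsAUC N) ∧
      ∀ (k : ℕ) (f : Crest.AnalysisR.DiamondVertex k → E.X) (D : ℝ),
        E.HasDistortionLE k f D → 1 + (k : ℝ) / 4 ≤ D ^ 2 := by
  have hc : CompleteSpace BigX := inferInstance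
  have h1 : TopologicalSpace.SeparableSpace BigX := separable_BigX
  have h2 : ¬ FiniteDimensional ℝ BigX := not_finiteDimensional_of_noAUC hc (noAUC_BigX hc)
  have h3 : Function.Surjective (NormedSpace.inclusionInDoubleDual ℝ BigX) :=
    refl_lp_two (fun k : ℕ => XK k) fun k => refl_of_equiv (equivXK k) (refl_hilbert HT)
  exact ⟨mkB BigX hc, ⟨h1, h2⟩, h3,
    fun t ht => moduli_of_propQ hc propQ_BigX exists_cof_norm_le ht, noAUC_BigX hc,
    fun k f D h => distortion_bound hc propQ_BigX k f D h⟩

end Crest.Agent.S0166
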