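import Crest.Statements.S0167
import Crest.Agent.R125.Daugavet
import Crest.Agent.R125.LOne

set_option autoImplicit false
open Crest Crest.AnalysisR

namespace Crest.Agent.S0167

open Crest.Agent.R125 Crest.AnalysisR.L1Subspace

section general

variable {X : Type} [NormedAddCommGroup X] [NormedSpace ℝ X]

theorem midLE (hc : CompleteSpace X) (hD : HasDaugavetProperty X) {t : ℝ} (ht : 0 < t) :
    (mkB X hc).MidpointModulusLE (mkB X hc).norm t (max (t / 2) (t - 1)) := by
  intro x hx F hF η hη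
  obtain ⟨S, rfl, hS⟩ := (isCof_iff hc F).1 hF
  change ‖(x : X)‖ = 1 at hx
  obtain ⟨y, hyF, hy, h⟩ := daug_oneSided hD x hx hS hη ht
  refine ⟨y, hyF, hy, ?_⟩
  change (‖(x : X) + t • y‖ + ‖(x : X) - t • y‖) / 2 - 1 ≤ _
  have h2 := norm_sub_le (x : X) (t • y)
  rw [norm_smul, hy, hx, Real.norm_of_nonneg ht.le] at h2
  have h3 := le_max_left (t / 2) (t - 1)
  have h4 := le_max_right (t / 2) (t - 1)
  rcases max_cases 0 (t - 2) with h5 | h5 <;> rw [h5.1] at h <;> linarith

theorem oneLE (hc : CompleteSpace X) (hD : HasDaugavetProperty X) {t : ℝ} (ht : 0 < t) :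
    (mkB X hc).OneSidedModulusLE (mkB X hc).norm t (max 0 (t - 2)) := by
  intro x hx F hF η hη
  obtain ⟨S, rfl, hS⟩ := (isCof_iff hc F).1 hF
  change ‖(x : X)‖ = 1 at hx
  obtain ⟨y, hyF, hy, h⟩ := daug_oneSided hD x hx hS hη ht
  exact ⟨y, hyF, hy, h⟩

theorem oneGE (hc : CompleteSpace X) {t : ℝ} (ht : 0 < t) :
    (mkB X hc).OneSidedModulusGE (mkB X hc).norm t (max 0 (t - 2)) := by
  intro x hx η hη
  change ‖(x : X)‖ = 1 at hx
  obtain ⟨F, hF, h⟩ := exists_cof_norm_le (X := X) x
  refine ⟨_, hF.isCof hc, fun y hy hy1 => ?_⟩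
  change ‖(y : X)‖ = 1 at hy1
  change _ ≤ ‖(x : X) + t • (y : X)‖ - 1
  have h1 := h _ (F.smul_mem t hy)
  have h2 := norm_sub_le ((x : X) + t • (y : X)) x
  rw [add_sub_cancel_left, norm_smul, hy1, hx, Real.norm_of_nonneg ht.le] at h2
  rcases max_cases 0 (t - 2) with h5 | h5 <;> rw [h5.1] <;> linarith

end general

theorem midGE {Ω : Type} [MeasurableSpace Ω] (P : MeasureTheory.Measure Ω)
    [MeasureTheory.IsProbabilityMeasure P] (E : Submodule ℝ (MeasureTheory.Lp ℝ 1 P))
    (hc : CompleteSpace E) (htb : UnitBallTotallyBoundedInMeasure P E) {t : ℝ} (ht : 0 < t) :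
    (mkB E hc).MidpointModulusGE (mkB E hc).norm t (max (t / 2) (t - 1)) := by
  intro x hx η hη
  change ‖(x : E)‖ = 1 at hx
  obtain ⟨F, hF, h⟩ := exists_cof_half P E htb x ht hη
  refine ⟨_, hF.isCof hc, fun y hy hy1 => ?_⟩
  change ‖(y : E)‖ = 1 at hy1
  change _ ≤ (‖(x : E) + t • (y : E)‖ + ‖(x : E) - t • (y : E)‖) / 2 - 1
  have h1 := h y hy hy1
  have h2 := norm_sub_le ((x : E) + t • (y : E)) ((x : E) - t • (y : E))
  rw [show (x : E) + t • (y : E) - ((x : E) - t • (y : E)) = (2 * t) • (y : E) by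
    rw [two_mul, add_smul]; abel, norm_smul, hy1, Real.norm_of_nonneg (by linarith)] at h2
  rcases max_cases (t / 2) (t - 1) with h5 | h5 <;> rw [h5.1] <;> linarith

/-- Let E be an infinite-dimensional closed subspace of the real L¹ of a probability space whose closed unit ball is totally bounded for convergence in measure and whose norm has the Daugavet property. Then at every unit x ∈ E and every t > 0 the averaged midpoint quantity sup_F inf_y ((‖x+ty‖+‖x-ty‖)/2 - 1) equals max(t/2, t-1) and the one-sided one sup_F inf_y (‖x+ty‖ - 1) equals max(0, t-2), as matching lower and upper bounds, and E admits no equivalent asymptotically uniformly convex norm. -/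
theorem result (Ω : Type) [MeasurableSpace Ω] (P : MeasureTheory.Measure Ω) [MeasureTheory.IsProbabilityMeasure P]
    (E : Submodule ℝ (MeasureTheory.Lp ℝ 1 P)) (hcl : IsClosed (E : Set (MeasureTheory.Lp ℝ 1 P)))
    (hinf : ¬ FiniteDimensional ℝ E)
    (htb : Crest.AnalysisR.L1Subspace.UnitBallTotallyBoundedInMeasure P E)
    (hD : Crest.AnalysisR.L1Subspace.HasDaugavetProperty E) :
    (∀ t : ℝ, 0 < t →
      (Crest.AnalysisR.L1Subspace.toRealBanach P E hcl).MidpointModulusGE
          (Crest.AnalysisR.L1Subspace.toRealBanach P E hcl).norm t (max (t / 2) (t - 1)) ∧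
        (Crest.AnalysisR.L1Subspace.toRealBanach P E hcl).MidpointModulusLE
          (Crest.AnalysisR.L1Subspace.toRealBanach P E hcl).norm t (max (t / 2) (t - 1)) ∧
        (Crest.AnalysisR.L1Subspace.toRealBanach P E hcl).OneSidedModulusGE
          (Crest.AnalysisR.L1Subspace.toRealBanach P E hcl).norm t (max 0 (t - 2)) ∧
        (Crest.AnalysisR.L1Subspace.toRealBanach P E hcl).OneSidedModulusLE
          (Crest.AnalysisR.L1Subspace.toRealBanach P E hcl).norm t (max 0 (t - 2))) ∧
      ∀ N : E → ℝ, (Crest.AnalysisR.L1Subspace.toRealBanach P E hcl).IsEquivNorm N →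
        ¬ (Crest.AnalysisR.L1Subspace.toRealBanach P E hcl).IsAUC N := by
  have hc : CompleteSpace E := hcl.completeSpace_coe
  have hE : toRealBanach P E hcl = mkB E hc := rfl
  have hnt : Nontrivial E := by
    by_contra h
    rw [not_nontrivial_iff_subsingleton] at h
    exact hinf inferInstance
  exact ⟨fun t ht => ⟨midGE P E hc htb ht, midLE hc hD ht, oneGE hc ht, oneLE hc hD ht⟩,
    daug_noAUC hc hD⟩

end Crest.Agent.S0167
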