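import Crest.Statements.S0168
import Crest.Agent.R125.Models

set_option autoImplicit false
open Crest Crest.AnalysisR

namespace Crest.Agent.S0168

open Filter Topology Submodule Crest.AnalysisR.TreePotential Crest.Agent.R125

/-- the coordinate vectors as elements of the model space -/
noncomputable def eV (m : PotentialModel) (s : List ℕ) : modelSpace m :=
  ⟨coordVector m s, Submodule.le_topologicalClosure _ (subset_span ⟨s, rfl⟩)⟩

theorem evT_eV (m : PotentialModel) (f : PotentialTest m) (s : List ℕ) :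
    evT (modelSpace m) f (eV m s) = f.1 s := rfl

theorem dense_eV (m : PotentialModel) :
    Dense (span ℝ (Set.range (eV m)) : Set (modelSpace m)) :=
  dense_span_lift (coordVector m) (eV m) (fun _ => rfl)

instance (m : PotentialModel) : Nonempty (PotentialTest m) := ⟨⟨_, isTest_single m 0 []⟩⟩

theorem exists_test (m : PotentialModel) (x : modelSpace m) (ε : ℝ) (hε : 0 < ε) :
    ∃ f, ‖x‖ - ε ≤ evT (modelSpace m) f x :=
  exists_evT _ (eV m) (dense_eV m) (fun f => ⟨⟨-f.1, isTest_neg f.2⟩, fun _ => rfl⟩) x ε hε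

theorem avg_model (m : PotentialModel) (T : Finset (List ℕ)) (hT0 : [] ∈ T)
    (hT : ∀ a v, a :: v ∈ T → v ∈ T) {x y : modelSpace m}
    (hx : x ∈ (span ℝ (eV m '' (T : Set (List ℕ)))).topologicalClosure)
    (hy : y ∈ (span ℝ (eV m '' (T : Set (List ℕ))ᶜ)).topologicalClosure) :
    Real.sqrt (‖x‖ ^ 2 + ‖y‖ ^ 2 / 4) ≤ (‖x + y‖ + ‖x - y‖) / 2 := by
  refine avg_ge (evT (modelSpace m)) (abs_evT_le _) (exists_test m) (eV m) T ?_ hx hy
  intro f g α β hα hβ hα1 hβ1 hαβ
  obtain ⟨h₁, h₂, p1, p2, hon, hoff, d1, d2⟩ := exists_mix (fun s => s ∈ T) (fun _ => True) hT0 hT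
    (fun _ _ _ => trivial) f.1 g.1 hα hα1 hβ hβ1 (fun s _ => f.2.1 s) (fun s _ => g.2.1 s)
  exact ⟨⟨h₁, fun s => p1 s trivial, extra_of_dom hαβ f.2.2 g.2.2 d1⟩,
    ⟨h₂, fun s => p2 s trivial, extra_of_dom hαβ f.2.2 g.2.2 d2⟩, hon, hoff⟩

theorem noAUC_model (m : PotentialModel) (hc : CompleteSpace (modelSpace m))
    (N : modelSpace m → ℝ) (hN : (mkB (modelSpace m) hc).IsEquivNorm N) :
    ¬ (mkB (modelSpace m) hc).IsAUC N := by
  refine noAUC_tree hc 1 1 one_pos (fun _ => ⟨pathSum (eV m), ?_, ?_, ?_⟩) N hN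
  · intro v _
    refine norm_le_of_evT _ _ zero_le_one fun f => ?_
    rw [map_pathSum (eV m) _ f.1 (evT_eV m f)]
    exact f.2.1 v
  · intro v a _
    have h := abs_evT_le (modelSpace m) ⟨_, isTest_single m a v⟩ (eV m (a :: v))
    rw [evT_eV] at h
    simpa [pathSum] using h
  · intro v _
    have : (fun a => pathSum (eV m) (a :: v) - pathSum (eV m) v) = fun a => eV m (a :: v) := by
      funext a; simp [pathSum]
    intro φ
    have h := weaklyNull_of_upper (fun a => eV m (a :: v)) 1 ?_ φ
    · simpa [pathSum] using h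
    intro A c hc
    have h1 : ‖∑ n ∈ A, c n • eV m (n :: v)‖ ≤ Real.sqrt A.card := by
      refine norm_le_of_evT _ _ (Real.sqrt_nonneg _) fun f => ?_
      rw [map_sum]
      simp only [map_smul, evT_eV, smul_eq_mul]
      exact signed_sum_le A c (fun n => f.1 (n :: v)) hc (siblings_le f.2.2 v A)
    have h2 := pow_le_pow_left₀ (norm_nonneg _) h1 2
    rw [Real.sq_sqrt (Nat.cast_nonneg _)] at h2
    simpa using h2

theorem midpoint_model (m : PotentialModel) (hc : CompleteSpace (modelSpace m)) (t : ℝ)
    (ht : 0 < t) : (mkB (modelSpace m) hc).MidpointModulusGE (mkB (modelSpace m) hc).norm t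
      (Real.sqrt (1 + t ^ 2 / 4) - 1) := by
  intro x hx η hη
  change ‖(x : modelSpace m)‖ = 1 at hx
  obtain ⟨A, x', hx', hxx'⟩ := exists_approx (eV m) (dense_eV m) x (half_pos hη)
  obtain ⟨T, hAT, hT0, hT⟩ := exists_closed_superset A
  refine ⟨_, (cof_compl (eV m) (dense_eV m) T).isCof hc, ?_⟩
  intro y hy hy1
  change ‖(y : modelSpace m)‖ = 1 at hy1
  change _ ≤ (‖(x : modelSpace m) + t • (y : modelSpace m)‖ +
    ‖(x : modelSpace m) - t • (y : modelSpace m)‖) / 2 - 1
  have hxT : x' ∈ (span ℝ (eV m '' (T : Set (List ℕ)))).topologicalClosure :=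
    Submodule.le_topologicalClosure _
      (span_mono (Set.image_mono (Finset.coe_subset.2 hAT)) hx')
  have h1 := avg_model m T hT0 hT hxT (Submodule.smul_mem _ t hy)
  rw [norm_smul, hy1, mul_one, Real.norm_eq_abs, sq_abs] at h1
  have h2 := sqrt_lip 1 ‖x'‖ (t ^ 2 / 4) (by positivity)
  have h3 : |1 - ‖x'‖| ≤ ‖x - x'‖ := by rw [← hx]; exact abs_norm_sub_norm_le _ _
  have h4 : ‖x' + t • y‖ ≤ ‖x + t • y‖ + ‖x - x'‖ := by
    have := norm_sub_le (x + t • y) (x - x')
    rwa [show x + t • y - (x - x') = x' + t • y by abel] at this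
  have h5 : ‖x' - t • y‖ ≤ ‖x - t • y‖ + ‖x - x'‖ := by
    have := norm_sub_le (x - t • y) (x - x')
    rwa [show x - t • y - (x - x') = x' - t • y by abel] at this
  rw [one_pow] at h2
  linarith

/-- For each of the four bounded-potential coordinate models on the countably branching tree (rootless sibling, rooted sibling, antichain, global), the generated space, namely the closure of the span of the coordinate vectors in the supremum norm over the model's tests, is separable and infinite-dimensional, its norm has at every unit centre and every 0 < t < 1 averaged midpoint asymptotic quantity at least √(1 + t²/4) - 1, and no equivalent norm on it is asymptotically uniformly convex. -/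
theorem result
    (m : Crest.AnalysisR.TreePotential.PotentialModel) :
    (Crest.AnalysisR.TreePotential.modelBanach m).IsSeparableInfiniteDim ∧
      (∀ t : ℝ, 0 < t → t < 1 →
        (Crest.AnalysisR.TreePotential.modelBanach m).MidpointModulusGE
          (Crest.AnalysisR.TreePotential.modelBanach m).norm t (Real.sqrt (1 + t ^ 2 / 4) - 1)) ∧
      ∀ N : (Crest.AnalysisR.TreePotential.modelBanach m).X → ℝ,
        (Crest.AnalysisR.TreePotential.modelBanach m).IsEquivNorm N →
          ¬ (Crest.AnalysisR.TreePotential.modelBanach m).IsAUC N := by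
  have hc : CompleteSpace (modelSpace m) :=
    (Submodule.isClosed_topologicalClosure _).completeSpace_coe
  have hE : modelBanach m = mkB (modelSpace m) hc := rfl
  rw [hE]
  have h1 : TopologicalSpace.SeparableSpace (modelSpace m) :=
    separable_of_dense (X := modelSpace m) (eV m) (dense_eV m)
  have h2 : ¬ FiniteDimensional ℝ (modelSpace m) :=
    not_finiteDimensional_of_noAUC hc (noAUC_model m hc)
  exact ⟨⟨h1, h2⟩, fun t ht _ => midpoint_model m hc t ht, noAUC_model m hc⟩

end Crest.Agent.S0168
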