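import Crest.Statements.S0169
import Crest.Agent.R125.Products

set_option autoImplicit false
open MeasureTheory ProbabilityTheory
open Crest Crest.AnalysisR

namespace Crest.Agent.S0169

/-- Let ν be a Borel probability law on ℝ carried by (0,∞), not a point mass, with mean 1 and finite second moment, and W an independent family of real random variables on a probability space indexed by the vertices of the countably branching tree (finite lists of naturals; root [], parent of a :: v is v), each non-root one with law ν. Then the closed linear span in L¹ of the path products ∏_{root ≺ u ≼ v} W_u is infinite-dimensional and has no equivalent asymptotically uniformly convex norm. -/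
theorem result (ν : Measure ℝ) [IsProbabilityMeasure ν] (hpos : ν (Set.Ioi 0) = 1)
    (hnc : ∀ c : ℝ, ν ≠ Measure.dirac c) (hmean : ∫ x, x ∂ν = 1)
    (hm2 : Integrable (fun x : ℝ => x ^ 2) ν)
    (Ω : Type) [MeasurableSpace Ω] (μ : Measure Ω) [IsProbabilityMeasure μ]
    (W : List ℕ → Ω → ℝ) (hW : Crest.AnalysisR.TreeProduct.IsRealization ν μ W) :
    ¬ FiniteDimensional ℝ (Crest.AnalysisR.TreeProduct.productSpan μ W) ∧
      ∀ N : (Crest.AnalysisR.TreeProduct.spanBanach μ W).X → ℝ,
        (Crest.AnalysisR.TreeProduct.spanBanach μ W).IsEquivNorm N →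
          ¬ (Crest.AnalysisR.TreeProduct.spanBanach μ W).IsAUC N := by
  have hc : CompleteSpace (Crest.AnalysisR.TreeProduct.productSpan μ W) :=
    (Submodule.isClosed_topologicalClosure _).completeSpace_coe
  have hint := Crest.Agent.R125.integrable_pathProduct hm2 hW
  let x : List ℕ → Crest.AnalysisR.TreeProduct.productSpan μ W := fun v =>
    ⟨(hint v).toL1 _, Submodule.le_topologicalClosure _
      (Submodule.subset_span ⟨v, (hint v).coeFn_toL1⟩)⟩
  have hx : ∀ v, ((x v : Lp ℝ 1 μ) : Ω → ℝ) =ᵐ[μ] TreeProduct.pathProduct W v :=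
    fun v => (hint v).coeFn_toL1
  have hnorm : ∀ (v : List ℕ) (A : Finset ℕ) (c : ℕ → ℝ),
      ‖∑ n ∈ A, c n • (x (n :: v) - x v)‖ = ∫ z, |Crest.Agent.R125.prZ W v A c z| ∂μ := by
    intro v A c
    rw [← Crest.Agent.R125.integral_abs_mul_prZ hpos hmean hW v A c, ← Submodule.norm_coe,
      L1.norm_eq_integral_norm]
    refine integral_congr_ae ?_
    have h1 : ((∑ n ∈ A, c n • (x (n :: v) - x v) :
        Crest.AnalysisR.TreeProduct.productSpan μ W) : Lp ℝ 1 μ) =
        ∑ n ∈ A, c n • ((x (n :: v) : Lp ℝ 1 μ) - (x v : Lp ℝ 1 μ)) := by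
      simp
    rw [h1]
    have h2 : ∀ᵐ z ∂μ, ∀ n : ℕ, (c n • ((x (n :: v) : Lp ℝ 1 μ) - (x v : Lp ℝ 1 μ)) : Lp ℝ 1 μ) z =
        c n * (TreeProduct.pathProduct W (n :: v) z - TreeProduct.pathProduct W v z) := by
      rw [ae_all_iff]
      intro n
      filter_upwards [Lp.coeFn_smul (c n) ((x (n :: v) : Lp ℝ 1 μ) - (x v : Lp ℝ 1 μ)),
        Lp.coeFn_sub (x (n :: v) : Lp ℝ 1 μ) (x v : Lp ℝ 1 μ), hx (n :: v), hx v] with z a1 a2 a3 a4
      rw [a1, Pi.smul_apply, a2, Pi.sub_apply, a3, a4, smul_eq_mul]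
    filter_upwards [Lp.coeFn_finsetSum A
      (fun n => c n • ((x (n :: v) : Lp ℝ 1 μ) - (x v : Lp ℝ 1 μ))), h2] with z a1 a2
    rw [a1, Real.norm_eq_abs, Finset.sum_apply]
    congr 1
    simp only [a2, Crest.Agent.R125.prZ, TreeProduct.pathProduct, Finset.mul_sum]
    refine Finset.sum_congr rfl fun n _ => ?_
    ring
  have key : ∀ N : Crest.AnalysisR.TreeProduct.productSpan μ W → ℝ,
      (Crest.Agent.R125.mkB _ hc).IsEquivNorm N → ¬ (Crest.Agent.R125.mkB _ hc).IsAUC N := by
    refine Crest.Agent.R125.noAUC_tree hc 1 (∫ s, |s - 1| ∂ν)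
      (Crest.Agent.R125.delta_pos hnc hm2) fun k => ⟨x, fun v _ => ?_, fun v a _ => ?_,
        fun v _ => ?_⟩
    · rw [← Submodule.norm_coe, L1.norm_eq_integral_norm,
        ← Crest.Agent.R125.integral_abs_pathProduct hpos hmean hW v]
      refine le_of_eq (integral_congr_ae ?_)
      filter_upwards [hx v] with z hz
      rw [hz, Real.norm_eq_abs]
    · have h := hnorm v {a} (fun _ => 1)
      simp only [Finset.sum_singleton, one_smul, Crest.Agent.R125.prZ, one_mul] at h
      rw [h, Crest.Agent.R125.integral_comp_W hW a v (fun s => |s - 1|) (by fun_prop)]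
    · refine Crest.Agent.R125.weaklyNull_of_upper (fun a => x (a :: v) - x v) (∫ s, s ^ 2 ∂ν) ?_
      intro A c hcc
      rw [hnorm]
      exact Crest.Agent.R125.sq_integral_abs_prZ_le hmean hm2 hW v A c hcc
  exact ⟨Crest.Agent.R125.not_finiteDimensional_of_noAUC hc key, key⟩

end Crest.Agent.S0169
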