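import Crest.Statements.S0170
import Crest.Agent.R126.Geom

set_option autoImplicit false
open scoped ContDiff
open Crest.AnalysisR.BoxFlow
open Crest Crest.AnalysisR

namespace Crest.Agent.S0170

open Crest.Agent.R126 Topology

theorem sep_of_disjoint {a a' h h' : Fin 3 → ℚ} (hh : ∀ j, 0 < h j) (hh' : ∀ j, 0 < h' j)
    (hd : Disjoint (box a h) (box a' h')) : ∃ j, h j + h' j < |a j - a' j| := by
  by_contra hcon
  push Not at hcon
  have hcon' : ∀ j, |(a j : ℝ) - a' j| ≤ h j + h' j := fun j => by exact_mod_cast hcon j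
  have p1 : ∀ j, (0 : ℝ) < h j := fun j => by exact_mod_cast hh j
  have p2 : ∀ j, (0 : ℝ) < h' j := fun j => by exact_mod_cast hh' j
  have hd' := Set.disjoint_left.1 hd
  refine @hd'
    (fun j => ((a j : ℝ) * h' j + a' j * h j) / (h j + h' j)) (fun j => ?_) (fun j => ?_)
  · have hs : (0 : ℝ) < h j + h' j := add_pos (p1 j) (p2 j)
    have e : ((a j : ℝ) * h' j + a' j * h j) / (h j + h' j) - a j =
        -(h j * ((a j : ℝ) - a' j) / (h j + h' j)) := by field_simp; ring
    rw [e, abs_neg, abs_div, abs_mul, abs_of_pos hs, abs_of_pos (p1 j), div_le_iff₀ hs]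
    exact mul_le_mul_of_nonneg_left (hcon' j) (p1 j).le
  · have hs : (0 : ℝ) < h j + h' j := add_pos (p1 j) (p2 j)
    have e : ((a j : ℝ) * h' j + a' j * h j) / (h j + h' j) - a' j =
        h' j * ((a j : ℝ) - a' j) / (h j + h' j) := by field_simp; ring
    rw [e, abs_div, abs_mul, abs_of_pos hs, abs_of_pos (p2 j), div_le_iff₀ hs]
    exact mul_le_mul_of_nonneg_left (hcon' j) (p2 j).le

theorem eventually_sep {n : ℕ} (a h : Fin n → Fin 3 → ℚ)
    (ha : ∀ i i', i ≠ i' → ∃ j, h i j + h i' j < |a i j - a i' j|) :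
    ∀ᶠ ε : ℚ in 𝓝[>] 0, ∀ i i', i ≠ i' →
      ∃ j, (1 + ε) * h i j + (1 + ε) * h i' j < |a i j - a i' j| := by
  refine nhdsWithin_le_nhds ?_
  refine Filter.eventually_all.2 fun i => Filter.eventually_all.2 fun i' => ?_
  by_cases hii : i = i'
  · exact Filter.Eventually.of_forall fun _ h => absurd hii h
  obtain ⟨j, hj⟩ := ha i i' hii
  have hc : Continuous fun ε : ℚ => (1 + ε) * h i j + (1 + ε) * h i' j := by fun_prop
  have := hc.continuousAt (x := 0) |>.eventually_lt (g := fun _ => |a i j - a i' j|)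
    continuousAt_const (by simpa using hj)
  filter_upwards [this] with ε hε _ using ⟨j, hε⟩

/-- Finitely many pairwise disjoint rational boxes in 3-space are carried onto disjoint target boxes, each a translated determinant-one positive diagonal rescaling of its source, by the time-one flow of a smooth, compactly supported, effective, divergence-free velocity field active only in [1/4,3/4]. The flow equals the prescribed affine map on a neighbourhood of each source box. Effective: computably approximable mixed derivatives at rational points and computable global derivative bounds. -/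
theorem result
    (n : ℕ) (a b h k : Fin n → Fin 3 → ℚ)
    (hh : ∀ i j, 0 < h i j) (hk : ∀ i j, 0 < k i j)
    (ha : Pairwise fun i i' => Disjoint (box (a i) (h i)) (box (a i') (h i')))
    (hb : Pairwise fun i i' => Disjoint (box (b i) (k i)) (box (b i') (k i')))
    (hvol : ∀ i, ∏ j : Fin 3, k i j / h i j = 1) :
    ∃ (U : Field) (Φ : ℝ → (Fin 3 → ℝ) → (Fin 3 → ℝ)),
      ContDiff ℝ ∞ U ∧ HasCompactSupport U ∧ Effective U ∧
      (∀ p : ℝ × (Fin 3 → ℝ), p.1 ∉ Set.Icc (1 / 4 : ℝ) (3 / 4) → U p = 0) ∧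
      (∀ p : ℝ × (Fin 3 → ℝ), spaceDiv U p = 0) ∧ IsFlow U Φ ∧
      ∀ i : Fin n, ∃ O : Set (Fin 3 → ℝ), IsOpen O ∧ box (a i) (h i) ⊆ O ∧
        ∀ x ∈ O, Φ 1 x = fun j => (b i j : ℝ) + ((k i j / h i j : ℚ) : ℝ) * (x j - (a i j : ℝ)) := by
  have ha' : ∀ i i', i ≠ i' → ∃ j, h i j + h i' j < |a i j - a i' j| := fun i i' hii =>
    sep_of_disjoint (hh i) (hh i') (ha hii)
  have hb' : ∀ i i', i ≠ i' → ∃ j, k i j + k i' j < |b i j - b i' j| := fun i i' hii =>
    sep_of_disjoint (hk i) (hk i') (hb hii)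
  obtain ⟨ε, ⟨hεa, hεb⟩, hε⟩ :=
    (((eventually_sep a h ha').and (eventually_sep b k hb')).and self_mem_nhdsWithin).exists
  have hε : 0 < ε := hε
  have hε1 : 0 < 1 + ε := by linarith
  have hratio : ∀ i j, (1 + ε) * k i j / ((1 + ε) * h i j) = k i j / h i j := fun i j =>
    mul_div_mul_left _ _ hε1.ne'
  have hr := rl_boxes a b (fun i j => (1 + ε) * h i j) (fun i j => (1 + ε) * k i j)
    (fun i j => mul_pos hε1 (hh i j)) (fun i j => mul_pos hε1 (hk i j)) hεa hεb
    (fun i => by simp only [hratio]; exact hvol i)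
  simp only [hratio] at hr
  obtain ⟨U, hU, hc⟩ := hr (1 / 4) (3 / 4) (by norm_num)
  have key : ∀ x : Fin 3 → ℝ, ∃ γ : ℝ → Fin 3 → ℝ, γ 0 = x ∧
      (∀ t, HasDerivAt γ (U (t, γ t)) t) ∧
      ∀ i, x ∈ box (a i) (fun j => (1 + ε) * h i j) →
        γ 1 = fun j => (b i j : ℝ) + ((k i j / h i j : ℚ) : ℝ) * (x j - (a i j : ℝ)) := by
    intro x
    by_cases hx : ∃ i, x ∈ box (a i) (fun j => (1 + ε) * h i j)
    · obtain ⟨i, hi⟩ := hx
      obtain ⟨γ, h0, h1, hd⟩ := hc i x hi
      refine ⟨γ, h0 0 (by norm_num), hd, fun i' hi' => ?_⟩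
      obtain rfl : i = i' := by
        by_contra hii
        obtain ⟨j, hj⟩ := hεa i i' hii
        have hj' : (((1 + ε) * h i j : ℚ) : ℝ) + (((1 + ε) * h i' j : ℚ) : ℝ) <
            |(a i j : ℝ) - a i' j| := by exact_mod_cast hj
        have t1 := hi j
        have t2 := hi' j
        have t3 := abs_sub (x j - (a i' j : ℝ)) (x j - (a i j : ℝ))
        rw [show x j - (a i' j : ℝ) - (x j - (a i j : ℝ)) = (a i j : ℝ) - a i' j by ring] at t3
        linarith
      exact h1 1 (by norm_num)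
    · obtain ⟨γ, h0, hd⟩ := hU.exists_traj x
      exact ⟨γ, h0, hd, fun i hi => absurd ⟨i, hi⟩ hx⟩
  choose γ hγ0 hγd hγ1 using key
  refine ⟨U, fun t x => γ x t, hU.smooth, hU.cpt, effective_of_eff hU.eff hU.cpt,
    fun p hp => hU.time p (by simpa using hp), hU.div, ⟨hγ0, fun t x => hγd x t⟩, fun i => ?_⟩
  refine ⟨{x | ∀ j, |x j - (a i j : ℝ)| < (((1 + ε) * h i j : ℚ) : ℝ)}, ?_, ?_, ?_⟩
  · rw [Set.ofPred_forall]
    exact isOpen_iInter_of_finite fun j => isOpen_lt (by fun_prop) continuous_const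
  · intro x hx j
    refine (hx j).trans_lt ?_
    have : h i j < (1 + ε) * h i j := by nlinarith [hh i j]
    exact_mod_cast this
  · intro x hx
    exact hγ1 x i fun j => (hx j).le

end Crest.Agent.S0170
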