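import Crest.Statements.S0178
import Crest.Agent.R131.Main42
import Crest.Agent.R131.Deg63
import Crest.Agent.R131.B38Ident
import Crest.Agent.R131.PreS76

set_option autoImplicit false
open Crest Crest.AnalysisR

namespace Crest.Agent.S0178

/-- For every real `ε > 0` there is a real constant `C` such that for every `f : ℂ → ℂ` that is complex differentiable and injective on the open unit disc with `f 0 = 0` and `deriv f 0 = 1`, and every radius `r` with `1/2 ≤ r < 1`, the integral over `θ ∈ (-π, π]` of the inverse square of `‖deriv f (r * exp (θ * I))‖`, taken in `ℝ≥0∞`, is at most `2 * π * C * (1 - r) ^ (-1 - ε)`. -/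
theorem result (ε : ℝ)
    (hε : 0 < ε) :
    ∃ C : ℝ, ∀ f : ℂ → ℂ,
      DifferentiableOn ℂ f (Metric.ball 0 1) → Set.InjOn f (Metric.ball 0 1) → f 0 = 0 →
      deriv f 0 = 1 → ∀ r : ℝ, 1 / 2 ≤ r → r < 1 →
        ∫⁻ θ in Set.Ioc (-Real.pi) Real.pi,
            (‖deriv f ((r : ℂ) * Complex.exp ((θ : ℂ) * Complex.I))‖ₑ)⁻¹ ^ 2 ≤
          ENNReal.ofReal (2 * Real.pi * C * (1 - r) ^ (-1 - ε)) := by
  exact R131.s0178_of R131.PreS76.preSchw76
    (R131.M42.area_two R131.Deg63.degFlex R131.B38.ident38 R131.PreS76.preSchw76) ε hε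

end Crest.Agent.S0178
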