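import Crest.Statements.S0179
import Crest.Agent.R132.Block

set_option autoImplicit false
open Crest Crest.AnalysisR

namespace Crest.Agent.S0179

open Crest.Agent.R132 in
theorem pow_div {E : Type*} [NormedAddCommGroup E] [InnerProductSpace ℂ E] (A : E →L[ℂ] E)
    (y : E) (k : ℕ) :
    ∃ e : ℂ → E, Differentiable ℂ e ∧ ∀ z : ℂ, z ^ k • y - (A ^ k) y = z • e z - A (e z) := by
  induction k with
  | zero => exact ⟨fun _ => 0, differentiable_const _, fun z => by simp⟩
  | succ k ih =>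
    obtain ⟨e, he, he'⟩ := ih
    refine ⟨fun z => z ^ k • y + A (e z), by fun_prop, fun z => ?_⟩
    have := congrArg A (he' z)
    simp only [map_sub, map_smul] at this
    rw [pow_succ' A, mul_apply_eq_comp, smul_add, map_add, map_smul, smul_smul, ← pow_succ']
    linear_combination (norm := module) this

open Crest.Agent.R132 in
theorem finite_case {E : Type*} [NormedAddCommGroup E] [InnerProductSpace ℂ E]
    [FiniteDimensional ℂ E]
    (A : E →L[ℂ] E) (m d : ℕ) (B : Fin (d + 1) → Matrix (Fin m) (Fin m) ℂ) (M : ℝ)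
    (hM : ∀ x : E, ‖x‖ = 1 →
      ‖Matrix.toEuclideanCLM (n := Fin m) (𝕜 := ℂ)
          (∑ k : Fin (d + 1), (inner ℂ x (A x)) ^ (k : ℕ) • B k)‖ ≤ M)
    (v : PiLp 2 (fun _ : Fin m => E)) :
    ‖(WithLp.toLp 2 (fun i : Fin m => ∑ j : Fin m, ∑ k : Fin (d + 1), B k i j • (A ^ (k : ℕ)) (v j))
        : PiLp 2 (fun _ : Fin m => E))‖ ≤ 2 * M * ‖v‖ := by
  let L : PiLp 2 (fun _ : Fin m => E) →ₗ[ℂ] PiLp 2 (fun _ : Fin m => E) :=
    { toFun := fun v => WithLp.toLp 2
        (fun i : Fin m => ∑ j : Fin m, ∑ k : Fin (d + 1), B k i j • (A ^ (k : ℕ)) (v j))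
      map_add' := fun x y => by
        ext i; simp [Finset.sum_add_distrib]
      map_smul' := fun a x => by
        ext i; simp [Finset.smul_sum, smul_comm a] }
  set Φ : ℂ → Matrix (Fin m) (Fin m) ℂ := fun z => ∑ k : Fin (d + 1), z ^ (k : ℕ) • B k with hΦ
  have hc : Continuous fun z => ‖Matrix.toEuclideanCLM (n := Fin m) (𝕜 := ℂ) (Φ z)‖ := by
    simp only [hΦ, map_sum, map_smul]
    fun_prop
  have key : ∀ ε > 0, ‖L v‖ ≤ 2 * (M + ε) * ‖v‖ := by
    intro ε hε
    obtain ⟨δ, hδ, hsub⟩ := (isCompact_nr A).exists_thickening_subset_open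
      (isOpen_lt hc (continuous_const (y := M + ε))) (by
        rintro _ ⟨x, hx, rfl⟩
        exact (hM x hx).trans_lt (lt_add_of_pos_right M hε))
    refine block_bound Metric.isOpen_thickening ((convex_nr A).thickening δ)
      (Metric.self_subset_thickening hδ _) (Φ := Φ) (fun z hz => (hsub hz).le)
      (LinearMap.toContinuousLinearMap L) (fun w i => ?_) (fun w i => ?_) v
    · simp only [L, LinearMap.coe_toContinuousLinearMap', LinearMap.coe_mk, AddHom.coe_mk,
        map_sum, map_smul]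
      refine Finset.sum_congr rfl fun j _ => Finset.sum_congr rfl fun k _ => ?_
      rw [← mul_apply_eq_comp, ← mul_apply_eq_comp, ← pow_succ, ← pow_succ']
    · choose e he he' using fun (j : Fin m) (k : Fin (d + 1)) => pow_div A (w j) k
      refine ⟨fun z => ∑ j, ∑ k, B k i j • e j k z, ?_, fun z _ => ?_⟩
      · refine Differentiable.differentiableOn ?_
        fun_prop
      · simp only [L, LinearMap.coe_toContinuousLinearMap', LinearMap.coe_mk, AddHom.coe_mk,
          map_sum, map_smul, hΦ, Matrix.sum_apply, Matrix.smul_apply, smul_eq_mul, Finset.sum_smul,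
          Finset.smul_sum, ← Finset.sum_sub_distrib]
        refine Finset.sum_congr rfl fun j _ => Finset.sum_congr rfl fun k _ => ?_
        rw [smul_comm z, ← smul_sub, ← he', smul_sub, smul_smul, mul_comm]
  change ‖L v‖ ≤ 2 * M * ‖v‖
  refine le_of_forall_pos_le_add fun ε hε => ?_
  have h1 := key (ε / (2 * ‖v‖ + 1)) (by positivity)
  have h2 : 2 * (ε / (2 * ‖v‖ + 1)) * ‖v‖ ≤ ε := by
    rw [mul_comm 2, mul_assoc, div_mul_eq_mul_div, div_le_iff₀ (by positivity)]
    nlinarith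
  linarith

/-- Let A be a bounded operator on a complex Hilbert space H, m ≥ 0, and P(z) = ∑_{k ≤ d} z^k B_k a polynomial with m × m complex matrix coefficients. Suppose M bounds the operator norm (on Euclidean ℂ^m) of P(z) for every z in the numerical range {⟨x, A x⟩ : ‖x‖ = 1}. Then the operator P[A] = ∑_k A^k ⊗ B_k on H ⊗ ℂ^m, written in coordinates as (v_j)_{j<m} ↦ (∑_j ∑_k (B_k)_{ij} A^k v_j)_{i<m} with the ℓ²-norm of the component norms, satisfies ‖P[A] v‖ ≤ 2 M ‖v‖ for every v. -/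
theorem result
    {H : Type*} [NormedAddCommGroup H] [InnerProductSpace ℂ H] [CompleteSpace H]
    (A : H →L[ℂ] H) (m d : ℕ) (B : Fin (d + 1) → Matrix (Fin m) (Fin m) ℂ) (M : ℝ)
    (hM : ∀ x : H, ‖x‖ = 1 →
      ‖Matrix.toEuclideanCLM (n := Fin m) (𝕜 := ℂ)
          (∑ k : Fin (d + 1), (inner ℂ x (A x)) ^ (k : ℕ) • B k)‖ ≤ M)
    (v : PiLp 2 (fun _ : Fin m => H)) :
    ‖(WithLp.toLp 2 (fun i : Fin m => ∑ j : Fin m, ∑ k : Fin (d + 1), B k i j • (A ^ (k : ℕ)) (v j))
        : PiLp 2 (fun _ : Fin m => H))‖ ≤ 2 * M * ‖v‖ := by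
  classical
  set K : Submodule ℂ H :=
    Submodule.span ℂ (Set.range fun p : Fin m × Fin (d + 1) => (A ^ (p.2 : ℕ)) (v p.1)) with hK
  have : FiniteDimensional ℂ K := FiniteDimensional.span_of_finite ℂ (Set.finite_range _)
  have hmem : ∀ (j : Fin m) (k : ℕ), k ≤ d → (A ^ k) (v j) ∈ K := fun j k hk =>
    Submodule.subset_span ⟨(j, ⟨k, by omega⟩), rfl⟩
  set A₀ : K →L[ℂ] K := K.orthogonalProjectionOnto ∘L A ∘L K.subtypeL with hA₀
  set y : Fin m → K := fun j => ⟨v j, by simpa using hmem j 0 (Nat.zero_le d)⟩ with hy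
  have hpow : ∀ (j : Fin m) (k : ℕ), k ≤ d → (((A₀ ^ k) (y j) : K) : H) = (A ^ k) (v j) := by
    intro j k hk
    induction k with
    | zero => simp [hy]
    | succ k ih =>
      have h1 := hmem j (k + 1) hk
      rw [pow_succ' A, mul_apply_eq_comp] at h1 ⊢
      rw [pow_succ' A₀, mul_apply_eq_comp]
      nth_rewrite 1 [hA₀]
      simp only [ContinuousLinearMap.comp_apply, Submodule.subtypeL_apply, ih (by omega)]
      exact congrArg Subtype.val
        (Submodule.orthogonalProjectionOnto_mem_subspace_eq_self (K := K) ⟨_, h1⟩)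
  have h := finite_case A₀ m d B M (fun x hx => by
    have : inner ℂ x (A₀ x) = inner ℂ (x : H) (A x) := by
      simp [hA₀]
    rw [this]
    exact hM x hx) (WithLp.toLp 2 y)
  have e1 : ‖(WithLp.toLp 2 y : PiLp 2 (fun _ : Fin m => K))‖ = ‖v‖ := by
    rw [PiLp.norm_eq_of_L2, PiLp.norm_eq_of_L2]
    rfl
  rw [e1] at h
  refine le_trans (le_of_eq ?_) h
  rw [PiLp.norm_eq_of_L2, PiLp.norm_eq_of_L2]
  congr 1
  refine Finset.sum_congr rfl fun i _ => ?_
  congr 1
  rw [← Submodule.norm_coe]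
  congr 1
  simp only [Submodule.coe_sum, Submodule.coe_smul]
  refine Finset.sum_congr rfl fun j _ => Finset.sum_congr rfl fun k _ => ?_
  rw [hpow j k (by omega)]

end Crest.Agent.S0179
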