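import Crest.Statements.S0180
import Crest.Agent.R132.Metric

set_option autoImplicit false
open scoped ComplexOrder
open Crest.AnalysisR.NumRange
open Crest Crest.AnalysisR Crest.AnalysisR.NumRange

namespace Crest.Agent.S0180

/-- Let A be an n × n complex matrix, n ≥ 1, whose numerical range lies in a bounded open convex set Ω, and let f be holomorphic and injective on an open set containing the closure of Ω with f(Ω) the open unit disc. Realise T = f(A) as p(A) for any polynomial p agreeing with f to order n on the spectrum of A. Then the metric problem for T (H with I ≼ H ≼ τ I and Tᴴ H T ≼ H) is strictly feasible, and its least τ is attained and lies between 1 and 4. -/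
theorem result
    (n : ℕ) (hn : 1 ≤ n) (A : Matrix (Fin n) (Fin n) ℂ)
    (Ω U : Set ℂ) (hΩ₁ : IsOpen Ω) (hΩ₂ : Bornology.IsBounded Ω) (hΩ₃ : Convex ℝ Ω)
    (hU : IsOpen U) (hΩU : closure Ω ⊆ U)
    (f : ℂ → ℂ) (hf₁ : DifferentiableOn ℂ f U) (hf₂ : Set.InjOn f U)
    (hf₃ : f '' Ω = Metric.ball 0 1)
    (hA : numRange A ⊆ Ω) (p : Polynomial ℂ) (hp : AgreesOnSpectrum A f p) :
    (∃ (H : Matrix (Fin n) (Fin n) ℂ) (τ : ℝ), MetricStrictlyFeasible (Polynomial.aeval A p) H τ) ∧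
    ∃ (H : Matrix (Fin n) (Fin n) ℂ) (κsq : ℝ),
      IsOptimalMetric (Polynomial.aeval A p) H κsq ∧ 1 ≤ κsq ∧ κsq ≤ 4 := by
  have key : ∀ τ : ℝ, 4 < τ → ∃ H, MetricStrictlyFeasible (Polynomial.aeval A p) H τ :=
    fun τ hτ => R132.strictlyFeasible hn hΩ₁ hΩ₃ (subset_closure.trans hΩU) hf₁ hf₃ hA hp hτ
  have key' : ∀ τ : ℝ, 4 < τ → ∃ H, MetricFeasible (Polynomial.aeval A p) H τ := fun τ hτ =>
    (key τ hτ).imp fun H h => ⟨h.1.posSemidef, h.2.1.posSemidef, h.2.2.posSemidef⟩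
  obtain ⟨H₀, h₀⟩ := key 5 (by norm_num)
  obtain ⟨H₁, h₁⟩ := key' 5 (by norm_num)
  obtain ⟨H, κ, hH, hκ⟩ := R132.exists_optimal hn h₁
  refine ⟨⟨H₀, 5, h₀⟩, H, κ, hH, hκ, le_of_forall_gt_imp_ge_of_dense fun τ hτ => ?_⟩
  obtain ⟨H', h'⟩ := key' τ hτ
  exact hH.2 H' τ h'

end Crest.Agent.S0180
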