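import Crest.Statements.S0181
import Crest.Agent.R132.Density

set_option autoImplicit false
open scoped ComplexOrder
open Crest.AnalysisR.NumRange
open Crest Crest.AnalysisR Crest.AnalysisR.NumRange

namespace Crest.Agent.S0181

open Crest.Agent.R132 Complex Polynomial Matrix Kronecker in
/-- Setting of the optimal-metric statement; also G is holomorphic and injective on {t : r < ‖t‖} for some r < 1 with G({t : 1 < ‖t‖}) the complement of the closure of Ω, (H, κ²) is an optimal metric pair for f(A), and S ≽ 0 with S² = H. Then one continuous 2π-periodic positive semidefinite density Λ of mean I gives, for all m ≥ 1 and m × m matrix-valued v holomorphic near the closure of Ω, v[SAS⁻¹] = (1/2π) ∫ Λ(θ) ⊗ v(G(e^{iθ})) dθ entrywise, and ‖v[A]‖ ≤ κ sup ‖v‖ over the closure of Ω. -/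
theorem result
    (n : ℕ) (hn : 1 ≤ n) (A : Matrix (Fin n) (Fin n) ℂ)
    (Ω U : Set ℂ) (hΩ₁ : IsOpen Ω) (hΩ₂ : Bornology.IsBounded Ω) (hΩ₃ : Convex ℝ Ω)
    (hU : IsOpen U) (hΩU : closure Ω ⊆ U)
    (f : ℂ → ℂ) (hf₁ : DifferentiableOn ℂ f U) (hf₂ : Set.InjOn f U)
    (hf₃ : f '' Ω = Metric.ball 0 1)
    (G : ℂ → ℂ) (r : ℝ) (hr₁ : 0 < r) (hr₂ : r < 1)
    (hG₁ : DifferentiableOn ℂ G {t : ℂ | r < ‖t‖}) (hG₂ : Set.InjOn G {t : ℂ | r < ‖t‖})
    (hG₃ : G '' {t : ℂ | 1 < ‖t‖} = (closure Ω)ᶜ)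
    (hA : numRange A ⊆ Ω) (p : Polynomial ℂ) (hp : AgreesOnSpectrum A f p)
    (H : Matrix (Fin n) (Fin n) ℂ) (κsq : ℝ) (hH : IsOptimalMetric (Polynomial.aeval A p) H κsq)
    (S : Matrix (Fin n) (Fin n) ℂ) (hS₁ : S.PosSemidef) (hS₂ : S * S = H) :
    ∃ Λ : ℝ → Matrix (Fin n) (Fin n) ℂ, Continuous Λ ∧ Function.Periodic Λ (2 * Real.pi) ∧
      (∀ θ, (Λ θ).PosSemidef) ∧
      (∀ a b, (2 * Real.pi : ℂ)⁻¹ * (∫ θ in (0 : ℝ)..2 * Real.pi, Λ θ a b)
        = (1 : Matrix (Fin n) (Fin n) ℂ) a b) ∧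
      ∀ (m : ℕ), 1 ≤ m → ∀ (V : Set ℂ), IsOpen V → closure Ω ⊆ V →
        ∀ v : ℂ → Matrix (Fin m) (Fin m) ℂ, (∀ c d, DifferentiableOn ℂ (fun z => v z c d) V) →
        ∀ q : Fin m → Fin m → Polynomial ℂ,
          (∀ c d, AgreesOnSpectrum A (fun z => v z c d) (q c d)) →
          (∀ a b c d, Polynomial.aeval (S * A * S⁻¹) (q c d) a b =
              (2 * Real.pi : ℂ)⁻¹ * (∫ θ in (0 : ℝ)..2 * Real.pi,
                Λ θ a b * v (G (Complex.exp ((θ : ℂ) * Complex.I))) c d)) ∧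
          ∀ M : ℝ, (∀ z ∈ closure Ω, ‖Matrix.toEuclideanCLM (n := Fin m) (𝕜 := ℂ) (v z)‖ ≤ M) →
            ‖Matrix.toEuclideanCLM (n := Fin n × Fin m) (𝕜 := ℂ)
                (Matrix.of fun (i : Fin n × Fin m) (j : Fin n × Fin m) =>
                  Polynomial.aeval A (q i.2 j.2) i.1 j.1)‖ ≤ Real.sqrt κsq * M := by
  obtain ⟨⟨hH1, hH2, hH3⟩, -⟩ := hH
  have hκ : 0 ≤ κsq := by
    have h2 := (hH1.add hH2).diag_nonneg (i := ⟨0, hn⟩)
    simp only [sub_add_sub_cancel', Matrix.sub_apply, Matrix.smul_apply, Matrix.one_apply_eq,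
      smul_eq_mul, mul_one, sub_nonneg] at h2
    have : (1 : ℝ) ≤ κsq := by exact_mod_cast h2
    linarith
  have hS : IsUnit S.det := by
    have h1 : H.PosDef := by simpa using Matrix.PosDef.one.posSemidef_add hH1
    have h2 := (Matrix.isUnit_iff_isUnit_det _).1 h1.isUnit
    rw [← hS₂, Matrix.det_mul] at h2
    exact isUnit_of_mul_isUnit_left h2
  set A' := S * A * S⁻¹ with hA'
  have hsp : spectrum ℂ A' = spectrum ℂ A := spectrum_similar hS
  have hag : ∀ {φ : ℂ → ℂ} {q : ℂ[X]}, AgreesOnSpectrum A φ q → AgreesOnSpectrum A' φ q :=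
    fun h μ hμ => h μ (hsp ▸ hμ)
  have hσ : spectrum ℂ A' ⊆ Ω := hsp ▸ (spectrum_subset_numRange A).trans hA
  have hT := spectrum_aeval_lt hn hf₃ hσ (hag hp)
  set T := aeval A' p with hTd
  have hTc : (1 - Tᴴ * T).PosSemidef := by
    have h1 : T * S = S * aeval A p := aeval_similar hS p
    have h2 := hH3.conjTranspose_mul_mul_same S⁻¹
    have h3 : (S⁻¹)ᴴ = S⁻¹ := hS₁.1.inv.eq
    have h4 : aeval A p * S⁻¹ = S⁻¹ * T := by
      rw [← Matrix.nonsing_inv_mul_cancel_left S (aeval A p) hS, ← h1, mul_assoc,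
        Matrix.mul_nonsing_inv_cancel_right _ _ hS]
    have h5 : (S⁻¹)ᴴ * (aeval A p)ᴴ = Tᴴ * S⁻¹ := by
      rw [← Matrix.conjTranspose_mul, h4, Matrix.conjTranspose_mul, h3]
    have h6 : S⁻¹ * H * S⁻¹ = 1 := by
      rw [← hS₂, Matrix.nonsing_inv_mul_cancel_left _ _ hS, Matrix.mul_nonsing_inv _ hS]
    have h7 : (S⁻¹)ᴴ * (H - (aeval A p)ᴴ * H * aeval A p) * S⁻¹ = 1 - Tᴴ * T := by
      rw [mul_sub, sub_mul, ← mul_assoc, ← mul_assoc, h5, mul_assoc _ (aeval A p), h4, h3, h6,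
        ← mul_assoc, mul_assoc Tᴴ, mul_assoc Tᴴ, h6, mul_one]
    rwa [h7] at h2
  have hK : IsCompact (closure Ω) := hΩ₂.isCompact_closure
  have hO : IsOpen {t : ℂ | r < ‖t‖} := isOpen_lt continuous_const continuous_norm
  set e : ℝ → ℂ := fun θ => exp (θ * I) with he
  have he1 : ∀ θ, ‖e θ‖ = 1 := fun θ => norm_exp_ofReal_mul_I θ
  have heO : ∀ θ, e θ ∈ {t : ℂ | r < ‖t‖} := fun θ => by simpa [he1] using hr₂
  have hec : Continuous e := by fun_prop
  have hep : ∀ θ, e (θ + 2 * Real.pi) = e θ := fun θ => by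
    simp only [he]
    push_cast
    rw [add_mul, exp_add, exp_two_pi_mul_I, mul_one]
  have hed : ∀ θ, HasDerivAt e (e θ * I) θ := fun θ => by
    simpa using ((hasDerivAt_id θ).ofReal_comp.mul_const I).cexp
  set γ : ℝ → ℂ := fun θ => G (e θ) with hγ
  set γ' : ℝ → ℂ := fun θ => deriv G (e θ) * (e θ * I) with hγ'
  have hγd : ∀ θ, HasDerivAt γ (γ' θ) θ := fun θ =>
    (hG₁.differentiableAt (hO.mem_nhds (heO θ))).hasDerivAt.comp_of_eq θ (hed θ) rfl
  have hγc : Continuous γ := hG₁.continuousOn.comp_continuous hec heO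
  have hγ'c : Continuous γ' :=
    ((hG₁.deriv hO).continuousOn.comp_continuous hec heO).mul (by fun_prop)
  have hb := fun θ => boundary_mem hΩ₁ hr₂ hG₁ hG₂ hG₃ (he1 θ)
  have hγK : ∀ θ, γ θ ∈ closure Ω := fun θ => (hb θ).1
  have hγU : ∀ θ, γ θ ∈ U := fun θ => hΩU (hγK θ)
  have h1 : ∀ θ, ‖f (γ θ)‖ = 1 := fun θ =>
    norm_eq_one_of_boundary hΩU hf₁ hf₂ hf₃ (hb θ).1 (hb θ).2
  have hγp : γ (2 * Real.pi) = γ 0 := by simpa using congrArg G (hep 0)
  have hwc : Continuous fun θ => f (γ θ) := hf₁.continuousOn.comp_continuous hγc hγU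
  have hw'c : Continuous fun θ => deriv f (γ θ) * γ' θ :=
    ((hf₁.deriv hU).continuousOn.comp_continuous hγc hγU).mul hγ'c
  obtain ⟨⟨s, hs⟩, hint⟩ := winding (w := fun θ => f (γ θ)) (w' := fun θ => deriv f (γ θ) * γ' θ)
    (fun θ => (hf₁.differentiableAt (hU.mem_nhds (hγU θ))).hasDerivAt.comp_of_eq θ (hγd θ) rfl)
    hw'c h1
    (fun θ => mul_ne_zero (Lib.RMT.deriv_ne_zero_of_injOn hU hf₁ hf₂ (hγU θ))
      (mul_ne_zero (Lib.RMT.deriv_ne_zero_of_injOn hO hG₁ hG₂ (heO θ))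
        (mul_ne_zero (exp_ne_zero _) I_ne_zero)))
    (congrArg f hγp)
    (fun θ hθ h => by
      have h2 := hG₂ (heO θ) (heO 0) (hf₂ (hγU θ) (hγU 0) h)
      simp only [he, ofReal_zero, zero_mul, exp_zero, exp_eq_one_iff] at h2
      obtain ⟨k, hk⟩ := h2
      have h3 : θ = k * (2 * Real.pi) := by simpa using congrArg im hk
      obtain ⟨h4, h5⟩ := hθ
      rw [h3] at h4 h5
      have h6 : (0 : ℝ) < k := (mul_pos_iff_of_pos_right Real.two_pi_pos).1 h4
      have h7 : (k : ℝ) < 1 := (mul_lt_iff_lt_one_left Real.two_pi_pos).1 h5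
      have h8 : 0 < k := by exact_mod_cast h6
      have h9 : k < 1 := by exact_mod_cast h7
      omega)
  set Λ : ℝ → Matrix (Fin n) (Fin n) ℂ :=
    fun θ => ((‖deriv f (γ θ) * γ' θ‖ : ℝ) : ℂ) • pk T (f (γ θ)) with hΛ
  have hrepr : ∀ {V : Set ℂ}, IsOpen V → closure Ω ⊆ V → ∀ {φ : ℂ → ℂ}, DifferentiableOn ℂ φ V →
      ∀ {q : ℂ[X]}, AgreesOnSpectrum A φ q →
        mint (fun θ => φ (γ θ) • Λ θ) = (2 * Real.pi : ℂ) • aeval A' q :=
    fun hV hKV φ hφ q hq => density_repr hK hΩ₃.closure hU hΩU (hσ.trans subset_closure) hf₁ hf₂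
      (fun z hz => norm_le_one_of_closure hΩU hf₁ hf₃ hz) (hag hp) hT hγd hγ'c hγK hγp h1
      hw'c.norm hs hint hV hKV hφ (hag hq)
  have hΛc : Continuous Λ := by
    have h2 : Continuous fun θ => (f (γ θ) • (1 : Matrix (Fin n) (Fin n) ℂ) - T)⁻¹ :=
      R132.continuous_inv ((hwc.smul continuous_const).sub continuous_const)
        fun θ => det_sub_ne_zero hT (h1 θ).ge
    exact (continuous_ofReal.comp hw'c.norm).smul
      ((h2.matrix_conjTranspose.matrix_mul continuous_const).matrix_mul h2)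
  have hΛp : ∀ θ, (Λ θ).PosSemidef := fun θ =>
    (hTc.conjTranspose_mul_mul_same _).smul (by exact_mod_cast norm_nonneg _)
  have hΛ1 : mint Λ = (2 * Real.pi : ℂ) • 1 := by
    simpa using hrepr isOpen_univ (Set.subset_univ _) (differentiableOn_const (1 : ℂ)) (q := 1)
      (fun μ _ j _ => by simp)
  have hπ : (2 * Real.pi : ℂ) ≠ 0 := by exact_mod_cast Real.two_pi_pos.ne'
  refine ⟨Λ, hΛc, fun θ => by simp only [hΛ, hγ, hγ', hep], hΛp, fun a b => ?_,
    fun m _ V hV hKV v hv q hq => ?_⟩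
  · have := congrFun (congrFun hΛ1 a) b
    simp only [mint, Matrix.of_apply, Matrix.smul_apply, smul_eq_mul] at this
    rw [this, inv_mul_cancel_left₀ hπ]
  have hent : ∀ a b c d, ∫ θ in (0 : ℝ)..2 * Real.pi, Λ θ a b * v (γ θ) c d =
      2 * Real.pi * aeval A' (q c d) a b := by
    intro a b c d
    have := congrFun (congrFun (hrepr hV hKV (hv c d) (hq c d)) a) b
    simp only [mint, Matrix.of_apply, Matrix.smul_apply, smul_eq_mul] at this
    rw [← this]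
    simp only [mul_comm]
  refine ⟨fun a b c d => by rw [hent, inv_mul_cancel_left₀ hπ], fun M hM => ?_⟩
  have hM0 : 0 ≤ M := (norm_nonneg _).trans (hM _ (hγK 0))
  refine ContinuousLinearMap.opNorm_le_bound _ (by positivity) fun x => ?_
  set B : Matrix (Fin n × Fin m) (Fin n × Fin m) ℂ :=
    Matrix.of fun i j => aeval A (q i.2 j.2) i.1 j.1 with hB
  set B' : Matrix (Fin n × Fin m) (Fin n × Fin m) ℂ :=
    Matrix.of fun i j => aeval A' (q i.2 j.2) i.1 j.1 with hB'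
  set D := S ⊗ₖ (1 : Matrix (Fin m) (Fin m) ℂ) with hD
  have hDB : D * B = B' * D := by
    ext i j
    have := congrFun (congrFun (aeval_similar (A := A) hS (q i.2 j.2)) i.1) j.1
    simp only [Matrix.mul_apply] at this
    simp [hD, hB, hB', Matrix.mul_apply, Fintype.sum_prod_type, Matrix.one_apply, hA', this]
  have h2 := mint_norm_le hΛc hΛp hΛ1 (v := fun θ => v (γ θ))
    (continuous_matrix fun c d => (hv c d).continuousOn.comp_continuous hγc fun θ => hKV (hγK θ))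
    (fun θ => hM _ (hγK θ)) (B := B') (by
      ext i j
      exact hent _ _ _ _) (D *ᵥ x.ofLp)
  have h3 := (kron_similar hS₁.1 hS₂ hκ hH1 hH2 (B *ᵥ x.ofLp)).1
  have h4 := (kron_similar hS₁.1 hS₂ hκ hH1 hH2 x.ofLp).2
  rw [← hD, Matrix.mulVec_mulVec, hDB, ← Matrix.mulVec_mulVec] at h3
  refine h3.trans (h2.trans ((mul_le_mul_of_nonneg_left h4 hM0).trans_eq ?_))
  rw [WithLp.toLp_ofLp]
  ring

end Crest.Agent.S0181
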