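import Crest.Statements.S0182
import Crest.Agent.R133.Obstruct
import Crest.Agent.R133.Man
import Crest.Agent.R133.Std
import Crest.Agent.R133.SysErg
import Crest.Agent.R133.SysEnt
import Crest.Agent.R133.SysLevel

set_option autoImplicit false
open MeasureTheory Crest.AnalysisR
open Crest Crest.AnalysisR

namespace Crest.Agent.R133

open scoped Manifold ContDiff

/-- the choice of the parameters -/
theorem exists_par : ∃ (ε₀ : ℕ → ℝ) (p : Par), (∀ d, 0 < ε₀ d) ∧ ∀ d C : ℕ, ∃ k : ℕ,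
    ∀ (M : Type) [MeasurableSpace M] (ν : Measure M) [IsProbabilityMeasure ν] (S : M → M) (P : M → Bool)
      (K : Bool → Set M), MeasurePreserving S ν ν → Measurable P → (∀ b, MeasurableSet (K b)) →
      (∀ b, ∀ x ∈ K b, P x = b) → ν.real (K true ∪ K false)ᶜ ≤ ε₀ d → Model M ν S d C K →
      Level ν S P (2 ^ p.ex k) (2 ^ p.a k) (2 ^ p.b k) (2 ^ p.c k) (2 ^ p.lv k) → False := by
  choose ε₀ hε₀ h using obstruct
  choose a b c e ha he h using h
  have h2 : ∀ x : ℕ, 1 ≤ 2 ^ x := fun x => Nat.one_le_two_pow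
  let a' : ℕ → ℕ → ℕ := fun k x => a k.unpair.1 k.unpair.2 (2 ^ x) (k + 1) (h2 x)
  let b' : ℕ → ℕ → ℕ := fun k x => b k.unpair.1 k.unpair.2 (2 ^ x) (k + 1) (h2 x)
  let c' : ℕ → ℕ → ℕ := fun k x => c k.unpair.1 k.unpair.2 (2 ^ x) (k + 1) (h2 x)
  let e' : ℕ → ℕ → ℕ := fun k x => e k.unpair.1 k.unpair.2 (2 ^ x) (k + 1) (h2 x)
  let ex : ℕ → ℕ := fun k => Nat.rec 0 (fun k x => x + (e' k x + a' k x + b' k x + c' k x * 2 ^ a' k x)) k
  let p : Par := ⟨fun k => a' k (ex k), fun k => b' k (ex k), fun k => c' k (ex k), fun k => e' k (ex k),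
    fun k => ha _ _ _ _ _, fun k => he _ _ _ _ _⟩
  have hex : ∀ k, p.ex k = ex k := by
    intro k
    induction k with
    | zero => rfl
    | succ k ih => rw [Par.ex, ih]; rfl
  refine ⟨ε₀, p, hε₀, fun d C => ⟨Nat.pair d C, ?_⟩⟩
  intro M _ ν _ S P K h1 h3 h4 h5 h6 Mo Lv
  have := h (Nat.pair d C).unpair.1 (Nat.pair d C).unpair.2 (2 ^ ex (Nat.pair d C)) (Nat.pair d C + 1) (h2 _) M ν S P K
    h1 h3 h4 h5
  rw [hex] at Lv
  refine this ?_ ?_ Lv
  · rw [Nat.unpair_pair]; exact h6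
  · rw [Nat.unpair_pair]; exact Mo

theorem not_conj {ε₀ : ℕ → ℝ} {p : Par} (hε₀ : ∀ d, 0 < ε₀ d) (h : ∀ d C : ℕ, ∃ k : ℕ,
    ∀ (M : Type) [MeasurableSpace M] (ν : Measure M) [IsProbabilityMeasure ν] (S : M → M) (P : M → Bool)
      (K : Bool → Set M), MeasurePreserving S ν ν → Measurable P → (∀ b, MeasurableSet (K b)) →
      (∀ b, ∀ x ∈ K b, P x = b) → ν.real (K true ∪ K false)ᶜ ≤ ε₀ d → Model M ν S d C K →
      Level ν S P (2 ^ p.ex k) (2 ^ p.a k) (2 ^ p.b k) (2 ^ p.c k) (2 ^ p.lv k) → False)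
    {d : ℕ} {H : Type} [TopologicalSpace H] {I : ModelWithCorners ℝ (E d) H} (hI : Thin (Set.range I)) {M : Type}
    [TopologicalSpace M] [T2Space M] [CompactSpace M] [ChartedSpace H M] [IsManifold I ∞ M] [MeasurableSpace M]
    [BorelSpace M] (ν : Measure M) (S : Diffeomorph I I M M ∞) (h1 : IsProbabilityMeasure ν)
    (h2 : HasSmoothPositiveDensity I ν) (h3 : MeasurePreserving S ν ν) : ¬ AreMeasConjugate mu p.T ν S := by
  intro hc
  obtain ⟨P', hP', hL⟩ := Level.transfer p.measurable_T h3.measurable hc (P := fun x : X => x.2 0) (by fun_prop)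
  obtain ⟨K, hK, hKP, hKε⟩ := exists_compact_sep I ν hP' (hε₀ d)
  have hd : Disjoint (K true) (K false) := by
    rw [Set.disjoint_left]
    intro x h1 h2
    have := (hKP _ x h1).symm.trans (hKP _ x h2)
    simp at this
  obtain ⟨C, ⟨Mo⟩⟩ := exists_model hI h2 S hK hd
  obtain ⟨k, hk⟩ := h d C
  obtain ⟨Lv⟩ := p.level k
  obtain ⟨Lv'⟩ := hL _ _ _ _ _ Lv
  exact hk M ν S P' K h3 hP' (fun b => (hK b).measurableSet) hKP hKε Mo Lv'

end Crest.Agent.R133

namespace Crest.Agent.S0182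

/-- There is an ergodic, invertible, measure-preserving transformation of a standard probability space (isomorphic modulo null sets to the unit interval with Lebesgue measure) whose Kolmogorov–Sinai entropy is zero and which is not measurably conjugate, on invariant conull sets, to any C^∞ diffeomorphism preserving a probability measure with smooth strictly positive density on a compact finite-dimensional manifold, with or without boundary, orientable or not. -/
theorem result :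
    ∃ (X : Type) (_ : MeasurableSpace X) (μ : Measure X) (T : X ≃ᵐ X),
      IsProbabilityMeasure μ ∧ IsStandardProbability μ ∧ MeasurePreserving T μ μ ∧
      Ergodic T μ ∧ HasZeroEntropy μ T ∧ NoSmoothPositiveVolumeModel μ T := by
  obtain ⟨ε₀, p, hε₀, h⟩ := R133.exists_par
  refine ⟨R133.X, inferInstance, R133.mu, p.equiv, inferInstance, R133.isStandardProbability _ R133.mu_singleton,
    p.measurePreserving_T, p.ergodic, p.hasZeroEntropy, ?_, ?_⟩
  · intro d M _ _ _ _ _ _ _ ν S h1 h2 h3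
    exact R133.not_conj hε₀ h R133.thin_univ ν S h1 h2 h3
  · intro d M _ _ _ _ _ _ _ ν S h1 h2 h3
    exact R133.not_conj hε₀ h R133.thin_half ν S h1 h2 h3

end Crest.Agent.S0182
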