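import Crest.Statements.S0243
import Crest.Agent.R162.UB
import Crest.Agent.R162.POS
import Crest.Agent.R162.P2

set_option autoImplicit false
open Crest.ProbabilityR.Loewner
open Crest Crest.ProbabilityR Crest.ProbabilityR.Loewner

namespace Crest.Agent.S0243

open MeasureTheory Set Filter Crest.Agent.R162 in
/-- Fix 0 < κ < 8, d = 1 + κ/8, and the gauge equal to r^d·(log log(1/r))^{(2−d)/2} at small radii. On a probability space carrying a real Brownian motion B, let γ be a random curve that is almost surely the chordal Loewner trace in the half-plane driven by √κ·B. Then almost surely every segment γ([s,t]), 0 < s < t, has positive finite gauge Hausdorff measure, and for every R the expected gauge measure of the trace inside the closed disk of radius R is finite. -/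
theorem result
    {Ω : Type*} [MeasurableSpace Ω] (P : MeasureTheory.Measure Ω) [MeasureTheory.IsProbabilityMeasure P]
    (κ : ℝ) (hκ : 0 < κ) (hκ8 : κ < 8)
    (B : NNReal → Ω → ℝ) (hB : ProbabilityTheory.IsBrownianReal B P)
    (γ : Ω → ℝ → ℂ) (hγ : ∀ᵐ ω ∂P, IsChordalTrace (driving κ B ω) (γ ω)) :
    (∀ᵐ ω ∂P, ∀ s t : ℝ, 0 < s → s < t →
        0 < gaugeMeasure κ (γ ω '' Set.Icc s t) ∧ gaugeMeasure κ (γ ω '' Set.Icc s t) < ⊤) ∧
      ∀ R : ℝ, ∫⁻ ω, gaugeMeasure κ (γ ω '' Set.Ici 0 ∩ Metric.closedBall 0 R) ∂P < ⊤ := by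
  obtain ⟨W, hW, hD, hWe⟩ := exists_drv P hκ B hB
  have htr : ∀ᵐ ω ∂P, IsChordalTrace (W ω) (γ ω) := by
    filter_upwards [hγ, hWe] with ω h1 h2
    rw [h2]; exact h1
  have h0 : ∀ᵐ ω ∂P, W ω 0 = 0 := ae_of_ae_map hW hD.zero
  have hup : ∀ R : ℝ, ∃ V : Ω → ENNReal, AEMeasurable V P ∧ ∫⁻ ω, V ω ∂P < ⊤ ∧
      ∀ᵐ ω ∂P, gaugeMeasure κ (γ ω '' Set.Ici 0 ∩ Metric.closedBall 0 R) ≤ V ω := by
    intro R
    obtain ⟨V, hV, hfin, hle⟩ := upper_bound hκ hκ8 hD R
    refine ⟨fun ω => V (W ω), hV.comp_aemeasurable hW, ?_, ?_⟩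
    · rwa [lintegral_map' hV.aemeasurable hW] at hfin
    · filter_upwards [htr, h0] with ω h1 h2 using hle _ _ h2 h1
  refine ⟨?_, fun R => ?_⟩
  · have hfin : ∀ᵐ ω ∂P, ∀ n : ℕ,
        gaugeMeasure κ (γ ω '' Set.Ici 0 ∩ Metric.closedBall 0 (n : ℝ)) < ⊤ := by
      refine ae_all_iff.2 fun n => ?_
      obtain ⟨V, hV, hfin, hle⟩ := hup n
      filter_upwards [hle, ae_lt_top' hV hfin.ne] with ω h1 h2 using h1.trans_lt h2
    have hpos : ∀ᵐ ω ∂P, ∀ q : ℚ × ℚ, (0 : ℝ) < q.1 → (q.1 : ℝ) < q.2 →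
        0 < gaugeMeasure κ (γ ω '' Set.Icc (q.1 : ℝ) q.2) := by
      refine ae_all_iff.2 fun q => ?_
      by_cases hq : (0 : ℝ) < q.1 ∧ (q.1 : ℝ) < q.2
      · filter_upwards [ae_of_ae_map hW (positivity hκ hκ8 hD hq.1 hq.2), htr] with ω h1 h2
          using fun _ _ => h1 _ h2
      · exact Eventually.of_forall fun ω h1 h2 => absurd ⟨h1, h2⟩ hq
    filter_upwards [hfin, hpos, htr] with ω h1 h2 h3 s t hs hst
    constructor
    · obtain ⟨a, ha1, ha2⟩ := exists_rat_btwn hst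
      obtain ⟨b, hb1, hb2⟩ := exists_rat_btwn ha2
      exact (h2 (a, b) (hs.trans ha1) hb1).trans_le
        (measure_mono (image_mono (Icc_subset_Icc ha1.le hb2.le)))
    · have hc : IsCompact (γ ω '' Icc s t) :=
        isCompact_Icc.image_of_continuousOn (h3.continuousOn.mono fun x hx => hs.le.trans hx.1)
      obtain ⟨r, hr⟩ := hc.isBounded.subset_closedBall 0
      obtain ⟨n, hn⟩ := exists_nat_ge r
      refine lt_of_le_of_lt (measure_mono ?_) (h1 n)
      exact subset_inter (image_mono fun x hx => hs.le.trans hx.1)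
        (hr.trans (Metric.closedBall_subset_closedBall hn))
  · obtain ⟨V, -, hfin, hle⟩ := hup R
    exact (lintegral_mono_ae hle).trans_lt hfin

end Crest.Agent.S0243
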