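import Crest.Statements.S0248
import Crest.Agent.R164.J3
import Crest.Agent.R164.J4

set_option autoImplicit false
open Crest Crest.ProbabilityR

namespace Crest.Agent.S0248

/-- Randomly rotated deterministic-spectrum Ising model with the spectral and Haar hypotheses of the zero-field statement, plus an external field taking finitely many distinct values c_j, the proportion of sites carrying c_j tending to a positive rational γ_j. The finite-alphabet value (supremum over rational mean spins m_j in (-1,1) of Σ_j γ_j c_j m_j plus the infimum over trial paths of S_m(p) + G(p)) is finite, and the pressure with field tends to it in expectation and almost surely. -/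
theorem result
    (μ : MeasureTheory.Measure ℝ)
    [MeasureTheory.IsProbabilityMeasure μ] (lamMinus lamPlus : ℝ) (hle : lamMinus ≤ lamPlus)
    (hsupp : μ (Set.Icc lamMinus lamPlus) = 1)
    (hedge : ∀ ε : ℝ, 0 < ε →
      0 < μ (Set.Icc lamMinus (lamMinus + ε)) ∧ 0 < μ (Set.Icc (lamPlus - ε) lamPlus))
    (eig : (N : ℕ) → Fin N → ℝ)
    (hweak : ∀ φ : ℝ → ℝ, Continuous φ → (∃ C : ℝ, ∀ x, |φ x| ≤ C) →
      Filter.Tendsto (fun N : ℕ => (1 / (N : ℝ)) * ∑ i : Fin N, φ (eig N i)) Filter.atTop
        (nhds (∫ x, φ x ∂μ)))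
    (hext : ∀ ε : ℝ, 0 < ε → ∀ᶠ N : ℕ in Filter.atTop, ∀ i : Fin N,
      lamMinus - ε ≤ eig N i ∧ eig N i ≤ lamPlus + ε)
    (J : ℕ) (cval : Fin J → ℝ) (hinj : Function.Injective cval)
    (γ : Fin J → ℚ) (hγpos : ∀ j, 0 < γ j) (hγsum : ∑ j, γ j = 1)
    (lab : (N : ℕ) → Fin N → Fin J)
    (hprop : ∀ j : Fin J, Filter.Tendsto
      (fun N : ℕ => ((Finset.univ.filter fun r : Fin N => lab N r = j).card : ℝ) / (N : ℝ))
      Filter.atTop (nhds ((γ j : ℚ) : ℝ)))
    (Ω : Type) [MeasurableSpace Ω] (P : MeasureTheory.Measure Ω) [MeasureTheory.IsProbabilityMeasure P]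
    (Us : (N : ℕ) → Ω → (Fin N → Fin N → ℝ)) (hmeas : ∀ N, Measurable (Us N))
    (horth : ∀ N, ∀ᵐ ω ∂P, Matrix.of (Us N ω) ∈ Matrix.orthogonalGroup (Fin N) ℝ)
    (hHaar : ∀ (N : ℕ) (O : Matrix (Fin N) (Fin N) ℝ), O ∈ Matrix.orthogonalGroup (Fin N) ℝ →
      P.map (fun ω => fun i j => (Matrix.of (Us N ω) * O) i j) = P.map (Us N)) :
    ∃ F : ℝ, Crest.ProbabilityR.InvariantGlass.magneticValue μ lamPlus cval γ = (F : EReal) ∧
      Filter.Tendsto (fun N : ℕ => ∫ ω, Crest.ProbabilityR.InvariantGlass.pressureFieldN (eig N) (Matrix.of (Us N ω))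
          (fun r => cval (lab N r)) ∂P) Filter.atTop (nhds F) ∧
      ∀ᵐ ω ∂P, Filter.Tendsto (fun N : ℕ => Crest.ProbabilityR.InvariantGlass.pressureFieldN (eig N) (Matrix.of (Us N ω))
          (fun r => cval (lab N r))) Filter.atTop (nhds F) := by
  open Crest.Agent.R164 MeasureTheory Crest.ProbabilityR.InvariantGlass in
  obtain ⟨F, hF, hU, hL⟩ := mag_char (μ := μ) hle hsupp cval γ hγpos hγsum
  refine ⟨F, hF, ?_⟩
  choose V hVm hVae hVmap using fun N => exists_haar_lift P (Us N) (hmeas N) (horth N) (hHaar N)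
  set Y : ℕ → Ω → ℝ := fun N ω =>
    logZ (eig N) (fun σ => ∑ r, cval (lab N r) * spinVec σ r) (V N ω) / N with hY
  have hae : ∀ N, (fun ω => pressureFieldN (eig N) (Matrix.of (Us N ω)) (fun r => cval (lab N r)))
      =ᵐ[P] Y N := by
    intro N
    filter_upwards [hVae N] with ω hω
    rw [← hω, pressureFieldN_eq]
  have hYm : ∀ N, Measurable (Y N) := fun N =>
    ((measurable_logZ _ _).comp (hVm N)).div_const _
  have key := conv_of_tails P Y (fun N => (hYm N).aestronglyMeasurable) (F := F)
    (C := (|lamMinus| + |lamPlus| + 1) / 2 + ∑ j, |cval j|) ?_ ?_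
  · refine ⟨?_, ?_⟩
    · refine key.1.congr fun N => ?_
      exact (integral_congr_ae (hae N)).symm
    · have hall : ∀ᵐ ω ∂P, ∀ N, pressureFieldN (eig N) (Matrix.of (Us N ω))
          (fun r => cval (lab N r)) = Y N ω := ae_all_iff.2 hae
      filter_upwards [key.2, hall] with ω h1 h2
      exact h1.congr fun N => (h2 N).symm
  · filter_upwards [hext 1 one_pos, Filter.eventually_gt_atTop 0] with N hN hpos
    refine Filter.Eventually.of_forall fun ω => ?_
    have hN0 : (0 : ℝ) < N := by exact_mod_cast hpos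
    have h1 : ∀ i, |eig N i| ≤ |lamMinus| + |lamPlus| + 1 := by
      intro i
      have := hN i
      have := neg_abs_le lamMinus
      have := le_abs_self lamPlus
      have := abs_nonneg lamMinus
      have := abs_nonneg lamPlus
      rw [abs_le]; constructor <;> linarith
    have h2 : ∀ σ : Fin N → Bool, |∑ r, cval (lab N r) * spinVec σ r| ≤ N * ∑ j, |cval j| := by
      intro σ
      refine (Finset.abs_sum_le_sum_abs _ _).trans ?_
      have : ∀ r ∈ (Finset.univ : Finset (Fin N)),
          |cval (lab N r) * spinVec σ r| ≤ ∑ j, |cval j| := by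
        intro r _
        rw [abs_mul, abs_spinVec, mul_one]
        exact Finset.single_le_sum (f := fun j => |cval j|) (fun j _ => abs_nonneg _)
          (Finset.mem_univ _)
      refine (Finset.sum_le_card_nsmul _ _ _ this).trans ?_
      simp
    have h3 := abs_logZ_le h1 h2 (V N ω)
    simp only [hY]
    rw [abs_div, abs_of_pos hN0, div_le_iff₀ hN0]
    nlinarith
  · intro ε hε
    obtain ⟨c1, hc1, h1⟩ := tail_upper hle hsupp hedge hweak hext cval γ hγpos hγsum lab hprop hU hε
    obtain ⟨c2, hc2, h2⟩ := tail_lower hle hsupp hedge hweak hext cval γ hγpos hγsum lab hprop hL hε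
    refine ⟨min c1 c2 / 2, by positivity, ?_⟩
    have hbig : ∀ᶠ N : ℕ in Filter.atTop, Real.log 2 ≤ min c1 c2 / 2 * N := by
      have : Filter.Tendsto (fun N : ℕ => min c1 c2 / 2 * (N : ℝ)) Filter.atTop Filter.atTop :=
        tendsto_natCast_atTop_atTop.const_mul_atTop (by positivity)
      exact this.eventually_ge_atTop _
    filter_upwards [h1, h2, hbig, Filter.eventually_gt_atTop 0] with N a1 a2 a3 hpos
    have hN0 : (0 : ℝ) < N := by exact_mod_cast hpos
    set Z := logZ (eig N) (fun σ => ∑ r, cval (lab N r) * spinVec σ r) with hZ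
    have hZm : Measurable Z := measurable_logZ _ _
    have m1 : MeasurableSet {U | (F + ε) * N ≤ Z U} := measurableSet_le measurable_const hZm
    have m2 : MeasurableSet {U | Z U ≤ (F - ε) * N} := measurableSet_le hZm measurable_const
    have e1 : P.real (V N ⁻¹' {U | (F + ε) * N ≤ Z U}) = (haar N).real {U | (F + ε) * N ≤ Z U} := by
      rw [← hVmap N, map_measureReal_apply (hVm N) m1]
    have e2 : P.real (V N ⁻¹' {U | Z U ≤ (F - ε) * N}) = (haar N).real {U | Z U ≤ (F - ε) * N} := by
      rw [← hVmap N, map_measureReal_apply (hVm N) m2]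
    have hsub : {ω | ε ≤ |Y N ω - F|} ⊆
        V N ⁻¹' {U | (F + ε) * N ≤ Z U} ∪ V N ⁻¹' {U | Z U ≤ (F - ε) * N} := by
      intro ω hω
      simp only [Set.mem_setOf_eq, hY] at hω
      simp only [Set.mem_union, Set.mem_preimage, Set.mem_setOf_eq]
      rcases le_abs'.1 hω with h | h
      · right
        have : Z (V N ω) / N ≤ F - ε := by linarith
        rwa [div_le_iff₀ hN0] at this
      · left
        have : F + ε ≤ Z (V N ω) / N := by linarith
        rwa [le_div_iff₀ hN0] at this
    have b1 : Real.exp (-(c1 * N)) ≤ Real.exp (-(min c1 c2 * N)) :=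
      Real.exp_le_exp.2 (by have := min_le_left c1 c2; nlinarith)
    have b2 : Real.exp (-(c2 * N)) ≤ Real.exp (-(min c1 c2 * N)) :=
      Real.exp_le_exp.2 (by have := min_le_right c1 c2; nlinarith)
    have b3 : 2 * Real.exp (-(min c1 c2 * N)) ≤ Real.exp (-(min c1 c2 / 2 * N)) := by
      have : (2 : ℝ) = Real.exp (Real.log 2) := (Real.exp_log two_pos).symm
      calc 2 * Real.exp (-(min c1 c2 * N)) = Real.exp (Real.log 2 + -(min c1 c2 * N)) := by
            rw [Real.exp_add, ← this]
        _ ≤ _ := Real.exp_le_exp.2 (by linarith)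
    calc P.real {ω | ε ≤ |Y N ω - F|} ≤ P.real (V N ⁻¹' {U | (F + ε) * N ≤ Z U} ∪
            V N ⁻¹' {U | Z U ≤ (F - ε) * N}) := measureReal_mono hsub
      _ ≤ _ := measureReal_union_le _ _
      _ ≤ _ := by rw [e1, e2]; linarith

end Crest.Agent.S0248
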