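import Crest.Statements.S0249
import Crest.Agent.S0248

set_option autoImplicit false
open Crest Crest.ProbabilityR

namespace Crest.Agent.S0249

/-- Same model and hypotheses, with field vectors whose empirical laws converge in first-moment transport distance to a probability law ν on the reals with finite first absolute moment. There is a real F such that: (i) along every sequence of finite field alphabets with distinct values and positive rational proportions summing to 1 whose laws tend to ν in transport distance, the finite-alphabet values tend to F, and (ii) the pressure with field tends to F in expectation and almost surely. -/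
theorem result
    (μ : MeasureTheory.Measure ℝ)
    [MeasureTheory.IsProbabilityMeasure μ] (lamMinus lamPlus : ℝ) (hle : lamMinus ≤ lamPlus)
    (hsupp : μ (Set.Icc lamMinus lamPlus) = 1)
    (hedge : ∀ ε : ℝ, 0 < ε →
      0 < μ (Set.Icc lamMinus (lamMinus + ε)) ∧ 0 < μ (Set.Icc (lamPlus - ε) lamPlus))
    (eig : (N : ℕ) → Fin N → ℝ)
    (hweak : ∀ φ : ℝ → ℝ, Continuous φ → (∃ C : ℝ, ∀ x, |φ x| ≤ C) →
      Filter.Tendsto (fun N : ℕ => (1 / (N : ℝ)) * ∑ i : Fin N, φ (eig N i)) Filter.atTop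
        (nhds (∫ x, φ x ∂μ)))
    (hext : ∀ ε : ℝ, 0 < ε → ∀ᶠ N : ℕ in Filter.atTop, ∀ i : Fin N,
      lamMinus - ε ≤ eig N i ∧ eig N i ≤ lamPlus + ε)
    (ν : MeasureTheory.Measure ℝ) [MeasureTheory.IsProbabilityMeasure ν]
    (hν : MeasureTheory.Integrable (fun x : ℝ => x) ν)
    (c : (N : ℕ) → Fin N → ℝ)
    (hW : Filter.Tendsto (fun N : ℕ => Crest.ProbabilityR.InvariantGlass.transportCost (Crest.ProbabilityR.InvariantGlass.empiricalLaw (c N)) ν)
      Filter.atTop (nhds 0))
    (Ω : Type) [MeasurableSpace Ω] (P : MeasureTheory.Measure Ω) [MeasureTheory.IsProbabilityMeasure P]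
    (Us : (N : ℕ) → Ω → (Fin N → Fin N → ℝ)) (hmeas : ∀ N, Measurable (Us N))
    (horth : ∀ N, ∀ᵐ ω ∂P, Matrix.of (Us N ω) ∈ Matrix.orthogonalGroup (Fin N) ℝ)
    (hHaar : ∀ (N : ℕ) (O : Matrix (Fin N) (Fin N) ℝ), O ∈ Matrix.orthogonalGroup (Fin N) ℝ →
      P.map (fun ω => fun i j => (Matrix.of (Us N ω) * O) i j) = P.map (Us N)) :
    ∃ F : ℝ,
      (∀ (Jq : ℕ → ℕ) (cq : (q : ℕ) → Fin (Jq q) → ℝ) (γq : (q : ℕ) → Fin (Jq q) → ℚ),
        (∀ q, Function.Injective (cq q) ∧ (∀ j, 0 < γq q j) ∧ ∑ j, γq q j = 1) →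
        Filter.Tendsto (fun q : ℕ => Crest.ProbabilityR.InvariantGlass.transportCost
            (∑ j : Fin (Jq q), ENNReal.ofReal ((γq q j : ℚ) : ℝ) • MeasureTheory.Measure.dirac (cq q j)) ν)
          Filter.atTop (nhds 0) →
        Filter.Tendsto (fun q : ℕ => Crest.ProbabilityR.InvariantGlass.magneticValue μ lamPlus (cq q) (γq q))
          Filter.atTop (nhds (F : EReal))) ∧
      Filter.Tendsto (fun N : ℕ => ∫ ω, Crest.ProbabilityR.InvariantGlass.pressureFieldN (eig N) (Matrix.of (Us N ω)) (c N) ∂P)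
        Filter.atTop (nhds F) ∧
      ∀ᵐ ω ∂P, Filter.Tendsto (fun N : ℕ => Crest.ProbabilityR.InvariantGlass.pressureFieldN (eig N) (Matrix.of (Us N ω)) (c N))
        Filter.atTop (nhds F) := by
  open Crest.Agent.R164 MeasureTheory Crest.ProbabilityR.InvariantGlass Filter in
  have hint : ∀ (N : ℕ) (c' : Fin N → ℝ),
      Integrable (fun ω => pressureFieldN (eig N) (Matrix.of (Us N ω)) c') P := by
    intro N c'
    obtain ⟨V, hVm, hVae, -⟩ := exists_haar_lift P (Us N) (hmeas N) (horth N) (hHaar N)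
    have hae : (fun ω => logZ (eig N) (fun σ => ∑ r, c' r * spinVec σ r) (V ω) / N) =ᵐ[P]
        (fun ω => pressureFieldN (eig N) (Matrix.of (Us N ω)) c') := by
      filter_upwards [hVae] with ω hω
      rw [← hω, pressureFieldN_eq]
    refine Integrable.congr ?_ hae
    refine Integrable.div_const ?_ _
    refine Integrable.of_bound ((measurable_logZ _ _).comp hVm).aestronglyMeasurable
      ((∑ i, |eig N i|) * N / 2 + ∑ r, |c' r|) (Eventually.of_forall fun ω => ?_)
    refine abs_logZ_le (fun i => Finset.single_le_sum (f := fun i => |eig N i|)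
      (fun i _ => abs_nonneg _) (Finset.mem_univ i)) (fun σ => ?_) _
    refine (Finset.abs_sum_le_sum_abs _ _).trans (le_of_eq ?_)
    exact Finset.sum_congr rfl fun r _ => by rw [abs_mul, abs_spinVec, mul_one]
  have main : ∀ (J : ℕ) (cv : Fin J → ℝ) (γ : Fin J → ℚ), Function.Injective cv →
      (∀ j, 0 < γ j) → ∑ j, γ j = 1 → ∀ d : ℝ,
      transportCost (∑ j : Fin J, ENNReal.ofReal ((γ j : ℚ) : ℝ) • Measure.dirac (cv j)) ν <
        ENNReal.ofReal d →
      ∃ F' : ℝ, magneticValue μ lamPlus cv γ = (F' : EReal) ∧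
        (∀ ε > 0, ∀ᶠ N : ℕ in atTop,
          |∫ ω, pressureFieldN (eig N) (Matrix.of (Us N ω)) (c N) ∂P - F'| ≤ d + ε) ∧
        ∀ᵐ ω ∂P, ∀ ε > 0, ∀ᶠ N : ℕ in atTop,
          |pressureFieldN (eig N) (Matrix.of (Us N ω)) (c N) - F'| ≤ d + ε := by
    intro J cv γ hinj h0 h1 d hd
    obtain ⟨lab, hlab, hclose⟩ := exists_labels hν hW cv γ h0 h1 hd
    obtain ⟨F', hF', t1, t2⟩ := Crest.Agent.S0248.result μ lamMinus lamPlus hle hsupp hedge eig hweak
      hext J cv hinj γ h0 h1 lab hlab Ω P Us hmeas horth hHaar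
    have hpt : ∀ᶠ N : ℕ in atTop, ∀ U : Matrix (Fin N) (Fin N) ℝ,
        |pressureFieldN (eig N) U (c N) - pressureFieldN (eig N) U (fun r => cv (lab N r))| ≤ d := by
      filter_upwards [hclose, eventually_gt_atTop 0] with N hN hpos U
      have hN0 : (0 : ℝ) < N := by exact_mod_cast hpos
      refine (abs_pressureFieldN_sub_le _ _ _ _).trans ?_
      rwa [div_le_iff₀ hN0]
    refine ⟨F', hF', fun ε hε => ?_, ?_⟩
    · filter_upwards [hpt, Metric.tendsto_nhds.1 t1 ε hε] with N a1 a2
      rw [Real.dist_eq] at a2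
      have a3 : |∫ ω, pressureFieldN (eig N) (Matrix.of (Us N ω)) (c N) ∂P -
          ∫ ω, pressureFieldN (eig N) (Matrix.of (Us N ω)) (fun r => cv (lab N r)) ∂P| ≤ d := by
        rw [← integral_sub (hint N _) (hint N _)]
        have := norm_integral_le_of_norm_le_const (μ := P)
          (f := fun ω => pressureFieldN (eig N) (Matrix.of (Us N ω)) (c N) -
            pressureFieldN (eig N) (Matrix.of (Us N ω)) (fun r => cv (lab N r))) (C := d)
          (Eventually.of_forall fun ω => a1 _)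
        simpa using this
      rw [abs_le] at a3 ⊢
      rw [abs_lt] at a2
      constructor <;> linarith [a3.1, a3.2, a2.1, a2.2]
    · filter_upwards [t2] with ω hω ε hε
      filter_upwards [hpt, Metric.tendsto_nhds.1 hω ε hε] with N a1 a2
      rw [Real.dist_eq] at a2
      have a3 := a1 (Matrix.of (Us N ω))
      rw [abs_le] at a3 ⊢
      rw [abs_lt] at a2
      constructor <;> linarith [a3.1, a3.2, a2.1, a2.2]
  have hcauchy : CauchySeq (fun N : ℕ => ∫ ω, pressureFieldN (eig N) (Matrix.of (Us N ω)) (c N) ∂P) := by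
    refine Metric.cauchySeq_iff.2 fun ε hε => ?_
    obtain ⟨J, cv, γ, hinj, h0, h1, hd⟩ := exists_alphabet hW (d := ε / 8) (by positivity)
    obtain ⟨F', -, t1, -⟩ := main J cv γ hinj h0 h1 _ hd
    obtain ⟨N0, hN0⟩ := eventually_atTop.1 (t1 (ε / 8) (by positivity))
    refine ⟨N0, fun a ha b hb => ?_⟩
    have := hN0 a ha
    have := hN0 b hb
    rw [Real.dist_eq, abs_lt]
    rw [abs_le] at *
    constructor <;> linarith [(hN0 a ha), (hN0 b hb)]
  obtain ⟨F, hF⟩ := cauchySeq_tendsto_of_complete hcauchy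
  have hFF : ∀ (F' d : ℝ), (∀ ε > 0, ∀ᶠ N : ℕ in atTop,
      |∫ ω, pressureFieldN (eig N) (Matrix.of (Us N ω)) (c N) ∂P - F'| ≤ d + ε) →
      |F - F'| ≤ d := by
    intro F' d h
    refine le_of_forall_pos_le_add fun ε hε => ?_
    exact le_of_tendsto ((hF.sub_const F').abs) (h ε hε)
  refine ⟨F, ?_, hF, ?_⟩
  · intro Jq cq γq hq hT
    choose Fq hFq using fun q => mag_char (μ := μ) hle hsupp (cq q) (γq q) (hq q).2.1 (hq q).2.2
    have : Tendsto Fq atTop (nhds F) := by
      refine Metric.tendsto_nhds.2 fun ε hε => ?_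
      have hlt : (0 : ENNReal) < ENNReal.ofReal (ε / 2) := ENNReal.ofReal_pos.2 (by positivity)
      filter_upwards [hT.eventually (gt_mem_nhds hlt)] with q hq'
      obtain ⟨F', e1, t1, -⟩ := main (Jq q) (cq q) (γq q) (hq q).1 (hq q).2.1 (hq q).2.2 _ hq'
      have e2 : F' = Fq q := by
        have := e1.symm.trans (hFq q).1
        exact_mod_cast this
      have := hFF F' _ t1
      rw [Real.dist_eq, abs_sub_comm, ← e2]
      linarith
    have h2 := (continuous_coe_real_ereal.tendsto F).comp this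
    exact h2.congr fun q => (hFq q).1.symm
  · have hall : ∀ n : ℕ, ∀ᵐ ω ∂P, ∀ᶠ N : ℕ in atTop,
        |pressureFieldN (eig N) (Matrix.of (Us N ω)) (c N) - F| ≤ 3 * (1 / ((n : ℝ) + 1)) := by
      intro n
      have hn : (0 : ℝ) < 1 / ((n : ℝ) + 1) := by positivity
      obtain ⟨J, cv, γ, hinj, h0, h1, hd⟩ := exists_alphabet hW hn
      obtain ⟨F', -, t1, t2⟩ := main J cv γ hinj h0 h1 _ hd
      have a0 := hFF F' _ t1
      filter_upwards [t2] with ω hω
      filter_upwards [hω _ hn] with N a1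
      rw [abs_le] at *
      constructor <;> linarith [a0.1, a0.2, a1.1, a1.2]
    filter_upwards [ae_all_iff.2 hall] with ω hω
    refine Metric.tendsto_nhds.2 fun ε hε => ?_
    obtain ⟨n, hn⟩ := exists_nat_one_div_lt (show 0 < ε / 3 by positivity)
    filter_upwards [hω n] with N a1
    rw [Real.dist_eq]
    linarith

end Crest.Agent.S0249
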