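import Crest.Statements.S0251
import Crest.Agent.R166.Main

set_option autoImplicit false
open Crest.ProbabilityR.RandomMatrix
open Crest Crest.ProbabilityR Crest.ProbabilityR.RandomMatrix

namespace Crest.Agent.S0251

/-- Fix d ≥ 3, an energy E with E² < 4(d−1), and a nonnegative continuous compactly supported h. The mean of exp(−Σ_i h(n·ρ·(λ_i − E))) over a uniformly random simple d-regular graph on n labelled vertices, the λ_i being its adjacency eigenvalues and ρ the Kesten–McKay density at E, minus the mean of exp(−Σ_i h((n/π)·μ_i)) over the normalised n×n Gaussian orthogonal ensemble with eigenvalues μ_i, tends to 0 as n grows through the sizes for which such graphs exist. -/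
theorem result
    (d : ℕ) (hd : 3 ≤ d) (E : ℝ) (hE : E ^ 2 < 4 * ((d : ℝ) - 1))
    (h : ℝ → ℝ) (hcont : Continuous h) (hsupp : HasCompactSupport h) (hpos : ∀ t, 0 ≤ h t) :
    ∀ ε : ℝ, 0 < ε → ∃ N : ℕ, ∀ n : ℕ, N ≤ n → (regularGraphs n d).Nonempty →
      |regularAverage n d (fun G => adjLaplaceWeight G (unfoldAt h (n * kestenMcKayDensity d E) E)) -
          ∫ g, goeLaplaceWeight g (unfoldAt h (n / Real.pi) 0) ∂goeDisorderLaw n| < ε := by
  obtain ⟨D, rfl⟩ : ∃ D, d = D + 1 := ⟨d - 1, by omega⟩
  have hD : 2 ≤ D := by omega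
  have hE' : E ^ 2 < 4 * D := by push_cast at hE; linarith
  obtain ⟨s₀, hs₀, H⟩ := R166.graph_univ hD (κ := 4 * D - E ^ 2) (by linarith)
  obtain ⟨_, H⟩ := H 0 le_rfl hs₀ _ (Or.inl rfl) E (by linarith)
  have H := H h hcont hsupp hpos
  simp only [R166.graph_lap_clean D E _ hcont, R166.goe_lap _ hcont, R166.rho_clean hD hE'] at H
  intro ε hε
  obtain ⟨N, hN⟩ := R166.eventually_of_FG (u := fun n => regularAverage n (D + 1)
    (fun G => adjLaplaceWeight G (unfoldAt h (n * kestenMcKayDensity (D + 1) E) E)) -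
      ∫ g, goeLaplaceWeight g (unfoldAt h (n / Real.pi) 0) ∂goeDisorderLaw n) H hε
  exact ⟨N, fun n hn hne => hN n hn ((R166.regularGraphs_nonempty_iff n D).1 hne)⟩

end Crest.Agent.S0251
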