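import Crest.Statements.S0252
import Crest.Agent.R166.Main

set_option autoImplicit false
open Crest.ProbabilityR.RandomMatrix
open Crest Crest.ProbabilityR Crest.ProbabilityR.RandomMatrix

namespace Crest.Agent.S0252

/-- d ≥ 3, 0 < κ < 2√(d−1), I = [−2√(d−1)+κ, 2√(d−1)−κ]. For some s₀ > 0 and all 0 < s < s₀: the tree density-of-states law at disorder s (law on [−(d+s), d+s] with the averaged tree moments) exists with a continuous density near I, ρ > 0 on I; and for E ∈ I and continuous compactly supported h ≥ 0, the mean of exp(−Σ_i h(nρ(E)(λ_i − E))) for a uniform random d-regular graph on n vertices + s·(iid uniform[−1,1] potentials), minus the GOE mean of exp(−Σ_i h(nμ_i/π)), → 0 (n > d, nd even). -/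
theorem result
    (d : ℕ) (hd : 3 ≤ d) (κ : ℝ) (hκ : 0 < κ) (hκ' : κ < 2 * Real.sqrt ((d : ℝ) - 1)) :
    ∃ s₀ : ℝ, 0 < s₀ ∧ ∀ s : ℝ, 0 < s → s < s₀ →
      ∃ ν : MeasureTheory.Measure ℝ, IsTreeDOS d s ν ∧
        ∃ (ρ : ℝ → ℝ) (U : Set ℝ), IsOpen U ∧
          Set.Icc (-(2 * Real.sqrt ((d : ℝ) - 1)) + κ) (2 * Real.sqrt ((d : ℝ) - 1) - κ) ⊆ U ∧
          ContinuousOn ρ U ∧ (∀ t ∈ U, 0 ≤ ρ t) ∧
          ν.restrict U = (MeasureTheory.volume.restrict U).withDensity (fun t => ENNReal.ofReal (ρ t)) ∧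
          (∀ E ∈ Set.Icc (-(2 * Real.sqrt ((d : ℝ) - 1)) + κ) (2 * Real.sqrt ((d : ℝ) - 1) - κ), 0 < ρ E) ∧
          ∀ E ∈ Set.Icc (-(2 * Real.sqrt ((d : ℝ) - 1)) + κ) (2 * Real.sqrt ((d : ℝ) - 1) - κ),
            ∀ h : ℝ → ℝ, Continuous h → HasCompactSupport h → (∀ t, 0 ≤ h t) →
              ∀ ε : ℝ, 0 < ε → ∃ N : ℕ, ∀ n : ℕ, N ≤ n → d < n → Even (n * d) →
                |regularAverage n d (fun G => ∫ ω, disorderedLaplaceWeight G s ω
                      (unfoldAt h (n * ρ E) E) ∂potentialLaw n) -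
                    ∫ g, goeLaplaceWeight g (unfoldAt h (n / Real.pi) 0) ∂goeDisorderLaw n| < ε := by
  obtain ⟨D, rfl⟩ : ∃ D, d = D + 1 := ⟨d - 1, by omega⟩
  have hD : 2 ≤ D := by omega
  have hc : (((D + 1 : ℕ) : ℝ) - 1) = D := by push_cast; ring
  rw [hc] at hκ' ⊢
  have hq : Real.sqrt D ^ 2 = D := Real.sq_sqrt (Nat.cast_nonneg D)
  set q := Real.sqrt D with hqdef
  have hκ₁ : 0 < (4 * D - (2 * q - κ) ^ 2) / 2 := by nlinarith
  set κ₁ := (4 * D - (2 * q - κ) ^ 2) / 2 with hκ₁def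
  obtain ⟨s₁, hs₁, H⟩ := R166.graph_univ hD hκ₁
  obtain ⟨s₂, hs₂, T⟩ := R166.tree_dos hD hκ₁
  refine ⟨min s₁ s₂, lt_min hs₁ hs₂, fun s hs hs' => ?_⟩
  obtain ⟨ν, hν, hcont, hdens⟩ := T s hs (hs'.trans_le (min_le_right _ _))
  have H := H s hs.le (hs'.trans_le (min_le_left _ _)) _ (Or.inr ⟨hs, rfl⟩)
  have hI : ∀ E ∈ Set.Icc (-(2 * q) + κ) (2 * q - κ), E ^ 2 < 4 * D - κ₁ := by
    intro E hE
    have : E ^ 2 ≤ (2 * q - κ) ^ 2 := sq_le_sq' (by linarith [hE.1]) hE.2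
    linarith
  refine ⟨ν, hν, R166.rho D s R166.unifJ, {E | E ^ 2 < 4 * D - κ₁},
    isOpen_lt (by fun_prop) continuous_const, hI, hcont,
    fun t ht => (H t (le_of_lt ht)).1.2.2.le, hdens, fun E hE => (H E (hI E hE).le).1.2.2,
    fun E hE h hcont hsupp hpos ε hε => ?_⟩
  have H := (H E (hI E hE).le).2 h hcont hsupp hpos
  simp only [R166.graph_lap_unif D s E _ hcont hpos, R166.goe_lap _ hcont] at H
  obtain ⟨N, hN⟩ := R166.eventually_of_FG (u := fun n => regularAverage n (D + 1)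
    (fun G => ∫ ω, disorderedLaplaceWeight G s ω (unfoldAt h (n * R166.rho D s R166.unifJ E) E)
      ∂potentialLaw n) -
      ∫ g, goeLaplaceWeight g (unfoldAt h (n / Real.pi) 0) ∂goeDisorderLaw n) H hε
  obtain ⟨N', hN'⟩ := Filter.eventually_atTop.1 (R166.pairing_nonempty D)
  exact ⟨max N N', fun n hn _ hev =>
    hN n (le_of_max_le_left hn) (hN' n (le_of_max_le_right hn) hev)⟩

end Crest.Agent.S0252
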