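import Crest.Statements.S0253
import Crest.Agent.R167.Main

set_option autoImplicit false
open Crest.ProbabilityR.SpinModel
open Crest Crest.ProbabilityR Crest.ProbabilityR.SpinModel

namespace Crest.Agent.S0253

open MeasureTheory Crest.Agent.R167

/-- the edges inside `V` -/
abbrev Ed (V : Finset (ℤ × ℤ)) : Type := {p : V × Fin 2 // (p.1 : ℤ × ℤ) + latticeDir p.2 ∈ V}

/-- the graph on `V` -/
def gr (V : Finset (ℤ × ℤ)) : Gr V (Ed V) := ⟨fun e => e.1.1, fun e => ⟨_, e.2⟩⟩

theorem gr_lat (V : Finset (ℤ × ℤ)) : (gr V).GLat fun v => v.1 := by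
  refine ⟨Subtype.val_injective, fun ⟨⟨u, i⟩, _⟩ => ?_, fun v => ?_⟩
  · fin_cases i <;> simp [gr, latticeDir]
  · have h : ∀ s : Finset (Ed V), Set.InjOn (fun e : Ed V => e.1.2) s → s.card ≤ 2 := fun s h =>
      (Finset.card_le_card_of_injOn _ (fun _ _ => Finset.mem_univ _) h).trans (by simp)
    refine add_le_add (h _ fun e he e' he' h => ?_) (h _ fun e he e' he' h => ?_)
    · simp only [gr, Finset.coe_filter, Finset.mem_univ, true_and, Set.mem_setOf_eq] at he he'
      exact Subtype.ext (Prod.ext (he.trans he'.symm) h)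
    · simp only [gr, Finset.coe_filter, Finset.mem_univ, true_and, Set.mem_setOf_eq] at he he' h
      have := congrArg Subtype.val (he.trans he'.symm)
      simp only [h, add_left_inj] at this
      exact Subtype.ext (Prod.ext (Subtype.ext this) h)

theorem inter_eq (n : ℕ) (V : Finset (ℤ × ℤ)) (b : ℤ × ℤ → Fin 2 → ℝ) (σ : SpinConfig n V) :
    interaction n V b σ =
      ∑ e : Ed V, b e.1.1 e.1.2 * inner ℝ (σ ((gr V).p e)).1 (σ ((gr V).q e)).1 := by
  rw [interaction, ← Fintype.sum_prod_type', Finset.sum_dite, Finset.sum_const_zero, add_zero]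
  exact Fintype.sum_equiv (Equiv.subtypeEquivRight fun p => by simp) _ _ fun _ => rfl

theorem two_eq (n : ℕ) [NeZero n] (V : Finset (ℤ × ℤ)) (b : ℤ × ℤ → Fin 2 → ℝ) (x y : V) :
    twoPoint n V b x y = tp (gr V) n (fun e => b e.1.1 e.1.2) x y := by
  set c := (volume : Measure (EuclideanSpace ℝ (Fin n))).toSphere Set.univ with hc
  have c0 : c ≠ 0 := Measure.measure_univ_ne_zero.2 (Measure.toSphere_ne_zero _)
  have c1 : c ≠ ⊤ := measure_ne_top _ _
  have h : referenceLaw n V = c ^ Fintype.card V • Measure.pi fun _ : V => usph n := by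
    refine Measure.pi_eq fun s _ => ?_
    rw [Measure.smul_apply, Measure.pi_pi, smul_eq_mul, ← Finset.card_univ, ← Finset.prod_const,
      ← Finset.prod_mul_distrib]
    refine Finset.prod_congr rfl fun v _ => ?_
    rw [usph, Measure.smul_apply, smul_eq_mul, ← hc, ← mul_assoc, ENNReal.mul_inv_cancel c0 c1,
      one_mul]
  simp only [twoPoint, partitionFn, tp, h, integral_smul_measure, smul_eq_mul, inter_eq]
  exact mul_div_mul_left _ _ (ENNReal.toReal_ne_zero.2 ⟨pow_ne_zero _ c0, ENNReal.pow_ne_top c1⟩)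

/-- Sphere-valued nearest-neighbour spins on finite pieces of the square lattice with free boundary: for every n ≥ 3 and every β > 0 there are constants A and m > 0 such that, for every finite vertex set, every assignment of edge strengths in [0, β] and every two vertices x, y of the set, the Gibbs average of the inner product of the spins at x and y lies between 0 and A · exp (−m · dist), where dist is the Euclidean distance from x to y. -/
theorem result
    (n : ℕ) (hn : 3 ≤ n) (β : ℝ) (hβ : 0 < β) :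
    ∃ A m : ℝ, 0 < m ∧
      ∀ (V : Finset (ℤ × ℤ)) (b : ℤ × ℤ → Fin 2 → ℝ),
        (∀ u i, 0 ≤ b u i ∧ b u i ≤ β) →
        ∀ x y : V,
          0 ≤ twoPoint n V b x y ∧
          twoPoint n V b x y ≤
            A * Real.exp (-m * Real.sqrt ((((x : ℤ × ℤ).1 - (y : ℤ × ℤ).1 : ℤ) : ℝ) ^ 2 +
              (((x : ℤ × ℤ).2 - (y : ℤ × ℤ).2 : ℤ) : ℝ) ^ 2)) := by
  have : NeZero n := ⟨by omega⟩
  obtain ⟨A, m, hm, H⟩ := tp_decay hn hβ
  refine ⟨|A|, m / 2, by positivity, fun V b hb x y => ?_⟩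
  obtain ⟨h0, h1⟩ := H V (Ed V) (gr V) _ (fun e => b e.1.1 e.1.2) (fun e => hb _ _) (gr_lat V) x y
  rw [two_eq]
  refine ⟨h0, h1.trans (mul_le_mul (le_abs_self A) (Real.exp_le_exp.2 ?_) (by positivity)
    (abs_nonneg A))⟩
  set N := nrm (x.1 - y.1) with hN
  have a : |(((x : ℤ × ℤ).1 - (y : ℤ × ℤ).1 : ℤ) : ℝ)| ≤ N := by
    rw [← Int.cast_abs, ← Int.cast_natCast, Int.cast_le, ← Int.natCast_natAbs, Nat.cast_le]
    exact le_max_left _ _
  have b : |(((x : ℤ × ℤ).2 - (y : ℤ × ℤ).2 : ℤ) : ℝ)| ≤ N := by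
    rw [← Int.cast_abs, ← Int.cast_natCast, Int.cast_le, ← Int.natCast_natAbs, Nat.cast_le]
    exact le_max_right _ _
  have c := Real.sqrt_le_iff.2 ⟨show (0 : ℝ) ≤ 2 * N by positivity,
    show _ ≤ _ from (add_le_add (sq_le_sq' (abs_le.1 a).1 (abs_le.1 a).2)
      (sq_le_sq' (abs_le.1 b).1 (abs_le.1 b).2)).trans (by nlinarith [sq_nonneg (N : ℝ)])⟩
  nlinarith

end Crest.Agent.S0253
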