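import Crest.Statements.S0254
import Crest.Agent.R168.Law
import Crest.Agent.R168.FUSF
import Crest.Agent.R168.GraphMeas
import Crest.Agent.R168.GraphEquiv
import Crest.Agent.R168.Noise

set_option autoImplicit false
open Crest Crest.ProbabilityR

namespace Crest.Agent.S0254

open MeasureTheory ProbabilityTheory Filter Topology Crest.Agent.R168
open Crest.ProbabilityR.GraphTables Crest.ProbabilityR.SpanningTrees Crest.ProbabilityR.Labels

theorem measurable_graphDrift {Ω : Type*} [MeasurableSpace Ω] (A : Ω → ℕ → ℕ → Bool)
    (hA : Measurable A) (h : Ω → Sym2 ℕ → ℝ) (hh : Measurable h) (e : Sym2 ℕ) :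
    Measurable fun ω : Ω =>
      drift (fusfIncl (graphOfTable (A ω))) (window (graphOfTable (A ω))) e (h ω) := by
  unfold drift
  refine Measurable.limsup fun n => ?_
  let _ : MeasurableSpace (Finset (Sym2 ℕ)) := ⊤
  have : DiscreteMeasurableSpace (Finset (Sym2 ℕ)) := ⟨fun _ => trivial⟩
  have hw : Measurable fun ω : Ω => window (graphOfTable (A ω)) e n :=
    measurable_to_countable' fun W => hA (measurableSet_window_eq e n W)
  have hj : Measurable fun r : Ω × Finset (Sym2 ℕ) =>
      tiltMean (fusfIncl (graphOfTable (A r.1))) r.2 e (h r.1) := by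
    refine measurable_from_prod_countable_left fun W => ?_
    refine measurable_tiltMean (fun ω : Ω => fusfIncl (graphOfTable (A ω))) (fun T => ?_) W e h
      (fun j => (measurable_pi_apply j).comp hh)
    have := (measurable_fusfIncl T).comp hA
    simpa only [Function.comp_def] using this
  have := hj.comp (measurable_id.prodMk hw)
  simpa only [Function.comp_def, id] using this

theorem measurable_noise {Ω : Type*} [MeasurableSpace Ω] (A : Ω → ℕ → ℕ → Bool)
    (hA : Measurable A) (t : Ω → ℕ → ℝ) (ht : Measurable t) (ξ : Ω → ℕ → ℕ → ℝ)
    (hξ : Measurable ξ) :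
    Measurable fun ω : Ω => edgeNoise (graphOfTable (A ω)) (t ω) (ξ ω) := by
  refine measurable_pi_lambda _ fun e => ?_
  have := (measurable_edgeNoise e).comp (hA.prodMk (ht.prodMk hξ))
  simpa only [Function.comp_def] using this

theorem graphOfTable_tableOf (G : SimpleGraph ℕ) : graphOfTable (tableOf G) = G := by
  ext u v
  simp only [graphOfTable, tableOf, SimpleGraph.fromRel_adj, decide_eq_true_eq]
  exact ⟨fun h => h.2.elim id fun h' => h'.symm, fun h => ⟨h.ne, Or.inl h⟩⟩

/-- One rule from (graph on `ℕ`, labels in `[0,1]^ℕ`) to edge sets, jointly measurable in (adjacency table, labels) and commuting on every input with every permutation of `ℕ` acting on graph, labels and pairs, gives i.i.d. uniform labels the free uniform spanning forest's law on every connected locally finite graph: along every exhaustion by finite connected induced pieces, for finite edge sets `F` the chance that the piece's uniform spanning tree contains `F` tends to that for the output. -/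
theorem result :
    ∃ Φ : SimpleGraph ℕ → (ℕ → unitInterval) → (Sym2 ℕ → Bool),
      Measurable (fun p : (ℕ → ℕ → Bool) × (ℕ → unitInterval) =>
          Φ (Crest.ProbabilityR.GraphTables.graphOfTable p.1) p.2) ∧
      (∀ (σ : Equiv.Perm ℕ) (G : SimpleGraph ℕ) (x : ℕ → unitInterval),
          Φ (G.comap ⇑σ) (x ∘ ⇑σ) = Φ G x ∘ Sym2.map ⇑σ) ∧
      ∀ G : SimpleGraph ℕ, G.Connected → (∀ v : ℕ, (G.neighborSet v).Finite) →
        ∀ S : ℕ → Finset ℕ, Monotone S → (∀ v : ℕ, ∃ n, v ∈ S n) →
          (∀ n, (G.induce (S n : Set ℕ)).Connected) →
          ∀ F : Finset (Sym2 ℕ), (↑F : Set (Sym2 ℕ)) ⊆ G.edgeSet →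
            Filter.Tendsto (fun n => Crest.ProbabilityR.SpanningTrees.ustContains G (S n) F) Filter.atTop
              (nhds (((Crest.ProbabilityR.Labels.labelMeasure ℕ).map (Φ G) {ω | ∀ e ∈ F, ω e = true}).toReal)) := by
  obtain ⟨a, c, ha, hc, hnoise⟩ := exists_split
  refine ⟨fun G x => decode (drift (fusfIncl G) (window G))
    (edgeNoise G (fun v => a (x v)) (fun v => c (x v))), ?_, ?_, ?_⟩
  · refine measurable_decode (Ω := (ℕ → ℕ → Bool) × (ℕ → unitInterval))
      (fun p => drift (fusfIncl (graphOfTable p.1)) (window (graphOfTable p.1))) (fun e => ?_) _ ?_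
    · exact measurable_graphDrift
        (fun p : ((ℕ → ℕ → Bool) × (ℕ → unitInterval)) × (Sym2 ℕ → ℝ) => p.1.1)
        (measurable_fst.comp measurable_fst) (fun p => p.2) measurable_snd e
    · exact measurable_noise (fun p : (ℕ → ℕ → Bool) × (ℕ → unitInterval) => p.1) measurable_fst
        (fun p v => a (p.2 v))
        (measurable_pi_lambda _ fun v => ha.comp ((measurable_pi_apply v).comp measurable_snd))
        (fun p v => c (p.2 v))
        (measurable_pi_lambda _ fun v => hc.comp ((measurable_pi_apply v).comp measurable_snd))
  · intro σ G x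
    have key := decode_comp (Sym2.map σ) (drift (fusfIncl G) (window G))
      (drift (fusfIncl (G.comap σ)) (window (G.comap σ))) ?_
      (edgeNoise G (fun v => a (x v)) (fun v => c (x v)))
    · rw [key, ← edgeNoise_comap]
      rfl
    · intro e h
      unfold drift
      congr 1
      funext n
      rw [window_comap]
      have h2 := tiltMean_map σ.toEmbedding.sym2Map (fusfIncl G) (window (G.comap σ) e n) e h
      have h3 : (fun T : Finset (Sym2 ℕ) => fusfIncl G (T.map σ.toEmbedding.sym2Map)) =
          fusfIncl (G.comap σ) := funext fun T => (fusfIncl_comap σ G T).symm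
      rw [h3] at h2
      exact h2
  · intro G hG hfin S hmono hex hconn F hF
    classical
    obtain ⟨ν, hν, hincl, hL⟩ := exists_fusf G S hmono hex hconn
    set ι : G.edgeSet ↪ Sym2 ℕ := Function.Embedding.subtype (· ∈ G.edgeSet) with hι
    set Fw : G.edgeSet → ℕ → Finset G.edgeSet :=
      fun e n => (window G e n).subtype (· ∈ G.edgeSet) with hFw
    have hFwmap : ∀ e n, (Fw e n).map ι = window G e n := by
      intro e n
      simp only [hFw, hι, Finset.subtype_map]
      exact Finset.filter_true_of_mem fun x hx => window_subset G e n hx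
    have hFmono : ∀ e, Monotone (Fw e) := fun e m n hmn =>
      Finset.subtype_mono (window_mono G hfin e hmn)
    have hFex : ∀ e e' : G.edgeSet, ∃ n, e' ∈ Fw e n := by
      intro e e'
      obtain ⟨n, hn⟩ := window_exhaust G hG hfin e e' e'.2
      exact ⟨n, Finset.mem_subtype.2 hn⟩
    have hgood := goodDrift_of_lipTilt ν Fw 100 hL
    have hdec : Measurable (decode (drift (incl ν) Fw)) :=
      measurable_decode (Ω := G.edgeSet → ℝ) (fun _ => drift (incl ν) Fw)
        (fun i => (hgood.meas i).comp measurable_snd) id measurable_id
    have hlaw := flow_law ν Fw hFmono hFex 100 (by norm_num) hL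
    have hnat : ∀ z : Sym2 ℕ → ℝ, decode (drift (fusfIncl G) (window G)) z ∘ ι =
        decode (drift (incl ν) Fw) (z ∘ ι) := by
      intro z
      refine decode_comp ι _ _ (fun e h => ?_) z
      unfold drift
      congr 1
      funext n
      have h2 := tiltMean_map ι (fusfIncl G) (Fw e n) e h
      have h3 : (fun T : Finset G.edgeSet => fusfIncl G (T.map ι)) = incl ν :=
        funext fun T => (hincl T).symm
      rw [h3, hFwmap] at h2
      exact h2
    have hz : Measurable fun x : ℕ → unitInterval =>
        edgeNoise G (fun v => a (x v)) (fun v => c (x v)) := by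
      have := measurable_noise (fun _ : ℕ → unitInterval => tableOf G) measurable_const
        (fun x v => a (x v)) (measurable_pi_lambda _ fun v => ha.comp (measurable_pi_apply v))
        (fun x v => c (x v)) (measurable_pi_lambda _ fun v => hc.comp (measurable_pi_apply v))
      simpa only [graphOfTable_tableOf] using this
    have hz' : Measurable fun (x : ℕ → unitInterval) (e : G.edgeSet) =>
        edgeNoise G (fun v => a (x v)) (fun v => c (x v)) e :=
      measurable_pi_lambda _ fun e => (measurable_pi_apply (e : Sym2 ℕ)).comp hz
    have hΦ : Measurable fun x : ℕ → unitInterval => decode (drift (fusfIncl G) (window G))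
        (edgeNoise G (fun v => a (x v)) (fun v => c (x v))) := by
      refine measurable_decode (Ω := ℕ → unitInterval)
        (fun _ => drift (fusfIncl G) (window G)) (fun e => ?_) _ hz
      have := measurable_graphDrift (fun _ : (ℕ → unitInterval) × (Sym2 ℕ → ℝ) => tableOf G)
        measurable_const (fun p => p.2) measurable_snd e
      simpa only [graphOfTable_tableOf] using this
    have hmF : ∀ {W : Type} (T : Finset W), MeasurableSet {x : W → Bool | ∀ j ∈ T, x j = true} := by
      intro W T
      have : {x : W → Bool | ∀ j ∈ T, x j = true} =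
          ⋂ j ∈ T, (fun x : W → Bool => x j) ⁻¹' {true} := by ext x; simp
      rw [this]
      exact Finset.measurableSet_biInter _ fun i _ =>
        measurable_pi_apply i (MeasurableSet.of_discrete)
    set T : Finset G.edgeSet := F.subtype (· ∈ G.edgeSet) with hT
    have hTF : T.map ι = F := by
      simp only [hT, hι, Finset.subtype_map]
      exact Finset.filter_true_of_mem fun x hx => hF hx
    have hval : ((labelMeasure ℕ).map (fun x : ℕ → unitInterval =>
        decode (drift (fusfIncl G) (window G))
          (edgeNoise G (fun v => a (x v)) (fun v => c (x v)))) {ω | ∀ e ∈ F, ω e = true}).toReal =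
        fusfIncl G F := by
      have h1 : incl ν T = ((labelMeasure ℕ).map (decode (drift (incl ν) Fw) ∘
          fun (x : ℕ → unitInterval) (e : G.edgeSet) =>
            edgeNoise G (fun v => a (x v)) (fun v => c (x v)) e)
            {x | ∀ j ∈ T, x j = true}).toReal := by
        rw [← Measure.map_map hdec hz', hnoise G hfin, hlaw]
        rfl
      rw [← hTF, ← hincl T, h1, Measure.map_apply hΦ (hmF _),
        Measure.map_apply (hdec.comp hz') (hmF _)]
      congr 2
      ext x
      simp only [Set.mem_preimage, Set.mem_ofPred_eq, Finset.forall_mem_map, Function.comp_apply]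
      refine forall₂_congr fun e _ => ?_
      have := congrFun (hnat (edgeNoise G (fun v => a (x v)) (fun v => c (x v)))) e
      simp only [Function.comp_apply] at this
      rw [this]
      rfl
    rw [hval]
    exact ust_tendsto G S hmono hex hconn F hF

end Crest.Agent.S0254
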