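import Crest.Statements.S0255
import Crest.Agent.R168.Law
import Crest.Agent.R168.Stable

set_option autoImplicit false
open Crest Crest.ProbabilityR

namespace Crest.Agent.S0255

open MeasureTheory ProbabilityTheory Filter Topology Crest.Agent.R168
open Crest.ProbabilityR.StronglyRayleigh

theorem incl_eq_sum {V : Type*} [DecidableEq V] (ν : Measure (V → Bool)) [IsFiniteMeasure ν]
    (E T : Finset V) (hT : T ⊆ E) :
    incl ν T = ∑ S ∈ E.powerset with T ⊆ S, (ν {ω | ∀ i ∈ E, (ω i = true ↔ i ∈ S)}).toReal := by
  have hmeas : ∀ S : Finset V, MeasurableSet {ω : V → Bool | ∀ i ∈ E, (ω i = true ↔ i ∈ S)} := by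
    intro S
    have : {ω : V → Bool | ∀ i ∈ E, (ω i = true ↔ i ∈ S)} =
        ⋂ i ∈ E, (fun ω : V → Bool => ω i) ⁻¹' {b | b = true ↔ i ∈ S} := by
      ext ω; simp
    rw [this]
    exact Finset.measurableSet_biInter _ fun i _ =>
      measurable_pi_apply i (MeasurableSet.of_discrete)
  have hU : {x : V → Bool | ∀ j ∈ T, x j = true} =
      ⋃ S ∈ E.powerset.filter (T ⊆ ·), {ω | ∀ i ∈ E, (ω i = true ↔ i ∈ S)} := by
    ext x
    simp only [Set.mem_ofPred_eq, Set.mem_iUnion, Finset.mem_filter, Finset.mem_powerset,
      exists_prop]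
    constructor
    · intro hx
      refine ⟨E.filter (fun i => x i = true), ⟨Finset.filter_subset _ _, fun j hj => ?_⟩, ?_⟩
      · exact Finset.mem_filter.2 ⟨hT hj, hx j hj⟩
      · intro i hi; simp [hi]
    · rintro ⟨S, ⟨-, hTS⟩, hx⟩ j hj
      exact (hx j (hT hj)).2 (hTS hj)
  unfold incl
  rw [hU, measureReal_biUnion_finset _ (fun S _ => hmeas S)]
  · rfl
  · intro S hS S' hS' hne
    refine Set.disjoint_left.2 fun x hx hx' => hne ?_
    have h1 := Finset.mem_powerset.1 (Finset.mem_filter.1 hS).1
    have h2 := Finset.mem_powerset.1 (Finset.mem_filter.1 hS').1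
    ext i
    constructor
    · intro hi; exact (hx' i (h1 hi)).1 ((hx i (h1 hi)).2 hi)
    · intro hi; exact (hx i (h2 hi)).1 ((hx' i (h2 hi)).2 hi)

theorem lipTilt_of_sr {V : Type*} [DecidableEq V] (ν : Measure (V → Bool)) [IsFiniteMeasure ν]
    (hsr : IsStronglyRayleigh ν) : LipTilt (incl ν) 100 := by
  intro F i h h' δ hδ
  exact lip_of_stable (insert i F)
    (fun S => (ν {ω | ∀ j ∈ insert i F, (ω j = true ↔ j ∈ S)}).toReal)
    (fun _ => ENNReal.toReal_nonneg) (fun z hz => hsr (insert i F) z hz) (incl ν) F i
    (fun T hT => incl_eq_sum ν _ T hT) h h' δ hδ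

/-- For a countable group `Γ` and a strongly Rayleigh probability law `ν` on binary configurations `Γ → Bool` that is invariant under every left shift `a ↦ (h ↦ a (g⁻¹ h))`, there is a measurable map from independent uniform labels indexed by `Γ` to configurations that commutes with every left shift and pushes the label law forward to `ν`. -/
theorem result (Γ : Type*) [Group Γ]
    [Countable Γ] (ν : MeasureTheory.Measure (Γ → Bool)) [MeasureTheory.IsProbabilityMeasure ν]
    (hsr : Crest.ProbabilityR.StronglyRayleigh.IsStronglyRayleigh ν)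
    (hinv : Crest.ProbabilityR.StronglyRayleigh.IsShiftInvariant ν) :
    ∃ Φ : (Γ → unitInterval) → (Γ → Bool), Measurable Φ ∧
      (∀ (g : Γ) (u : Γ → unitInterval),
        Φ (Crest.ProbabilityR.StronglyRayleigh.leftShift g u) =
          Crest.ProbabilityR.StronglyRayleigh.leftShift g (Φ u)) ∧
      (Crest.ProbabilityR.Labels.labelMeasure Γ).map Φ = ν := by
  classical
  obtain ⟨E, hEmono, hEex⟩ : ∃ E : ℕ → Finset Γ, Monotone E ∧ ∀ g, ∃ n, g ∈ E n := by
    obtain ⟨f, hf⟩ := exists_surjective_nat Γ
    refine ⟨fun n => (Finset.range n).image f,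
      fun m n hmn => Finset.image_subset_image (Finset.range_mono hmn), fun g => ?_⟩
    obtain ⟨k, rfl⟩ := hf g
    exact ⟨k + 1, Finset.mem_image_of_mem _ (Finset.self_mem_range_succ k)⟩
  set F : Γ → ℕ → Finset Γ := fun g n => (E n).map (Equiv.mulLeft g).toEmbedding with hF
  have hFmono : ∀ g, Monotone (F g) := fun g m n hmn => Finset.map_subset_map.2 (hEmono hmn)
  have hFex : ∀ g j, ∃ n, j ∈ F g n := by
    intro g j
    obtain ⟨n, hn⟩ := hEex (g⁻¹ * j)
    exact ⟨n, Finset.mem_map.2 ⟨_, hn, by simp⟩⟩
  have hL := lipTilt_of_sr ν hsr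
  have hgood := goodDrift_of_lipTilt ν F 100 hL
  obtain ⟨a, ha, hlap⟩ := Measure.exists_measurable_map_eq lap
  have hdec : Measurable (decode (drift (incl ν) F)) :=
    measurable_decode (Ω := Γ → ℝ) (fun _ => drift (incl ν) F)
      (fun i => (hgood.meas i).comp measurable_snd) id measurable_id
  have hz : Measurable fun (u : Γ → unitInterval) (g : Γ) => a (u g) :=
    measurable_pi_lambda _ fun g => ha.comp (measurable_pi_apply g)
  refine ⟨fun u => decode (drift (incl ν) F) (fun g => a (u g)), hdec.comp hz, ?_, ?_⟩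
  · intro g u
    have key := decode_comp (fun h : Γ => g⁻¹ * h) (drift (incl ν) F) (drift (incl ν) F) ?_
      (fun g => a (u g))
    · exact key.symm
    · intro i h
      unfold drift
      congr 1
      funext n
      have h1 : F (g⁻¹ * i) n = (F i n).map (Equiv.mulLeft g⁻¹).toEmbedding := by
        simp only [hF, Finset.map_map]
        congr 1
        ext x
        simp [mul_assoc]
      have h2 := tiltMean_map (Equiv.mulLeft g⁻¹).toEmbedding (incl ν) (F i n) i h
      have h3 : (fun T : Finset Γ => incl ν (T.map (Equiv.mulLeft g⁻¹).toEmbedding)) = incl ν := by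
        funext T
        unfold incl
        have hm : MeasurableSet {x : Γ → Bool | ∀ j ∈ T, x j = true} := by
          have : {x : Γ → Bool | ∀ j ∈ T, x j = true} =
              ⋂ j ∈ T, (fun x : Γ → Bool => x j) ⁻¹' {true} := by ext x; simp
          rw [this]
          exact Finset.measurableSet_biInter _ fun i _ =>
            measurable_pi_apply i (MeasurableSet.of_discrete)
        have := hinv g _ hm
        simp only [Measure.real]
        rw [← this]
        congr 2
        ext x
        simp only [Set.mem_ofPred_eq, Finset.forall_mem_map, Set.mem_preimage, leftShift]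
        rfl
      rw [h1]
      rw [h3] at h2
      exact h2
  · have h1 : (Crest.ProbabilityR.Labels.labelMeasure Γ).map
        (fun (u : Γ → unitInterval) (g : Γ) => a (u g)) = noiseLaw Γ := by
      unfold Crest.ProbabilityR.Labels.labelMeasure noiseLaw
      rw [Measure.infinitePi_map_pi (f := fun _ => a) _ (fun _ => ha)]
      simp only [hlap]
    have h2 := flow_law ν F hFmono hFex 100 (by norm_num) hL
    rw [← h1, Measure.map_map hdec hz] at h2
    exact h2

end Crest.Agent.S0255
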