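import Crest.Statements.S0275
import Crest.Agent.R184.Core
import Crest.Agent.R184.Ring

set_option autoImplicit false
open Crest Crest.AlgebraR

namespace Crest.Agent.S0275

/-- Let m be the central binomial coefficient (1200 choose 600) and p the least divisor greater than one of (m!)^2 + 1. Then p is an odd prime, and there are a field with p^4 elements, a finitely generated group containing a non-identity element of finite order, and two elements a and b of the group algebra of that group over that field with a * b = 1 but b * a ≠ 1. -/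
theorem result :
    Nat.Prime (Nat.minFac ((Nat.choose 1200 600).factorial ^ 2 + 1)) ∧
    Odd (Nat.minFac ((Nat.choose 1200 600).factorial ^ 2 + 1)) ∧
    ∃ (K : Type) (_ : Field K) (G : Type) (_ : Group G),
      Nat.card K = Nat.minFac ((Nat.choose 1200 600).factorial ^ 2 + 1) ^ 4 ∧
      Group.FG G ∧ (∃ g : G, g ≠ 1 ∧ IsOfFinOrder g) ∧
      ∃ a b : MonoidAlgebra K G, a * b = 1 ∧ b * a ≠ 1 := by
  have key : ∀ m : ℕ, 2 ≤ m → Nat.Prime (Nat.minFac (m.factorial ^ 2 + 1)) ∧
      Odd (Nat.minFac (m.factorial ^ 2 + 1)) ∧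
      ∃ (K : Type) (_ : Field K) (G : Type) (_ : Group G),
        Nat.card K = Nat.minFac (m.factorial ^ 2 + 1) ^ 4 ∧
        Group.FG G ∧ (∃ g : G, g ≠ 1 ∧ IsOfFinOrder g) ∧
        ∃ a b : MonoidAlgebra K G, a * b = 1 ∧ b * a ≠ 1 := by
    intro m hm
    have h0 : 0 < m.factorial ^ 2 := pow_pos m.factorial_pos 2
    have hp : Nat.Prime (Nat.minFac (m.factorial ^ 2 + 1)) := Nat.minFac_prime (by omega)
    have hodd : Odd (m.factorial ^ 2 + 1) :=
      (Even.pow_of_ne_zero (even_iff_two_dvd.mpr (Nat.dvd_factorial two_pos hm)) two_ne_zero).add_one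
    have hodd' : Odd (Nat.minFac (m.factorial ^ 2 + 1)) := hodd.of_dvd_nat (Nat.minFac_dvd _)
    refine ⟨hp, hodd', ?_⟩
    generalize Nat.minFac (m.factorial ^ 2 + 1) = p at hp hodd'
    have : Fact p.Prime := ⟨hp⟩
    obtain ⟨V, S, H, _, _, _, D, rev, blk, sp, j0, hc, hA, hj, g1, -, -, g4⟩ := R184.core p hp
    obtain ⟨G, _, h⟩ := R184.ring_odd D hp (by rintro rfl; exact absurd hodd' (by decide)) hc hA hj
      g1 g4 (GaloisField p 4)
    exact ⟨GaloisField p 4, inferInstance, G, inferInstance, GaloisField.card p 4 (by norm_num), h⟩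
  refine key _ ?_
  exact le_trans (by norm_num : 2 ≤ Nat.choose 1200 1) (Nat.choose_le_middle 1 1200)

end Crest.Agent.S0275
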