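import Crest.Statements.S0276
import Crest.Agent.R184.Core
import Crest.Agent.R184.Ring
import Crest.Agent.R184.Det

set_option autoImplicit false
open Crest.AlgebraR.GroupRingDet
open Crest Crest.AlgebraR

namespace Crest.Agent.S0276

/-- There are a finitely generated group G, n ≥ 1 and an n × n matrix A over the integral group ring of G, invertible over the rational group ring, whose operator T on ℓ²(G)^n in the left regular representation (pinned by its matrix coefficients in a Hilbert basis indexed by pairs (i, g)) has determinant relative to the von Neumann trace strictly between 0 and 1: half the trace of the spectral logarithm of T⋆T is negative. -/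
theorem result :
    ∃ (G : Type) (_ : Group G) (n : ℕ) (A : Matrix (Fin n) (Fin n) (MonoidAlgebra ℤ G))
      (H : Type) (_ : NormedAddCommGroup H) (_ : InnerProductSpace ℂ H) (_ : CompleteSpace H)
      (b : HilbertBasis (Fin n × G) ℂ H) (T : H →L[ℂ] H),
      Group.FG G ∧ 1 ≤ n ∧ IsUnit (A.map (MonoidAlgebra.mapRingHom G (Int.castRingHom ℚ))) ∧
      IsRegularRepOperator b A T ∧ logDet b T < 0 := by
  obtain ⟨V, S, H, _, _, _, D, rev, blk, sp, j0, hc, hA, -, g1, -, -, -⟩ :=
    R184.core 3 Nat.prime_three
  obtain ⟨G, _, z, a, b, X, hfg, h1, h2, h3, h4⟩ := R184.ring_three D hc hA g1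
  obtain ⟨n, A, H', _, _, _, b', T, k1, k2, k3, k4⟩ := R184.exists_logDet_neg z h1 h2 h3 a b X h4
  exact ⟨G, inferInstance, n, A, H', inferInstance, inferInstance, inferInstance, b', T, hfg,
    k1, k2, k3, k4⟩

end Crest.Agent.S0276
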