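import Crest.Statements.S0294
import Crest.Agent.R193.VisEx
import Crest.Agent.R193.VisProp
import Crest.Agent.R193.CBlock
import Crest.Agent.R193.Bridge
import Crest.Agent.R193.SqX4
import Crest.Agent.R193.T
import Crest.Agent.R193.H

set_option autoImplicit false
open Crest.GroupTheory Crest.HyperbolicSpace
open Crest Crest.AlgebraR

namespace Crest.Agent.S0294

/-- Let G be a group with a finite generating set S whose word metric satisfies the four-point hyperbolicity condition, and suppose the boundary of G with respect to S (asymptotic classes of geodesic rays from the identity in the Cayley graph, with the visual topology) is homeomorphic to the two-sphere. Then some homomorphism from G to the isometry group of hyperbolic three-space (upper half-space model) makes G act properly and cocompactly, and has finite kernel. -/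
theorem result
    (G : Type) [Group G] (S : Finset G) (hS : Subgroup.closure (S : Set G) = ⊤)
    (hδ : ∃ δ : ℝ, 0 ≤ δ ∧ ∀ w x y z : G,
      min (gromovProduct (S : Set G) w x y) (gromovProduct (S : Set G) w y z) - δ ≤
        gromovProduct (S : Set G) w x z)
    (hB : Nonempty (CayleyBoundary (S : Set G) ≃ₜ Metric.sphere (0 : EuclideanSpace ℝ (Fin 3)) 1)) :
    ∃ ρ : G →* isometryGroup3,
      (∀ K : Set UpperHalfSpace3, IsCompact K →
        Set.Finite {g : G | ∃ x ∈ K, (ρ g : Equiv.Perm UpperHalfSpace3) x ∈ K}) ∧
      (∃ K : Set UpperHalfSpace3, IsCompact K ∧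
        ∀ x : UpperHalfSpace3, ∃ g : G, (ρ g : Equiv.Perm UpperHalfSpace3) x ∈ K) ∧
      Finite ρ.ker := by
  exact Crest.Agent.R193.final Crest.Agent.R193.zEx Crest.Agent.R193.zProp
    Crest.Agent.R193.cblock Crest.Agent.R193.bblock Crest.Agent.R193.Sq.X.ublock
    Crest.Agent.R193.T.tblock Crest.Agent.R193.hblock G S hS hδ hB

end Crest.Agent.S0294
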