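import Crest.Statements.S0298
import Crest.Agent.R195.Reach
import Crest.Agent.R195.Final

set_option autoImplicit false
open Crest Crest.AlgebraR

namespace Crest.Agent.S0298

/-- For every positive integer n other than 2, 4 and 9, the symmetric group on n letters has an irreducible finite-dimensional complex representation ρ such that every irreducible finite-dimensional complex representation has a nonzero equivariant linear map into the tensor square of ρ (with the diagonal action); that is, the tensor square of ρ contains every irreducible representation. -/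
theorem result (n : ℕ) (hn : 0 < n)
    (h2 : n ≠ 2) (h4 : n ≠ 4) (h9 : n ≠ 9) :
    ∃ (V : Type) (_ : AddCommGroup V) (_ : Module ℂ V) (_ : FiniteDimensional ℂ V)
      (ρ : Representation ℂ (Equiv.Perm (Fin n)) V), Representation.IsIrreducible ρ ∧
      ∀ (W : Type) [AddCommGroup W] [Module ℂ W] [FiniteDimensional ℂ W]
        (σ : Representation ℂ (Equiv.Perm (Fin n)) W), Representation.IsIrreducible σ →
        Nontrivial (Representation.IntertwiningMap σ (Representation.tprod ρ ρ)) := by
  have key : ∃ κ : YoungDiagram, κ.card = n ∧ ∀ l : YoungDiagram, l.card = κ.card →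
      ∃ (τ : Fin κ.card → ℤ) (T1 T2 : Fin κ.card → ℕ × ℕ), Crest.Agent.R195.Good τ T1 T2 κ κ l := by
    by_cases h15 : n = 15
    · refine ⟨Crest.Agent.R195.stair 5, ?_, fun l hl => ?_⟩
      · have := Crest.Agent.R195.two_mul_card_stair 5
        omega
      · obtain ⟨τ, T1, T2, -, -, h, -⟩ := Crest.Agent.R195.stateS_all 5 l hl
        exact ⟨τ, T1, T2, h⟩
    · obtain ⟨e, ⟨κ, hκ, -, h⟩, -⟩ := Crest.Agent.R195.full_all n h2 h4 h9 h15
      subst hκ
      refine ⟨κ, rfl, fun l hl => ?_⟩
      obtain ⟨τ, T1, T2, -, -, h', -⟩ := h l hl trivial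
      exact ⟨τ, T1, T2, h'⟩
  obtain ⟨κ, rfl, h⟩ := key
  exact ⟨(Crest.AlgebraR.Specht.spechtSubrep κ.cells).toSubmodule, inferInstance, inferInstance,
    Crest.Agent.R195.specht_finite κ, Crest.AlgebraR.Specht.spechtRep κ.cells,
    Crest.Agent.R195.specht_irreducible κ,
    fun W _ _ _ σ hσ => Crest.Agent.R195.final κ h W σ hσ⟩

end Crest.Agent.S0298
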