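import Crest.Statements.S0299
import Crest.Agent.R196.Main

set_option autoImplicit false
universe u
open Crest Crest.AlgebraR

namespace Crest.Agent.S0299

/-- There is a group that is word-hyperbolic (four-point condition for the word metric of some finite generating set), is the fundamental group of a finite aspherical CW complex of dimension at most two (a finite classifying space), and yet admits no geometric action — an action by isometries that is proper and cocompact — on any non-empty proper complete CAT(0) metric space. -/
theorem result :
    ∃ (G : Type) (_ : Group G),
      Crest.GroupTheory.IsHyperbolicGroup G ∧ Crest.Topology.HasFiniteClassifyingComplex G 2 ∧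
      ∀ (X : Type u) [MetricSpace X] [CompleteSpace X] [ProperSpace X] [Nonempty X] [MulAction G X],
        Crest.Geometry.IsCAT0Space X → ¬ Crest.Geometry.IsGeometricAction G X := by
  exact Crest.Agent.R196.main

end Crest.Agent.S0299
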