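import Crest.Statements.S0300
import Crest.Agent.R197.Core
import Crest.Agent.R197.CW9
import Crest.Agent.R197.RF
import Crest.Agent.R197.Lam
import Crest.Agent.R197.FP
import Crest.Agent.R197.Flat
import Crest.Agent.R197.ContrL
import Crest.Agent.R197.Top3
import Crest.Agent.R197.LData

set_option autoImplicit false
open Crest Crest.AlgebraR

namespace Crest.Agent.S0300

/-- There is a finitely generated, residually finite group `G` of integral cohomological dimension two — its cohomology with coefficients in every `ℤ`-linear representation vanishes in all degrees at least three, and is non-zero in degree two for some representation — and of geometric dimension three: `G` is the fundamental group of an aspherical CW complex of dimension at most three, but of no aspherical CW complex of dimension at most two, however many cells are allowed. -/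
theorem result :
    ∃ (G : Type) (_ : Group G),
      Group.FG G ∧ Group.ResiduallyFinite G ∧
      (∀ (A : Rep ℤ G) (n : ℕ), 3 ≤ n → CategoryTheory.Limits.IsZero (groupCohomology A n)) ∧
      (∃ A : Rep ℤ G, ¬ CategoryTheory.Limits.IsZero (groupCohomology A 2)) ∧
      Crest.Topology.HasClassifyingComplex G 3 ∧ ¬ Crest.Topology.HasClassifyingComplex G 2 := by
  obtain ⟨Γ, hconn, hdim, ⟨a, b, c, hab, hbc, hac⟩, hacyc, hcoc⟩ := R197.exists_good_graph
  have hk := R197.contr_of_acyc hacyc
  have hrf := R197.ra_residuallyFinite Γ
  refine ⟨R197.BB Γ, inferInstance, R197.bb_fg hconn, inferInstance, R197.bb_cd_le_two hk,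
    R197.bb_H2_ne_zero hab hbc hac, R197.bb_classifying hdim, fun h => ?_⟩
  exact R197.not_asphPres (R197.bbGen Γ) (R197.bbGen_surjective hconn) (R197.bb_fp2 hconn hk)
    (R197.bb_smallFlat hcoc) (R197.asphPres_of_classifying h)

end Crest.Agent.S0300
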