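import Crest.Statements.S0309
import Crest.Agent.R202.Main

set_option autoImplicit false
open scoped ContDiff
open Crest.GeometryTopology.CoordMetric Crest.GeometryTopology.ChartCurvature
open Crest Crest.GeometryTopology

namespace Crest.Agent.S0309

/-- For all v ∈ (4/9, 1), c ∈ (1, 9v/4) and all large k some complete C^∞ Riemannian metric on ℝ³ (matrix field in standard coordinates), Euclidean near 0, has Ric ≥ 0, positive definite outside a ball, asymptotic volume ratio v, points tending to infinity where a plane containing the radial direction (taken as the position vector, as in geodesic polar coordinates about 0) has negative sectional curvature, and at least c(k+1)² independent C^∞ harmonic f with abs f ≤ C_f (1 + distance to 0)^k. -/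
theorem result
    (v : ℝ) (hv : 4 / 9 < v) (hv' : v < 1) (c : ℝ) (hc : 1 < c) (hc' : c < 9 * v / 4) :
    ∃ k₀ : ℕ, ∀ k : ℕ, k₀ ≤ k → ∃ g : MetricField 3,
      IsRiemannianOn g Set.univ ∧ IsCompleteOn g Set.univ ∧
      (∃ r : ℝ, 0 < r ∧ ∀ x : EuclideanSpace ℝ (Fin 3), ‖x‖ < r → g x = 1) ∧
      RicciNonnegOn g Set.univ ∧
      (∃ R : ℝ, ∀ x : EuclideanSpace ℝ (Fin 3), R < ‖x‖ →
        ∀ w : EuclideanSpace ℝ (Fin 3), w ≠ 0 → 0 < ∑ i, ∑ j, ricci g x i j * w i * w j) ∧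
      HasAsymptoticVolumeRatio g v ∧
      (∃ p : ℕ → EuclideanSpace ℝ (Fin 3), Filter.Tendsto (fun j => ‖p j‖) Filter.atTop Filter.atTop ∧
        ∀ j, ∃ w : EuclideanSpace ℝ (Fin 3),
          0 < gramDet g (p j) (p j) w ∧ secNumer g (p j) (p j) w < 0) ∧
      ∃ m : ℕ, c * ((k : ℝ) + 1) ^ 2 ≤ m ∧ ∃ f : Fin m → EuclideanSpace ℝ (Fin 3) → ℝ,
        LinearIndependent ℝ f ∧ ∀ i, IsHarmonicOn g Set.univ (f i) ∧
          ∃ C : ℝ, ∀ x, abs (f i x) ≤ C * (1 + riemDist g Set.univ 0 x) ^ k := by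
  have hv0 : 0 < v := by linarith
  have hs : 0 < √v := Real.sqrt_pos.2 hv0
  obtain ⟨p₀, hp⟩ := R202.main (n := 3) (Or.inl rfl) hs (by rw [Real.sqrt_lt' one_pos]; linarith)
  obtain ⟨k₀, hk⟩ := R202.num3 hv0 hc hc' p₀
  refine ⟨k₀, fun k h => ?_⟩
  obtain ⟨N, h1, h2, h3⟩ := hk k h
  obtain ⟨g, a1, a2, a3, a4, a5, a6, a7, a8⟩ := hp N k h1 h3
  rw [show (3 - 1 : ℕ) = 2 from rfl, Real.sq_sqrt hv0.le] at a6
  exact ⟨g, a1, a2, a3, a4, a5, a6, a7, N, h2, a8⟩

end Crest.Agent.S0309
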