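import Crest.Statements.S0317
import Crest.Agent.R206.ZEnd

set_option autoImplicit false
open MeasureTheory Crest.GeometryTopology.GraphMetric
open Crest Crest.GeometryTopology Crest.GeometryTopology.GraphMetric

namespace Crest.Agent.S0317

/-- There is a universal constant `C` such that for every finite connected planar graph `G` (planar: it has a drawing in the plane with vertices at distinct points and edges as simple arcs meeting only at common endpoints) and every assignment of positive real lengths to its edges, the shortest-path metric of `G` embeds into a real `L¹(μ)` space with distortion at most `C`: some map `f` satisfies `d(x,y) ≤ ‖f x - f y‖ ≤ C d(x,y)` for all vertices. -/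
theorem result :
    ∃ C : ℝ, ∀ (V : Type) [Fintype V] (G : SimpleGraph V), G.Connected → IsPlanar G →
      ∀ ℓ : Sym2 V → ℝ, (∀ e ∈ G.edgeSet, 0 < ℓ e) →
        ∃ (Ω : Type) (_ : MeasurableSpace Ω) (μ : Measure Ω) (f : V → Lp ℝ 1 μ),
          ∀ x y : V, wdist G ℓ x y ≤ ‖f x - f y‖ ∧ ‖f x - f y‖ ≤ C * wdist G ℓ x y := by
  exact R206.planar_of' R206.psStmt R206.zend_stmt

end Crest.Agent.S0317
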