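import Crest.Statements.S0318
import Crest.Agent.R206.TFin
import Crest.Agent.R206.TTd

set_option autoImplicit false
open MeasureTheory Crest.GeometryTopology.GraphMetric
open Crest Crest.GeometryTopology Crest.GeometryTopology.GraphMetric

namespace Crest.Agent.S0318

/-- For every `k ≥ 2` there is a constant `C_k` such that for every finite connected graph `G` admitting a tree decomposition whose bags have at most `k` vertices, and every assignment of positive real lengths to its edges, the shortest-path metric of `G` embeds into a real `L¹(μ)` space with distortion at most `C_k`: some map `f` satisfies `d(x,y) ≤ ‖f x - f y‖ ≤ C_k d(x,y)` for all vertices. -/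
theorem result :
    ∀ k : ℕ, 2 ≤ k → ∃ C : ℝ, ∀ (V : Type) [Fintype V] (G : SimpleGraph V), G.Connected →
      HasTreeDecompWithBags G k →
      ∀ ℓ : Sym2 V → ℝ, (∀ e ∈ G.edgeSet, 0 < ℓ e) →
        ∃ (Ω : Type) (_ : MeasurableSpace Ω) (μ : Measure Ω) (f : V → Lp ℝ 1 μ),
          ∀ x y : V, wdist G ℓ x y ≤ ‖f x - f y‖ ∧ ‖f x - f y‖ ≤ C * wdist G ℓ x y := by
  intro k _
  obtain ⟨C, hC, h⟩ := R206.exists_law k
  refine ⟨C, fun V _ G hG hT ℓ hℓ => ?_⟩
  classical
  obtain ⟨T, hd⟩ := R206.exists_et hG hT hℓ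
  obtain ⟨P, hP, hxy⟩ := h V T
  obtain ⟨Ω, mΩ, μ, f, hf⟩ := R206.l1_of_law P hP hC.le
  refine ⟨Ω, mΩ, μ, f, fun x y => ?_⟩
  rw [hf, ← hd]
  exact ⟨(hxy x y).1, mul_le_mul_of_nonneg_left (hxy x y).2 hC.le⟩

end Crest.Agent.S0318
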