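import Crest.Statements.S0323
import Crest.Agent.R210.Num

set_option autoImplicit false
open Crest.GeometryTopology.EditDistance
open Crest Crest.GeometryTopology Crest.GeometryTopology.EditDistance

namespace Crest.Agent.S0323

/-- There are constants `c > 0` and `d₀` such that for every `d ≥ d₀` some length `n ≤ d` has the following property: any map `f` from binary words into real `ℓ¹` that, after a common rescaling `s > 0`, satisfies `s · ed(x,y) ≤ ‖f x - f y‖ ≤ D · s · ed(x,y)` for all distinct binary words `x`, `y` of length exactly `n`, has `D ≥ exp (c √(log d · log log d))`. Here `ed` is unit-cost edit distance (insertions, deletions, substitutions, intermediate words of any length). -/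
theorem result :
    ∃ c : ℝ, 0 < c ∧ ∃ d₀ : ℕ, ∀ d : ℕ, d₀ ≤ d → ∃ n : ℕ, n ≤ d ∧
      ∀ (f : List Bool → lp (fun _ : ℕ => ℝ) 1) (s D : ℝ), 0 < s →
        (∀ x y : List Bool, x.length = n → y.length = n → x ≠ y →
          s * (editDist x y : ℝ) ≤ ‖f x - f y‖ ∧ ‖f x - f y‖ ≤ D * s * (editDist x y : ℝ)) →
        Real.exp (c * Real.sqrt (Real.log d * Real.log (Real.log d))) ≤ D := by
  obtain ⟨r₀, hr₀⟩ : ∃ r₀ : ℕ, 300 ≤ r₀ := ⟨300, le_rfl⟩
  refine ⟨1 / 2800, by norm_num, r₀ ^ (76 * r₀ ^ 8), fun d hd => ?_⟩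
  obtain ⟨r, h0, h1, h2⟩ := R210.exists_param r₀ d (by omega) hd
  have hr : 300 ≤ r := hr₀.trans h0
  obtain ⟨N, hN, H⟩ := R210.param_bound r hr
  refine ⟨N, hN.trans h1, fun f s D hs hf => ?_⟩
  obtain ⟨D0, hD⟩ := H f s D hs hf
  have r1 : 0 < r := Nat.lt_of_lt_of_le (by norm_num) hr
  have hrd : r ≤ d :=
    (Nat.le_self_pow (Nat.mul_pos (by norm_num) (pow_pos r1 8)).ne' r).trans h1
  have hl := R210.log_bound r d hr hrd h2
  have r0 : (0 : ℝ) < r := Nat.cast_pos.2 r1
  refine le_of_pow_le_pow_left₀ (n := 4) (by norm_num) D0 (le_trans ?_ hD)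
  rw [← Real.exp_nat_mul, ← Real.exp_log (pow_pos r0 (r ^ 4)), Real.log_pow, Real.exp_le_exp]
  push_cast
  linarith

end Crest.Agent.S0323
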