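import Crest.Statements.S0327
import Crest.Agent.R211.Para

set_option autoImplicit false
open MeasureTheory
open scoped ENNReal
open Crest Crest.GeometryTopology Crest.GeometryTopology.Convex

namespace Crest.Agent.S0327

/-- Let K ⊂ ℝ³ be a regular tetrahedron (convex hull of four points with equal pairwise distances ℓ > 0); areas are Lebesgue-normalised 2-dimensional Hausdorff measure, π_v y = y − ⟪y, v⟫ v. (1) Finitely many cylinders Bᵢ + ℝ uᵢ, ‖uᵢ‖ = 1, with parallelogram bases Bᵢ = cᵢ + [0,1]aᵢ + [0,1]bᵢ in uᵢ^⊥ cover K, ∑ᵢ area(Bᵢ) being below half of area(π_v K) by a positive margin for all unit v, and ∑ᵢ area(Bᵢ)/area(π_{uᵢ} K) < 1/2. (2) The same with bounded relatively open subsets of the uᵢ^⊥ as bases. -/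
theorem result
    (w : Fin 4 → EuclideanSpace ℝ (Fin 3)) (ℓ : ℝ) (hℓ : 0 < ℓ)
    (hw : ∀ i j, i ≠ j → dist (w i) (w j) = ℓ) :
    (∃ (k : ℕ) (u c a b : Fin k → EuclideanSpace ℝ (Fin 3)),
      (∀ i, ‖u i‖ = 1) ∧
      (∀ i, inner ℝ (c i) (u i) = 0 ∧ inner ℝ (a i) (u i) = 0 ∧ inner ℝ (b i) (u i) = 0) ∧
      convexHull ℝ (Set.range w) ⊆ ⋃ i, {x : EuclideanSpace ℝ (Fin 3) |
        ∃ s ∈ Set.Icc (0 : ℝ) 1, ∃ t ∈ Set.Icc (0 : ℝ) 1, ∃ τ : ℝ, x = c i + s • a i + t • b i + τ • u i} ∧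
      (∃ δ : ℝ, 0 < δ ∧ ∀ v : EuclideanSpace ℝ (Fin 3), ‖v‖ = 1 →
        (∑ i, (μHE[2] {x : EuclideanSpace ℝ (Fin 3) |
            ∃ s ∈ Set.Icc (0 : ℝ) 1, ∃ t ∈ Set.Icc (0 : ℝ) 1, x = c i + s • a i + t • b i}).toReal) + δ ≤
          (μHE[2] ((fun y => y - inner ℝ y v • v) '' convexHull ℝ (Set.range w))).toReal / 2) ∧
      ∑ i, (μHE[2] {x : EuclideanSpace ℝ (Fin 3) |
            ∃ s ∈ Set.Icc (0 : ℝ) 1, ∃ t ∈ Set.Icc (0 : ℝ) 1, x = c i + s • a i + t • b i}).toReal /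
          (μHE[2] ((fun y => y - inner ℝ y (u i) • u i) '' convexHull ℝ (Set.range w))).toReal < 1 / 2) ∧
    (∃ (k : ℕ) (u : Fin k → EuclideanSpace ℝ (Fin 3)) (B : Fin k → Set (EuclideanSpace ℝ (Fin 3))),
      (∀ i, ‖u i‖ = 1) ∧
      (∀ i, Bornology.IsBounded (B i) ∧ ∃ O : Set (EuclideanSpace ℝ (Fin 3)), IsOpen O ∧
        B i = O ∩ {x | inner ℝ x (u i) = 0}) ∧
      convexHull ℝ (Set.range w) ⊆
        ⋃ i, {x : EuclideanSpace ℝ (Fin 3) | ∃ y ∈ B i, ∃ τ : ℝ, x = y + τ • u i} ∧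
      (∃ δ : ℝ, 0 < δ ∧ ∀ v : EuclideanSpace ℝ (Fin 3), ‖v‖ = 1 →
        (∑ i, (μHE[2] (B i)).toReal) + δ ≤
          (μHE[2] ((fun y => y - inner ℝ y v • v) '' convexHull ℝ (Set.range w))).toReal / 2) ∧
      ∑ i, (μHE[2] (B i)).toReal /
          (μHE[2] ((fun y => y - inner ℝ y (u i) • u i) '' convexHull ℝ (Set.range w))).toReal < 1 / 2) := by
  obtain ⟨o, f₁, f₂, f₃, hF, h0, h1, h2, h3⟩ := R211.exists_frame w ℓ hw
  have hl : 0 < ℓ / 2 := by positivity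
  have hT : ∀ p ∈ Set.range w, p = o + f₁ ∨ p = o - f₁ ∨ p = o + f₂ + f₃ ∨ p = o - f₂ + f₃ := by
    rintro _ ⟨i, rfl⟩
    rw [← h0, ← h1, ← h2, ← h3]
    fin_cases i <;> simp
  have hbd : Bornology.IsBounded (convexHull ℝ (Set.range w)) := by
    rw [isBounded_convexHull]
    exact (Set.finite_range w).isBounded
  have hmem : ∀ i, w i ∈ convexHull ℝ (Set.range w) := fun i =>
    subset_convexHull ℝ _ (Set.mem_range_self i)
  set m : ℝ := Real.sqrt 2 * (ℓ / 2) ^ 2 with hm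
  have hm0 : 0 < m := by positivity
  have hP : ∀ v : EuclideanSpace ℝ (Fin 3), ‖v‖ = 1 →
      m ≤ (μHE[2] ((fun y => y - inner ℝ y v • v) '' convexHull ℝ (Set.range w))).toReal := by
    intro v hv
    rw [R211.proj_eq_fun hv]
    exact R211.frame_proj_lower hl hF (convex_convexHull ℝ _) hbd (h0 ▸ hmem 0) (h1 ▸ hmem 1)
      (h2 ▸ hmem 2) (h3 ▸ hmem 3) hv
  obtain ⟨n, u, p, q, r, -, hu, ho, hc, ha⟩ := R211.frame_cover hl hF hT
  constructor
  · obtain ⟨M, hM, hM'⟩ : ∃ M : ℕ, 0 < M ∧ (M : ℝ) = 10 ^ 9 := ⟨10 ^ 9, by norm_num, by norm_num⟩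
    obtain ⟨k, u', c, a, b, hu', ho', hc', ha'⟩ := R211.para_cover u p q r hu ho hc hM
    refine ⟨k, u', c, a, b, hu', ho', hc', ?_⟩
    simp only [R211.area_para]
    refine R211.finish_bounds (fun i => R211.gram (a i) (b i)) (fun i => R211.gram_nonneg _ _) u' hu'
      (fun v => (μHE[2] ((fun y => y - inner ℝ y v • v) '' convexHull ℝ (Set.range w))).toReal)
      hm0 (θ := (1 + 1 / 10 ^ 9) * (1 / 2 - 1 / 10 ^ 9)) (by norm_num) hP ?_
    rw [ha', hM', mul_left_comm]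
    exact mul_le_mul_of_nonneg_left ha (by norm_num)
  · obtain ⟨k, u', B, hu', hB, hc', ha'⟩ := R211.open_cover u
      (fun i => convexHull ℝ ({p i, q i, r i} : Set (EuclideanSpace ℝ (Fin 3)))) hu
      (fun i => (Set.toFinite _).isCompact_convexHull ℝ)
      (fun i x hx => by
        obtain ⟨h1, h2, h3⟩ := ho i
        rw [R211.convexHull_three] at hx
        obtain ⟨z, -, rfl⟩ := hx
        simp only [R211.par, inner_add_left, real_inner_smul_left, inner_sub_left, h1, h2, h3,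
          sub_zero, mul_zero, add_zero])
      hc (η := m * (1 / (2 * 10 ^ 9))) (by positivity)
    refine ⟨k, u', B, hu', hB, hc', ?_⟩
    refine R211.finish_bounds (fun i => (μHE[2] (B i)).toReal) (fun i => ENNReal.toReal_nonneg)
      u' hu'
      (fun v => (μHE[2] ((fun y => y - inner ℝ y v • v) '' convexHull ℝ (Set.range w))).toReal)
      hm0 (θ := (1 / 2 - 1 / 10 ^ 9) + 1 / (2 * 10 ^ 9)) (by norm_num) hP ?_
    refine ha'.trans ?_
    rw [mul_add]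
    exact add_le_add ha le_rfl

end Crest.Agent.S0327
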