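import Crest.Statements.S0328
import Crest.Agent.R211.Sweep

set_option autoImplicit false
open MeasureTheory
open scoped ENNReal
open Crest Crest.GeometryTopology Crest.GeometryTopology.Convex

namespace Crest.Agent.S0328

/-- Unit e; a, b, p₀ ∈ e^⊥, a, b independent; α < β; L > 0; R ≥ 0, λ both continuous on [α, β]; w(t) ∈ e^⊥, w′ = λ(t)(a + tb). S = {p₀ + ρ(a + t b) + s(e + w t) : α ≤ t ≤ β, 0 ≤ ρ ≤ R t, ‖s‖ ≤ L}; A = κ ∫_α^β R²/(2√(1 + ‖w‖²)), κ = area spanned by a, b. For η > 0 a δ > 0 makes each partition t₀ < … < t_N of [α, β] of mesh ≤ δ, tags cᵢ, admit N cylinders (axes e + w(cᵢ), nondegenerate triangle bases) covering S, total area within η of A; same for S's pieces tᵢ ≤ t ≤ tᵢ₊₁ projected along these axes. -/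
theorem result
    (e a b p₀ : EuclideanSpace ℝ (Fin 3)) (he : ‖e‖ = 1)
    (ha : inner ℝ a e = 0) (hb : inner ℝ b e = 0) (hp₀ : inner ℝ p₀ e = 0)
    (hab : LinearIndependent ℝ ![a, b]) (L : ℝ) (hL : 0 < L) (α β : ℝ) (hαβ : α < β)
    (R : ℝ → ℝ) (hR : ContinuousOn R (Set.Icc α β)) (hR0 : ∀ t ∈ Set.Icc α β, 0 ≤ R t)
    (w : ℝ → EuclideanSpace ℝ (Fin 3)) (hw : ∀ t ∈ Set.Icc α β, inner ℝ (w t) e = 0)
    (lam : ℝ → ℝ) (hlam : ContinuousOn lam (Set.Icc α β))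
    (hw' : ∀ t ∈ Set.Icc α β, HasDerivWithinAt w (lam t • (a + t • b)) (Set.Icc α β) t)
    (η : ℝ) (hη : 0 < η) :
    ∃ δ : ℝ, 0 < δ ∧ ∀ (N : ℕ) (t : Fin (N + 1) → ℝ) (c : Fin N → ℝ),
      StrictMono t → t 0 = α → t (Fin.last N) = β →
      (∀ i : Fin N, t i.succ - t i.castSucc ≤ δ) →
      (∀ i : Fin N, t i.castSucc ≤ c i ∧ c i ≤ t i.succ) →
      (∃ (p q r : Fin N → EuclideanSpace ℝ (Fin 3)),
        (∀ i, inner ℝ (p i) (e + w (c i)) = 0 ∧ inner ℝ (q i) (e + w (c i)) = 0 ∧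
          inner ℝ (r i) (e + w (c i)) = 0) ∧
        (∀ i, AffineIndependent ℝ ![p i, q i, r i]) ∧
        {x : EuclideanSpace ℝ (Fin 3) | ∃ τ ∈ Set.Icc α β, ∃ ρ ∈ Set.Icc 0 (R τ), ∃ s : ℝ, abs s ≤ L ∧
            x = p₀ + ρ • (a + τ • b) + s • (e + w τ)} ⊆
          ⋃ i, {x : EuclideanSpace ℝ (Fin 3) | ∃ y ∈ convexHull ℝ {p i, q i, r i}, ∃ σ : ℝ,
            x = y + σ • (e + w (c i))} ∧
        abs ((∑ i, (μHE[2] (convexHull ℝ ({p i, q i, r i} : Set (EuclideanSpace ℝ (Fin 3))))).toReal) -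
            Real.sqrt (‖a‖ ^ 2 * ‖b‖ ^ 2 - inner ℝ a b ^ 2) *
              ∫ τ in α..β, R τ ^ 2 / (2 * Real.sqrt (1 + ‖w τ‖ ^ 2))) ≤ η) ∧
      abs ((∑ i : Fin N, (μHE[2] ((fun y => y - (inner ℝ y (e + w (c i)) / ‖e + w (c i)‖ ^ 2) • (e + w (c i))) ''
            {x : EuclideanSpace ℝ (Fin 3) | ∃ τ ∈ Set.Icc (t i.castSucc) (t i.succ), ∃ ρ ∈ Set.Icc 0 (R τ),
              ∃ s : ℝ, abs s ≤ L ∧ x = p₀ + ρ • (a + τ • b) + s • (e + w τ)})).toReal) -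
          Real.sqrt (‖a‖ ^ 2 * ‖b‖ ^ 2 - inner ℝ a b ^ 2) *
            ∫ τ in α..β, R τ ^ 2 / (2 * Real.sqrt (1 + ‖w τ‖ ^ 2))) ≤ η := by
  have hκ0 : 0 < R211.gram a b := R211.gram_pos hab
  change ∃ δ : ℝ, 0 < δ ∧ ∀ (N : ℕ) (t : Fin (N + 1) → ℝ) (c : Fin N → ℝ),
      StrictMono t → t 0 = α → t (Fin.last N) = β →
      (∀ i : Fin N, t i.succ - t i.castSucc ≤ δ) →
      (∀ i : Fin N, t i.castSucc ≤ c i ∧ c i ≤ t i.succ) →
      (∃ (p q r : Fin N → EuclideanSpace ℝ (Fin 3)),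
        (∀ i, inner ℝ (p i) (e + w (c i)) = 0 ∧ inner ℝ (q i) (e + w (c i)) = 0 ∧
          inner ℝ (r i) (e + w (c i)) = 0) ∧
        (∀ i, AffineIndependent ℝ ![p i, q i, r i]) ∧
        R211.piece e a b p₀ L R w α β ⊆ ⋃ i, R211.cyl (e + w (c i)) (p i) (q i) (r i) ∧
        abs ((∑ i, R211.triArea (p i) (q i) (r i)) -
            R211.gram a b * ∫ τ in α..β, R τ ^ 2 / (2 * Real.sqrt (1 + ‖w τ‖ ^ 2))) ≤ η) ∧
      abs ((∑ i : Fin N, (μHE[2] (R211.proj (e + w (c i)) ''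
            R211.piece e a b p₀ L R w (t i.castSucc) (t i.succ))).toReal) -
          R211.gram a b * ∫ τ in α..β, R τ ^ 2 / (2 * Real.sqrt (1 + ‖w τ‖ ^ 2))) ≤ η
  set κ := R211.gram a b with hκ
  set f : ℝ → ℝ := fun τ => R τ ^ 2 / (2 * Real.sqrt (1 + ‖w τ‖ ^ 2)) with hf_def
  have hwc : ContinuousOn w (Set.Icc α β) := fun x hx => (hw' x hx).continuousWithinAt
  have hf : ContinuousOn f (Set.Icc α β) := by
    refine ContinuousOn.div (hR.pow 2) (continuousOn_const.mul ?_) (fun x _ => by positivity)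
    exact (continuousOn_const.add (hwc.norm.pow 2)).sqrt
  obtain ⟨M, hM⟩ := isCompact_Icc.exists_bound_of_continuousOn hlam
  obtain ⟨Rm, hRm⟩ := isCompact_Icc.exists_bound_of_continuousOn hR
  have hαm : α ∈ Set.Icc α β := Set.left_mem_Icc.2 hαβ.le
  have hM0 : 0 ≤ M := (norm_nonneg _).trans (hM α hαm)
  have hRm0 : 0 ≤ Rm := (norm_nonneg _).trans (hRm α hαm)
  have hβα : 0 < β - α := by linarith
  set θ := min 1 (η / (κ * (β - α) * (Rm + 2))) with hθ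
  have hθ0 : 0 < θ := lt_min one_pos (by positivity)
  have hθ1 : θ ≤ 1 := min_le_left _ _
  have hθη : κ * ((β - α) * (θ * (Rm + 1) + θ)) ≤ η := by
    have h1 : θ ≤ η / (κ * (β - α) * (Rm + 2)) := min_le_right _ _
    rw [le_div_iff₀ (by positivity)] at h1
    linarith
  obtain ⟨δ₁, hδ₁, h₁⟩ := Metric.uniformContinuousOn_iff_le.1
    (isCompact_Icc.uniformContinuousOn_of_continuous hR) (θ / 2) (by positivity)
  obtain ⟨δ₂, hδ₂, h₂⟩ := Metric.uniformContinuousOn_iff_le.1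
    (isCompact_Icc.uniformContinuousOn_of_continuous hf) θ hθ0
  refine ⟨min (min δ₁ δ₂) (θ / 2 / (3 * (L * M) + 1)), lt_min (lt_min hδ₁ hδ₂) (by positivity), ?_⟩
  intro N t c ht h0 hN hmesh hc
  have hmem : ∀ j, t j ∈ Set.Icc α β := fun j =>
    ⟨h0 ▸ ht.monotone (Fin.zero_le j), hN ▸ ht.monotone (Fin.le_last j)⟩
  have hsub : ∀ i : Fin N, Set.Icc (t i.castSucc) (t i.succ) ⊆ Set.Icc α β := fun i =>
    Set.Icc_subset_Icc (hmem _).1 (hmem _).2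
  have hdist : ∀ i : Fin N, ∀ τ ∈ Set.Icc (t i.castSucc) (t i.succ),
      dist τ (c i) ≤ min δ₁ δ₂ := by
    intro i τ hτ
    refine le_trans ?_ ((hmesh i).trans (min_le_left _ _))
    rw [Real.dist_eq, abs_le]
    constructor <;> linarith [hτ.1, hτ.2, (hc i).1, (hc i).2]
  have hfθ : ∀ i : Fin N, ∀ τ ∈ Set.Icc (t i.castSucc) (t i.succ), |f τ - f (c i)| ≤ θ :=
    fun i τ hτ => h₂ τ (hsub i hτ) (c i) (hsub i (hc i)) ((hdist i τ hτ).trans (min_le_right _ _))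
  choose p q r hpqr using fun i : Fin N => R211.piece_estimate (p₀ := p₀) he ha hb hab hL hR0 hw
    hlam hw' hM (Rm := Rm) (fun x hx => (le_abs_self _).trans (hRm x hx)) (hmem i.castSucc).1
    (ht Fin.castSucc_lt_succ) (hmem i.succ).2 (hc i) hθ0 hθ1
    (fun τ hτ => h₁ τ (hsub i hτ) (c i) (hsub i (hc i)) ((hdist i τ hτ).trans (min_le_left _ _)))
    (by
      have h1 := (hmesh i).trans (min_le_right _ _)
      rw [le_div_iff₀ (by positivity)] at h1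
      have h2 : 0 ≤ t i.succ - t i.castSucc := sub_nonneg.2 (ht Fin.castSucc_lt_succ).le
      nlinarith)
  refine ⟨⟨p, q, r, fun i => (hpqr i).1, fun i => (hpqr i).2.1, ?_, ?_⟩, ?_⟩
  · rintro x ⟨τ, hτ, hx⟩
    obtain ⟨i, hi⟩ := R211.exists_piece (t := t) (τ := τ) (by rw [h0, hN]; exact hαβ)
      (h0 ▸ hτ.1) (hN ▸ hτ.2)
    exact Set.mem_iUnion.2 ⟨i, (hpqr i).2.2.1 ⟨τ, hi, hx⟩⟩
  · exact (R211.sum_estimate hf ht h0 hN hκ0.le hfθ _ (fun i => (hpqr i).2.2.2.1)).trans hθη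
  · exact (R211.sum_estimate hf ht h0 hN hκ0.le hfθ _ (fun i => (hpqr i).2.2.2.2)).trans hθη

end Crest.Agent.S0328
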