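import Crest.Statements.S0334
import Crest.Agent.R215.Final

set_option autoImplicit false
open MeasureTheory ProbabilityTheory
universe u v
open Crest Crest.GeometryTopology

namespace Crest.Agent.S0334

/-- In a finite-dimensional real inner product space carrying its standard Gaussian probability measure, for every finite family of measurable cells that are pairwise disjoint and cover the space, the sum over the cells of the squared norm of the cell's Gaussian first moment (the integral of the identity map over the cell) is at most `9 / (8 π)`. Empty cells are allowed. -/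
theorem result
    (E : Type u) [NormedAddCommGroup E] [InnerProductSpace ℝ E] [FiniteDimensional ℝ E]
    [MeasurableSpace E] [BorelSpace E]
    (ι : Type v) [Fintype ι] (A : ι → Set E)
    (hA : ∀ i, MeasurableSet (A i))
    (hdisj : Pairwise fun i j => Disjoint (A i) (A j))
    (hcov : ⋃ i, A i = Set.univ) :
    ∑ i, ‖∫ x in A i, x ∂stdGaussian E‖ ^ 2 ≤ 9 / (8 * Real.pi) := by
  classical
  set ζ : ι → E := fun i => ∫ x in A i, x ∂stdGaussian E with hζ
  let e : ι ≃ Fin (Fintype.card ι) := Fintype.equivFin ι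
  let w : Fin (Fintype.card ι + 3) → E := Fin.append (fun l => ζ (e.symm l)) (fun _ => 0)
  have hw : ∑ l, ‖w l‖ ^ 2 = ∑ i, ‖ζ i‖ ^ 2 := by
    rw [Fin.sum_univ_add]
    simp only [w, Fin.append_left, Fin.append_right, norm_zero]
    rw [Equiv.sum_comp e.symm fun i => ‖ζ i‖ ^ 2]
    simp
  have hu : ∀ᵐ x ∂stdGaussian E, ∃! i, x ∈ A i := by
    refine Filter.Eventually.of_forall fun x => ?_
    have hx : x ∈ ⋃ i, A i := hcov ▸ Set.mem_univ x
    obtain ⟨i, hi⟩ := Set.mem_iUnion.1 hx
    refine ⟨i, hi, fun j hj => ?_⟩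
    by_contra hji
    exact Set.disjoint_left.1 (hdisj hji) hj hi
  have h1 := R215.sum_inner_setIntegral_le hA hu ζ (R215.integrable_gmax w) (fun i x => by
    have := R215.le_gmax w x (Fin.castAdd 3 (e i))
    simpa only [w, Fin.append_left, Equiv.symm_apply_apply] using this)
  have h2 := R215.claim_all E (Fintype.card ι) w
  rw [hw] at h2
  have h3 : ∑ i, ‖ζ i‖ ^ 2 ≤ R215.lam0 * √(∑ i, ‖ζ i‖ ^ 2) := by
    refine le_trans (le_of_eq ?_) (h1.trans h2)
    exact Finset.sum_congr rfl fun i _ => (real_inner_self_eq_norm_sq _).symm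
  have h0 : 0 ≤ ∑ i, ‖ζ i‖ ^ 2 := Finset.sum_nonneg fun i _ => sq_nonneg _
  rw [← R215.lam0_sq]
  have h4 := Real.sq_sqrt h0
  nlinarith [sq_nonneg (√(∑ i, ‖ζ i‖ ^ 2) - R215.lam0)]

end Crest.Agent.S0334
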