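import Crest.Statements.S0336
import Crest.Agent.R217.Global
import Crest.Agent.R217.Model
import Crest.Agent.R217.NSSLie

set_option autoImplicit false
open scoped Manifold ContDiff
open Crest Crest.GeometryTopology

namespace Crest.Agent.S0336

/-- Let n ≥ 1. If a locally compact, second-countable, Hausdorff topological group acts faithfully and jointly continuously on a connected, second-countable, Hausdorff topological n-manifold without boundary (a space with an atlas of charts into ℝⁿ), then the group, with its given topology, admits an atlas of charts into some ℝᵈ for which it is a smooth Lie group. -/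
theorem result
    (n : ℕ) (hn : 1 ≤ n)
    (M : Type*) [TopologicalSpace M] [T2Space M] [SecondCountableTopology M] [ConnectedSpace M]
    [ChartedSpace (EuclideanSpace ℝ (Fin n)) M]
    (G : Type*) [Group G] [TopologicalSpace G] [IsTopologicalGroup G] [T2Space G]
    [SecondCountableTopology G] [LocallyCompactSpace G]
    [MulAction G M] [ContinuousSMul G M] [FaithfulSMul G M] :
    ∃ (d : ℕ) (c : ChartedSpace (EuclideanSpace ℝ (Fin d)) G),
      @LieGroup ℝ _ (EuclideanSpace ℝ (Fin d)) _ (EuclideanSpace ℝ (Fin d)) _ _
        𝓘(ℝ, EuclideanSpace ℝ (Fin d)) ∞ G _ _ c :=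
  by
  apply Crest.Agent.R217.lie_of_nss
  let F := EuclideanSpace ℝ (Fin (n + 1))
  let X := EuclideanSpace ℝ (Fin (2 * n + 1))
  have hX : Crest.Agent.R217.HasModel X :=
    Crest.Agent.R217.hasModel_of_odd n X (by simp [X])
  let φ : (EuclideanSpace ℝ (Fin n) × F) ≃L[ℝ] X :=
    ContinuousLinearEquiv.ofFinrankEq (by simp [X, F]; ring)
  have hM : ∀ x : M × F, ∃ e : OpenPartialHomeomorph (M × F) X, x ∈ e.source := fun x =>
    ⟨((chartAt (EuclideanSpace ℝ (Fin n)) x.1).prod (OpenPartialHomeomorph.refl F)).trans
      φ.toHomeomorph.toOpenPartialHomeomorph, by simp⟩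
  obtain ⟨U, hU, hsmall⟩ := Crest.Agent.R217.no_small (G := G) hX hM
    (fun g x => (g • x.1, x.2)) (by fun_prop) (by simp) (by simp [mul_smul])
    (fun g hg => FaithfulSMul.eq_of_smul_eq_smul (α := M) fun x => by
      simpa using congrArg Prod.fst (hg (x, 0)))
  obtain ⟨C, hC, hCU, hCc⟩ := local_compact_nhds hU
  refine ⟨C, hC, fun H hH => ?_⟩
  have hcl : (H.topologicalClosure : Set G) ⊆ C := closure_minimal hH hCc.isClosed
  have := hsmall H.topologicalClosure
    (hCc.of_isClosed_subset (Subgroup.isClosed_topologicalClosure H) hcl) (hcl.trans hCU)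
  exact le_bot_iff.1 (this ▸ H.le_topologicalClosure)

end Crest.Agent.S0336
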