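import Crest.Statements.S0348
import Crest.Agent.R225.LFinal

set_option autoImplicit false
open MeasureTheory Filter
open scoped ENNReal
open Crest Crest.GeometryTopology Crest.GeometryTopology.Covering

namespace Crest.Agent.S0348

/-- There are constants `c > 0` and `n₀` such that for every `n ≥ n₀` some centrally symmetric convex body `K` in `ℝ^n` has translative covering density at least `c n log n`: for every locally finite set `X` of translation vectors with `K + X = ℝ^n`, the product of `vol(K)` with the upper limit, as `R → ∞`, of the number of points of `X` in the cube `[-R, R]^n` divided by `(2R)^n` is at least `c n log n`. -/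
theorem result :
    ∃ c : ℝ, 0 < c ∧ ∃ n₀ : ℕ, ∀ n : ℕ, n₀ ≤ n →
      ∃ K : Set (Fin n → ℝ), IsCompact K ∧ Convex ℝ K ∧ (interior K).Nonempty ∧
        (∀ x ∈ K, -x ∈ K) ∧
        ∀ X : Set (Fin n → ℝ), (∀ R : ℝ, (X ∩ {x | ∀ i, |x i| ≤ R}).Finite) →
          (∀ y : Fin n → ℝ, ∃ x ∈ X, y - x ∈ K) →
          ENNReal.ofReal (c * n * Real.log n) ≤
            volume K * limsup (fun R : ℝ => ((X ∩ {x | ∀ i, |x i| ≤ R}).ncard : ℝ≥0∞) /
              ENNReal.ofReal ((2 * R) ^ n)) atTop := by
  obtain ⟨n₀, hn₀⟩ := eventually_atTop.1 R225.eventually_params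
  refine ⟨1 / (128 * (1600 * (10 + 4000 ^ 2))), by positivity, n₀, fun n hn => ?_⟩
  obtain ⟨hL, hLa⟩ := hn₀ n hn
  obtain ⟨K, hKc, hKconv, hKint, hKsym, hKvol, hK⟩ := R225.exists_body hL hLa
  let e : (Fin n → ℝ) ≃L[ℝ] R225.EE n := (EuclideanSpace.equiv (Fin n) ℝ).symm
  have he : ∀ (x : Fin n → ℝ) (i : Fin n), e x i = x i := fun x i => rfl
  have hvol : volume (e ⁻¹' K) = volume K :=
    (PiLp.volume_preserving_toLp (Fin n)).measure_preimage
      hKc.isClosed.measurableSet.nullMeasurableSet
  refine ⟨e ⁻¹' K, e.toHomeomorph.isCompact_preimage.2 hKc,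
    hKconv.linear_preimage e.toLinearEquiv.toLinearMap, ?_, ?_, fun X hfin hcov => ?_⟩
  · obtain ⟨x, hx⟩ := hKint
    refine ⟨e.symm x, ?_⟩
    have := e.toHomeomorph.preimage_interior K
    change e ⁻¹' interior K = interior (e ⁻¹' K) at this
    rw [← this]
    simpa using hx
  · intro x hx
    change e (-x) ∈ K
    rw [map_neg]
    exact hKsym _ hx
  · have himg : ∀ R : ℝ, e '' X ∩ R225.cube n R = e '' (X ∩ {x | ∀ i, |x i| ≤ R}) := by
      intro R
      ext z
      constructor
      · rintro ⟨⟨x, hx, rfl⟩, hz⟩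
        exact ⟨x, ⟨hx, hz⟩, rfl⟩
      · rintro ⟨x, ⟨hx, hz⟩, rfl⟩
        exact ⟨⟨x, hx, rfl⟩, hz⟩
    by_contra hcon
    have hlt := not_le.1 hcon
    refine hK (e '' X) (fun R => by rw [himg]; exact (hfin R).image _) (fun y => ?_) ?_
    · obtain ⟨x, hx, hxy⟩ := hcov (e.symm y)
      refine ⟨e x, ⟨x, hx, rfl⟩, ?_⟩
      have : e (e.symm y - x) ∈ K := hxy
      simpa using this
    · rw [hvol] at hlt
      have hV0 : 0 < (volume (Metric.closedBall (0 : R225.EE n) 1)).toReal :=
        ENNReal.toReal_pos (Metric.measure_closedBall_pos _ _ one_pos).ne'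
          measure_closedBall_lt_top.ne
      have hK0 : 0 < (volume K).toReal := by linarith
      have hKne : volume K ≠ 0 := fun h => by rw [h] at hK0; simp at hK0
      have hKtop : volume K ≠ ⊤ := hKc.measure_lt_top.ne
      rw [mul_comm (volume K), ← ENNReal.lt_div_iff_mul_lt (Or.inl hKne) (Or.inl hKtop)] at hlt
      have hev := eventually_lt_of_limsup_lt hlt
      refine Eventually.frequently ?_
      filter_upwards [hev, eventually_gt_atTop 0] with R hR hR0
      rw [ENNReal.lt_div_iff_mul_lt (Or.inl hKne) (Or.inl hKtop)] at hR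
      have hpos : 0 < (2 * R) ^ n := by positivity
      have h2 := ENNReal.toReal_mono ENNReal.ofReal_ne_top hR.le
      rw [ENNReal.toReal_mul, ENNReal.toReal_div, ENNReal.toReal_natCast,
        ENNReal.toReal_ofReal hpos.le, ENNReal.toReal_ofReal (by positivity), div_mul_eq_mul_div,
        div_le_iff₀ hpos] at h2
      rw [himg, Set.ncard_image_of_injective _ e.injective]
      have h3 : (0 : ℝ) ≤ ((X ∩ {x | ∀ i, |x i| ≤ R}).ncard : ℝ) := Nat.cast_nonneg _
      calc _ ≤ ((X ∩ {x | ∀ i, |x i| ≤ R}).ncard : ℝ) * (128 * (volume K).toReal) :=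
            mul_le_mul_of_nonneg_left hKvol h3
        _ = 128 * (((X ∩ {x | ∀ i, |x i| ≤ R}).ncard : ℝ) * (volume K).toReal) := by ring
        _ ≤ 128 * (1 / (128 * (1600 * (10 + 4000 ^ 2))) * n * Real.log n * (2 * R) ^ n) :=
            mul_le_mul_of_nonneg_left h2 (by norm_num)
        _ = _ := by ring

end Crest.Agent.S0348
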