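import Crest.Statements.S0354
import Crest.Agent.R230.Main
import Crest.Agent.R230.Cert

set_option autoImplicit false
open MeasureTheory
open scoped ENNReal
open Crest Crest.GeometryTopology Crest.GeometryTopology.Convex

namespace Crest.Agent.S0354

/-- Let `n ≥ 4` and `K` a convex body in Euclidean `n`-space; `κ_m` is the volume of the unit `m`-ball and `ΠK` the projection body of `K`: the points `x` with `⟪x, u⟫ ≤ vol_{n-1}(P_u K)` for all unit `u`, `P_u K` the orthogonal projection of `K` on `u^⊥`, `vol_{n-1}` its `(n-1)`-dimensional volume (Hausdorff measure normalised to Lebesgue measure). Then `κ_{n-1}^n vol(K)^(n-1) ≤ vol(ΠK) κ_n^(n-2)`, with equality exactly when `K = a + T(B)`, `T` invertible linear, `B` the closed unit ball. -/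
theorem result (n : ℕ) (hn : 4 ≤ n)
    (K : Set (EuclideanSpace ℝ (Fin n))) (hK : IsCompact K) (hKc : Convex ℝ K) (hKi : (interior K).Nonempty) :
    volume (Metric.ball (0 : EuclideanSpace ℝ (Fin (n - 1))) 1) ^ n * volume K ^ (n - 1) ≤
        volume (⋂ u ∈ Metric.sphere (0 : EuclideanSpace ℝ (Fin n)) 1,
          {x : EuclideanSpace ℝ (Fin n) | inner ℝ x u ≤
            ((μHE[n - 1] : Measure (EuclideanSpace ℝ (Fin n))) ((fun y => y - inner ℝ y u • u) '' K)).toReal}) *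
          volume (Metric.ball (0 : EuclideanSpace ℝ (Fin n)) 1) ^ (n - 2) ∧
      (volume (Metric.ball (0 : EuclideanSpace ℝ (Fin (n - 1))) 1) ^ n * volume K ^ (n - 1) =
          volume (⋂ u ∈ Metric.sphere (0 : EuclideanSpace ℝ (Fin n)) 1,
          {x : EuclideanSpace ℝ (Fin n) | inner ℝ x u ≤
            ((μHE[n - 1] : Measure (EuclideanSpace ℝ (Fin n))) ((fun y => y - inner ℝ y u • u) '' K)).toReal}) *
            volume (Metric.ball (0 : EuclideanSpace ℝ (Fin n)) 1) ^ (n - 2) ↔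
        ∃ (a : EuclideanSpace ℝ (Fin n)) (T : EuclideanSpace ℝ (Fin n) ≃ₗ[ℝ] EuclideanSpace ℝ (Fin n)),
          K = (fun x => a + T x) '' Metric.closedBall 0 1) := by
  haveI : NeZero n := ⟨by omega⟩
  have hn2 : 2 ≤ n := by omega
  obtain ⟨c⟩ := R230.exists_cert hn
  obtain ⟨x₀, hx₀⟩ := hKi
  set K₀ : Set (EuclideanSpace ℝ (Fin n)) := (fun x => -x₀ + x) '' K with hK₀
  have hK₀c : IsCompact K₀ := hK.image (by fun_prop)
  have hK₀v : Convex ℝ K₀ := hKc.translate (-x₀)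
  have h0 : (0 : EuclideanSpace ℝ (Fin n)) ∈ interior K₀ := by
    have h1 := (Homeomorph.addLeft (-x₀)).image_interior K
    have h2 : K₀ = (Homeomorph.addLeft (-x₀)) '' K := rfl
    rw [h2, ← h1]
    exact ⟨x₀, hx₀, by simp⟩
  obtain ⟨γ, hγ, hKγ, -⟩ := R230.exists_gaugeFn hK₀c hK₀v h0
  have hvol : volume K₀ = volume K := by
    rw [hK₀, Set.image_add_left, measure_preimage_add]
  have hPi : R230.PiBody K₀ = R230.PiBody K := R230.piBody_translate K (-x₀)
  obtain ⟨h1, h2⟩ := R230.petty_gauge hn c hγ (hKγ ▸ ⟨0, h0⟩)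
  rw [← hKγ, hvol, hPi] at h1 h2
  change _ ≤ volume (R230.PiBody K) * _ ∧ (_ = volume (R230.PiBody K) * _ ↔ _)
  have hf1 : volume K ≠ ⊤ := hK.measure_lt_top.ne
  have hf2 : volume (R230.PiBody K) ≠ ⊤ := (R230.isCompact_piBody hn2 hK).measure_lt_top.ne
  have hf3 : volume (Metric.ball (0 : EuclideanSpace ℝ (Fin (n - 1))) 1) ≠ ⊤ :=
    measure_ball_lt_top.ne
  have hf4 : volume (Metric.ball (0 : EuclideanSpace ℝ (Fin n)) 1) ≠ ⊤ := measure_ball_lt_top.ne
  have hA : volume (Metric.ball (0 : EuclideanSpace ℝ (Fin (n - 1))) 1) ^ n * volume K ^ (n - 1) ≠ ⊤ :=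
    ENNReal.mul_ne_top (ENNReal.pow_ne_top hf3) (ENNReal.pow_ne_top hf1)
  have hB : volume (R230.PiBody K) *
      volume (Metric.ball (0 : EuclideanSpace ℝ (Fin n)) 1) ^ (n - 2) ≠ ⊤ :=
    ENNReal.mul_ne_top hf2 (ENNReal.pow_ne_top hf4)
  have eA : (volume (Metric.ball (0 : EuclideanSpace ℝ (Fin (n - 1))) 1) ^ n *
      volume K ^ (n - 1)).toReal = R230.kap (n - 1) ^ n * (volume K).toReal ^ (n - 1) := by
    rw [ENNReal.toReal_mul, ENNReal.toReal_pow, ENNReal.toReal_pow]; rfl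
  have eB : (volume (R230.PiBody K) *
      volume (Metric.ball (0 : EuclideanSpace ℝ (Fin n)) 1) ^ (n - 2)).toReal =
      (volume (R230.PiBody K)).toReal * R230.kap n ^ (n - 2) := by
    rw [ENNReal.toReal_mul, ENNReal.toReal_pow]; rfl
  refine ⟨(ENNReal.toReal_le_toReal hA hB).1 (by rw [eA, eB]; exact h1), fun h => ?_, ?_⟩
  · obtain ⟨a, T, hT⟩ := h2 (by rw [← eA, ← eB, h])
    refine ⟨x₀ + a, T, ?_⟩
    have h3 : K = (fun x => x₀ + x) '' K₀ := by
      rw [hK₀, Set.image_image]; simp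
    rw [h3, hT, Set.image_image]
    simp only [add_assoc]
  · rintro ⟨a, T, rfl⟩
    exact R230.ellipsoid_eq hn2 a T

end Crest.Agent.S0354
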