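import Crest.Statements.S0355
import Crest.Agent.R230.Simplex

set_option autoImplicit false
open MeasureTheory
open scoped ENNReal
open Crest Crest.GeometryTopology Crest.GeometryTopology.Convex

namespace Crest.Agent.S0355

/-- There is a convex body K in ℝ^20 (compact, convex, with nonempty interior) whose projection body ΠK — the points x with ⟪x, u⟫ ≤ vol₁₉(P_u K) for every unit u, P_u the orthogonal projection on u^⊥ and vol₁₉ the Lebesgue-normalised 19-dimensional Hausdorff measure — has vol(ΠK)/vol(K)^19 exactly equal to c · 22355476/22020096, where c = 21·20^20/20!; in particular vol(ΠK) > c · vol(K)^19. -/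
theorem result :
    ∃ K : Set (EuclideanSpace ℝ (Fin 20)), IsCompact K ∧ Convex ℝ K ∧ (interior K).Nonempty ∧
      (volume (⋂ u ∈ Metric.sphere (0 : EuclideanSpace ℝ (Fin 20)) 1,
            {x : EuclideanSpace ℝ (Fin 20) | inner ℝ x u ≤
              ((μHE[19] : Measure (EuclideanSpace ℝ (Fin 20))) ((fun y => y - inner ℝ y u • u) '' K)).toReal})).toReal /
          (volume K).toReal ^ 19 =
        (21 * 20 ^ 20 / Nat.factorial 20 : ℝ) * (22355476 / 22020096) ∧
      (21 * 20 ^ 20 / Nat.factorial 20 : ℝ) * (volume K).toReal ^ 19 <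
        (volume (⋂ u ∈ Metric.sphere (0 : EuclideanSpace ℝ (Fin 20)) 1,
            {x : EuclideanSpace ℝ (Fin 20) | inner ℝ x u ≤
              ((μHE[19] : Measure (EuclideanSpace ℝ (Fin 20))) ((fun y => y - inner ℝ y u • u) '' K)).toReal})).toReal := by
  classical
  let c : Fin 20 → Fin 2 := fun i => ⟨i.1 / 10, by omega⟩
  have hr := R230.ratio_prodS (n := 20) (by norm_num) c
  have hb : ∀ j, R230.bsz c j = 10 := by decide
  have hV : 0 < (volume (R230.prodS c)).toReal := by
    rw [R230.volume_prodS]
    exact Finset.prod_pos fun j _ => by positivity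
  have hval : ∏ j, R230.rS (R230.bsz c j) =
      (21 * 20 ^ 20 / Nat.factorial 20 : ℝ) * (22355476 / 22020096) := by
    simp only [hb, Fin.prod_univ_two, R230.rS]
    norm_num [Nat.factorial]
  rw [hval] at hr
  refine ⟨R230.prodS c, R230.isCompact_prodS c, R230.convex_prodS c, R230.interior_prodS c, hr, ?_⟩
  change _ < (volume (R230.PiBody (R230.prodS c))).toReal
  have hp : 0 < (volume (R230.prodS c)).toReal ^ 19 := by positivity
  have h2 : (volume (R230.PiBody (R230.prodS c))).toReal =
      (21 * 20 ^ 20 / Nat.factorial 20 : ℝ) * (22355476 / 22020096) *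
        (volume (R230.prodS c)).toReal ^ 19 := by
    rw [← hr]; exact (div_mul_cancel₀ _ hp.ne').symm
  rw [h2]
  have hc : (0 : ℝ) < 21 * 20 ^ 20 / Nat.factorial 20 := by positivity
  have := mul_pos hc hp
  nlinarith

end Crest.Agent.S0355
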