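import Crest.Statements.S0356
import Crest.Agent.R230.Simplex

set_option autoImplicit false
open MeasureTheory
open scoped ENNReal
open Crest Crest.GeometryTopology Crest.GeometryTopology.Convex

namespace Crest.Agent.S0356

theorem s0356_one_le_rS (m : ℕ) : 1 ≤ R230.rS m := by
  unfold R230.rS
  have h1 : (0 : ℝ) < m.factorial := by exact_mod_cast Nat.factorial_pos m
  have h2 : (m.factorial : ℝ) ≤ (m : ℝ) ^ m := by exact_mod_cast Nat.factorial_le_pow m
  rw [le_div_iff₀ h1]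
  have h3 : (0 : ℝ) ≤ (m : ℝ) * (m : ℝ) ^ m := by positivity
  nlinarith

theorem s0356_rS_le (m : ℕ) : R230.rS m ≤ ((m : ℝ) + 1) * Real.exp 1 ^ m := by
  unfold R230.rS
  rw [mul_div_assoc, ← Real.exp_nat_mul, mul_one]
  exact mul_le_mul_of_nonneg_left (Real.pow_div_factorial_le_exp _ (Nat.cast_nonneg m) m)
    (by positivity)

theorem s0356_rS_ten : (30313 : ℝ) ≤ R230.rS 10 := by
  unfold R230.rS
  norm_num [Nat.factorial]

theorem s0356_num : ∃ q0 : ℕ, ∀ q : ℕ, q0 ≤ q →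
    (3 : ℝ) ^ 9 * (10 * q + 10) * 24400 ^ q ≤ 30313 ^ q := by
  have h1 := tendsto_self_mul_const_pow_of_lt_one (r := (24400 / 30313 : ℝ)) (by norm_num)
    (by norm_num)
  have h2 := h1.eventually (gt_mem_nhds (show (0 : ℝ) < 1 / (20 * 3 ^ 9) by positivity))
  obtain ⟨q0, hq0⟩ := Filter.eventually_atTop.1 h2
  refine ⟨max q0 1, fun q hq => ?_⟩
  have h3 := hq0 q (le_trans (le_max_left _ _) hq)
  have h4 : (1 : ℝ) ≤ q := by exact_mod_cast le_trans (le_max_right _ _) hq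
  rw [div_pow, ← mul_div_assoc, div_lt_div_iff₀ (by positivity) (by positivity)] at h3
  have h5 : (0 : ℝ) < 24400 ^ q := by positivity
  nlinarith

theorem s0356_bsz {n : ℕ} (j : Fin (n / 10 + 1)) (hj : j.1 < n / 10) :
    R230.bsz (fun i : Fin n => (⟨i.1 / 10, by omega⟩ : Fin (n / 10 + 1))) j = 10 := by
  unfold R230.bsz
  have hlt : ∀ k : Fin 10, 10 * j.1 + k.1 < n := fun k => by omega
  symm
  refine Eq.trans (show 10 = (Finset.univ : Finset (Fin 10)).card by simp) ?_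
  refine Finset.card_bij (fun k _ => (⟨10 * j.1 + k.1, hlt k⟩ : Fin n)) ?_ ?_ ?_
  · intro k _
    simp only [Finset.mem_filter, Finset.mem_univ, true_and, Fin.ext_iff]
    omega
  · intro a _ b _ h
    simp only [Fin.ext_iff] at h ⊢
    omega
  · intro i hi
    simp only [Finset.mem_filter, Finset.mem_univ, true_and, Fin.ext_iff] at hi
    refine ⟨⟨i.1 % 10, by omega⟩, Finset.mem_univ _, ?_⟩
    simp only [Fin.ext_iff]
    omega

theorem s0356_prod (n : ℕ) : (30313 : ℝ) ^ (n / 10) ≤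
    ∏ j, R230.rS (R230.bsz (fun i : Fin n => (⟨i.1 / 10, by omega⟩ : Fin (n / 10 + 1))) j) := by
  rw [Fin.prod_univ_castSucc]
  have h1 : ∏ j : Fin (n / 10), R230.rS (R230.bsz
      (fun i : Fin n => (⟨i.1 / 10, by omega⟩ : Fin (n / 10 + 1))) j.castSucc) =
      R230.rS 10 ^ (n / 10) := by
    rw [Finset.prod_congr rfl fun j _ => by rw [s0356_bsz j.castSucc j.2]]
    simp
  rw [h1]
  have h2 : (30313 : ℝ) ^ (n / 10) ≤ R230.rS 10 ^ (n / 10) :=
    pow_le_pow_left₀ (by norm_num) s0356_rS_ten _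
  exact le_trans h2 (le_mul_of_one_le_right (le_trans (by positivity) h2) (s0356_one_le_rS _))

theorem s0356_main : ∃ N : ℕ, 20 ≤ N ∧ ∀ n : ℕ, N ≤ n →
    (101 / 100 : ℝ) ^ n * R230.rS n ≤ 30313 ^ (n / 10) := by
  obtain ⟨q0, hq0⟩ := s0356_num
  refine ⟨10 * q0 + 20, by omega, fun n hn => ?_⟩
  have hq := hq0 (n / 10) (by omega)
  refine le_trans ?_ hq
  set q := n / 10 with hqdef
  have he1 : Real.exp 1 < 2.7182818286 := Real.exp_one_lt_d9
  have he0 : (1 : ℝ) ≤ Real.exp 1 := Real.one_le_exp (by norm_num)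
  set a : ℝ := 101 / 100 * Real.exp 1 with ha
  have ha1 : 1 ≤ a := by rw [ha]; linarith
  have ha3 : a ≤ 3 := by rw [ha]; linarith
  have ha10 : a ^ 10 ≤ 24400 := by
    have : a ≤ 101 / 100 * 2.7182818286 := by rw [ha]; linarith
    exact le_trans (pow_le_pow_left₀ (by linarith) this 10) (by norm_num)
  have h1 : a ^ n ≤ 3 ^ 9 * 24400 ^ q := by
    calc a ^ n ≤ a ^ (9 + 10 * q) := pow_le_pow_right₀ ha1 (by omega)
      _ = a ^ 9 * (a ^ 10) ^ q := by rw [pow_add, pow_mul]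
      _ ≤ 3 ^ 9 * 24400 ^ q := by gcongr
  have h2 : (n : ℝ) + 1 ≤ 10 * q + 10 := by
    have : n + 1 ≤ 10 * q + 10 := by omega
    exact_mod_cast this
  calc (101 / 100 : ℝ) ^ n * R230.rS n ≤ (101 / 100 : ℝ) ^ n * (((n : ℝ) + 1) * Real.exp 1 ^ n) :=
        mul_le_mul_of_nonneg_left (s0356_rS_le n) (by positivity)
    _ = ((n : ℝ) + 1) * a ^ n := by rw [ha, mul_pow]; ring
    _ ≤ (10 * q + 10) * (3 ^ 9 * 24400 ^ q) := by gcongr
    _ = _ := by ring

/-- There are λ > 1 and N ≥ 20 such that for every n ≥ N some full-dimensional convex polytope K ⊂ ℝ^n (convex hull of finitely many points, with nonempty interior) has normalised projection-body volume vol(ΠK)/vol(K)^(n−1) at least λ^n times that of the standard simplex {x : xᵢ ≥ 0, ∑ xᵢ ≤ 1}; here ΠL is the set of x with ⟪x, u⟫ ≤ vol_{n−1}(P_u L) for all unit u, P_u the orthogonal projection on u^⊥ and vol_{n−1} the Lebesgue-normalised (n−1)-dimensional Hausdorff measure. -/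
theorem result :
    ∃ lam : ℝ, 1 < lam ∧ ∃ N : ℕ, 20 ≤ N ∧ ∀ n : ℕ, N ≤ n →
      ∃ S : Finset (EuclideanSpace ℝ (Fin n)),
        (interior (convexHull ℝ (S : Set (EuclideanSpace ℝ (Fin n))))).Nonempty ∧
        lam ^ n *
            ((volume (⋂ u ∈ Metric.sphere (0 : EuclideanSpace ℝ (Fin n)) 1,
          {x : EuclideanSpace ℝ (Fin n) | inner ℝ x u ≤
            ((μHE[n - 1] : Measure (EuclideanSpace ℝ (Fin n))) ((fun y => y - inner ℝ y u • u) '' {x : EuclideanSpace ℝ (Fin n) | (∀ i, 0 ≤ x i) ∧ ∑ i, x i ≤ 1})).toReal})).toReal /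
              (volume {x : EuclideanSpace ℝ (Fin n) | (∀ i, 0 ≤ x i) ∧ ∑ i, x i ≤ 1}).toReal ^ (n - 1)) ≤
          (volume (⋂ u ∈ Metric.sphere (0 : EuclideanSpace ℝ (Fin n)) 1,
          {x : EuclideanSpace ℝ (Fin n) | inner ℝ x u ≤
            ((μHE[n - 1] : Measure (EuclideanSpace ℝ (Fin n))) ((fun y => y - inner ℝ y u • u) '' (convexHull ℝ (S : Set (EuclideanSpace ℝ (Fin n)))))).toReal})).toReal /
            (volume (convexHull ℝ (S : Set (EuclideanSpace ℝ (Fin n))))).toReal ^ (n - 1) := by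
  classical
  obtain ⟨N, hN, h⟩ := s0356_main
  refine ⟨101 / 100, by norm_num, N, hN, fun n hn => ?_⟩
  let c : Fin n → Fin (n / 10 + 1) := fun i => ⟨i.1 / 10, by omega⟩
  obtain ⟨S, hS⟩ := R230.exists_finset_prodS c
  refine ⟨S, by rw [hS]; exact R230.interior_prodS c, ?_⟩
  have hstd : {x : EuclideanSpace ℝ (Fin n) | (∀ i, 0 ≤ x i) ∧ ∑ i, x i ≤ 1} =
      R230.prodS (fun _ : Fin n => ()) := by
    ext x
    simp [R230.prodS]
  have h1 := R230.ratio_prodS (n := n) (by omega) (fun _ : Fin n => ())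
  have h2 := R230.ratio_prodS (n := n) (by omega) c
  have hb : R230.bsz (fun _ : Fin n => ()) () = n := by simp [R230.bsz]
  rw [Fintype.prod_unique] at h1
  change _ = R230.rS (R230.bsz (fun _ : Fin n => ()) ()) at h1
  rw [hb] at h1
  rw [hS, hstd]
  change (101 / 100 : ℝ) ^ n * ((volume (R230.PiBody (R230.prodS (fun _ : Fin n => ())))).toReal /
    (volume (R230.prodS (fun _ : Fin n => ()))).toReal ^ (n - 1)) ≤
    (volume (R230.PiBody (R230.prodS c))).toReal / (volume (R230.prodS c)).toReal ^ (n - 1)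
  rw [h1, h2]
  exact le_trans (h n hn) (s0356_prod n)

end Crest.Agent.S0356
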