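import Crest.Statements.S0358
import Crest.Agent.R232.Norms
import Crest.Agent.R232.Final

set_option autoImplicit false
open MeasureTheory
open scoped ENNReal
universe u
open Crest Crest.GeometryTopology

namespace Crest.Agent.S0358

open Crest.Agent.R232

/-- Fix an exponent `1 < p < ∞` with `p ≠ 2` and a distortion `D > 1`, and put `γ = 2 - p` if `p < 2` and `γ = 1 - 2/p` if `p > 2`. There is a constant `C`, depending only on `p` and `D`, such that for every `n ≥ 2`, every `n` distinct points of any real `L^p` space can be mapped to points of the `d`-dimensional real `ℓ^p` space for some `d ≤ exp (C (log n)^γ)`, so that after a common rescaling by some `s > 0` all pairwise distances are preserved up to the factor `D`. -/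
theorem result
    (p : ℝ≥0∞) [Fact (1 ≤ p)] (hp1 : 1 < p) (hptop : p ≠ ⊤) (hp2 : p ≠ 2)
    (D : ℝ) (hD : 1 < D) :
    ∃ C : ℝ, ∀ (n : ℕ), 2 ≤ n →
      ∀ (α : Type u) [MeasurableSpace α] (μ : Measure α) (x : Fin n → Lp ℝ p μ),
        Function.Injective x →
        ∃ d : ℕ, (d : ℝ) ≤ Real.exp (C * Real.log n ^ (if p.toReal < 2 then 2 - p.toReal else 1 - 2 / p.toReal)) ∧
          ∃ (y : Fin n → PiLp p (fun _ : Fin d => ℝ)) (s : ℝ), 0 < s ∧
            ∀ i j, s * ‖x i - x j‖ ≤ ‖y i - y j‖ ∧ ‖y i - y j‖ ≤ D * s * ‖x i - x j‖ := by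
  have hP := toReal_one_lt hp1 hptop
  have hP2 := toReal_ne_two hptop hp2
  have hP0 : 0 < p.toReal := by linarith
  set ε : ℝ := (D - 1) / (3 + 4 * D) with hεdef
  have hε : 0 < ε := div_pos (by linarith) (by linarith)
  have hεD : ε * (3 + 4 * D) = D - 1 := by rw [hεdef]; field_simp
  have hε4 : 0 < 1 - 4 * ε := by nlinarith
  have hε1 : ε ≤ 1 := by linarith
  obtain ⟨C, hC⟩ := reduce hP hP2 hε hε1
  refine ⟨C, fun n hn α _ μ x hx => ?_⟩
  have hne : Nonempty (Fin n) := ⟨⟨0, by omega⟩⟩
  let r : Fin n × Fin n → ℝ := fun e => ‖x e.1 - x e.2‖⁻¹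
  let δ : Fin n × Fin n → ℝ := fun e => if e.1 = e.2 then 0 else 1
  have hpos : ∀ i j, i ≠ j → 0 < ‖x i - x j‖ := fun i j h =>
    norm_pos_iff.2 (sub_ne_zero.2 fun h' => h (hx h'))
  have hgrad : ∀ (G : Fin n → ℝ) (e : Fin n × Fin n), |grad r G e| ^ p.toReal =
      (‖x e.1 - x e.2‖ ^ p.toReal)⁻¹ * |G e.1 - G e.2| ^ p.toReal := by
    intro G e
    simp only [grad, r]
    rw [abs_mul, abs_of_nonneg (by positivity), Real.mul_rpow (by positivity) (abs_nonneg _),
      Real.inv_rpow (norm_nonneg _)]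
  obtain ⟨N, F, hF⟩ := discretize hP0 hε hε1 μ (fun ω i => x i ω) r δ
    (fun e => by simp only [δ]; split_ifs <;> norm_num)
    (fun e => by simp only [δ]; split_ifs <;> norm_num)
    (by
      refine Finset.sum_pos' (fun e _ => by simp only [δ]; split_ifs <;> norm_num)
        ⟨(⟨0, by omega⟩, ⟨1, by omega⟩), Finset.mem_univ _, ?_⟩
      simp [δ])
    (fun e => by
      simp only [hgrad]
      exact (lp_integrable hP0 hptop _ _).const_mul _)
    (fun e => by
      simp only [hgrad]
      rw [integral_const_mul, ← lp_dist_rpow hP0 hptop]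
      simp only [δ]
      split_ifs with h
      · rw [h]; simp [Real.zero_rpow hP0.ne']
      · have := hpos _ _ h
        exact inv_mul_cancel₀ (by positivity))
  obtain ⟨d, hd, G, S, hS, hG⟩ := hC r F (by simpa using hn) (fun e => (hF e).2)
  refine ⟨d, by simpa [gam] using hd, fun i => WithLp.toLp p (fun k => G k i),
    (S * (1 - 4 * ε)) ^ (1 / p.toReal), by positivity, fun i j => ?_⟩
  by_cases hij : i = j
  · subst hij; simp
  have hs : ((S * (1 - 4 * ε)) ^ (1 / p.toReal)) ^ p.toReal = S * (1 - 4 * ε) := by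
    rw [← Real.rpow_mul (by positivity), one_div_mul_cancel hP0.ne', Real.rpow_one]
  set s := (S * (1 - 4 * ε)) ^ (1 / p.toReal) with hsdef
  have hs0 : 0 < s := by positivity
  have h0 := hpos i j hij
  have h0p : 0 < ‖x i - x j‖ ^ p.toReal := by positivity
  have h1 := piLp_norm_rpow hP0
    ((WithLp.toLp p (fun k => G k i) : PiLp p (fun _ : Fin d => ℝ)) - WithLp.toLp p (fun k => G k j))
  have h2 : ∑ k, |G k i - G k j| ^ p.toReal =
      ‖x i - x j‖ ^ p.toReal * ∑ k, |grad r (G k) (i, j)| ^ p.toReal := by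
    rw [Finset.mul_sum]
    refine Finset.sum_congr rfl fun k _ => ?_
    rw [hgrad, ← mul_assoc, mul_inv_cancel₀ h0p.ne', one_mul]
  have h3 := abs_le.1 (hG (i, j))
  have h4 := hF (i, j)
  simp only [δ, if_neg hij] at h4
  have h5 := mul_le_mul_of_nonneg_left h4.1 hS.le
  have h6 := mul_le_mul_of_nonneg_left h4.2 hS.le
  have h7 : ‖(WithLp.toLp p (fun k => G k i) : PiLp p (fun _ : Fin d => ℝ)) -
      WithLp.toLp p (fun k => G k j)‖ ^ p.toReal =
      ‖x i - x j‖ ^ p.toReal * ∑ k, |grad r (G k) (i, j)| ^ p.toReal := by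
    rw [h1, ← h2]; rfl
  constructor
  · rw [← Real.rpow_le_rpow_iff (by positivity) (norm_nonneg _) hP0, h7,
      Real.mul_rpow hs0.le h0.le, hs, mul_comm]
    exact mul_le_mul_of_nonneg_left (by linarith) h0p.le
  · rw [← Real.rpow_le_rpow_iff (norm_nonneg _) (by positivity) hP0, h7,
      Real.mul_rpow (by positivity) h0.le, Real.mul_rpow (by linarith) hs0.le, hs, mul_comm]
    refine mul_le_mul_of_nonneg_right ?_ h0p.le
    have h8 : D ≤ D ^ p.toReal := Real.self_le_rpow_of_one_le hD.le hP.le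
    have h9 := mul_le_mul_of_nonneg_right h8 (show 0 ≤ S * (1 - 4 * ε) by positivity)
    have h10 : D * (S * (1 - 4 * ε)) = S * (1 + 3 * ε) := by linear_combination (-S) * hεD
    linarith

end Crest.Agent.S0358
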