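import Crest.Statements.S0359
import Crest.Agent.R232.Norms
import Crest.Agent.R232.Clarkson

set_option autoImplicit false
open MeasureTheory
open scoped ENNReal
open Crest Crest.GeometryTopology

namespace Crest.Agent.S0359

open Crest.Agent.R232

/-- the test configuration: `0`, `±` row indicators, `±` column indicators -/
noncomputable def cfg (k : ℕ) : Option (Bool × Bool × Fin k) → (Fin k × Fin k) → ℝ
  | none, _ => 0
  | some (σ, τ, j), a =>
      (if σ then 1 else -1) * (if (if τ then a.1 else a.2) = j then 1 else 0)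

lemma cfg_abs_le (k : ℕ) (t : Option (Bool × Bool × Fin k)) (a : Fin k × Fin k) :
    cfg k t a ≤ 1 := by
  rcases t with _ | ⟨σ, τ, j⟩
  · simp [cfg]
  · simp only [cfg]
    split_ifs <;> norm_num

lemma cfg_injective (k : ℕ) (hk : 2 ≤ k) : Function.Injective (cfg k) := by
  have hex : ∀ j : Fin k, ∃ j' : Fin k, j' ≠ j := by
    intro j
    have : Nontrivial (Fin k) := Fin.nontrivial_iff_two_le.2 hk
    exact exists_ne j
  intro t t' h
  rcases t with _ | ⟨σ, τ, j⟩ <;> rcases t' with _ | ⟨σ', τ', j'⟩
  · rfl
  · have := congrFun h (j', j')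
    cases σ' <;> cases τ' <;> simp [cfg] at this
  · have := congrFun h (j, j)
    cases σ <;> cases τ <;> simp [cfg] at this
  · obtain ⟨l, hl⟩ := hex j
    have h1 := congrFun h (j, j)
    have h2 := congrFun h (j, l)
    have h3 := congrFun h (l, j)
    by_cases hjj : j = j'
    · subst hjj
      cases σ <;> cases τ <;> cases σ' <;> cases τ' <;> simp [cfg, hl] at h1 h2 h3 ⊢ <;>
        norm_num at h1
    · cases σ <;> cases τ <;> cases σ' <;> cases τ' <;> simp [cfg, hjj] at h1

/-- Fix an exponent 1 < p < ∞ with p ≠ 2 and n ≥ 9. If d is a dimension such that every n distinct points of any real L^p space can be mapped to the d-dimensional real ℓ^p space with all pairwise distances multiplied by one common factor s > 0 (an isometric embedding up to scaling), then ⌊(n − 1)/4⌋² ≤ d. -/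
theorem result
    (p : ℝ≥0∞) [Fact (1 ≤ p)] (hp1 : 1 < p) (hptop : p ≠ ⊤) (hp2 : p ≠ 2)
    (n : ℕ) (hn : 9 ≤ n) (d : ℕ)
    (hd : ∀ (α : Type) [MeasurableSpace α] (μ : Measure α) (x : Fin n → Lp ℝ p μ),
      Function.Injective x →
      ∃ (y : Fin n → PiLp p (fun _ : Fin d => ℝ)) (s : ℝ), 0 < s ∧
        ∀ i j, ‖y i - y j‖ = s * ‖x i - x j‖) :
    ((n - 1) / 4) ^ 2 ≤ d := by
  set k := (n - 1) / 4 with hk
  have hk2 : 2 ≤ k := by omega
  have hP := toReal_one_lt hp1 hptop
  have hP2 := toReal_ne_two hptop hp2
  have hP0 : 0 < p.toReal := by linarith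
  have hcard : Fintype.card (Option (Bool × Bool × Fin k)) ≤ Fintype.card (Fin n) := by
    simp; omega
  obtain ⟨e⟩ := Function.Embedding.nonempty_of_card_le hcard
  classical
  let f : Fin n → (Fin k × Fin k) → ℝ := fun i =>
    if h : ∃ t, e t = i then cfg k h.choose else fun _ => (i : ℝ) + 2
  have hfe : ∀ t, f (e t) = cfg k t := by
    intro t
    have h : ∃ t', e t' = e t := ⟨t, rfl⟩
    simp only [f, dif_pos h]
    rw [e.injective h.choose_spec]
  have hfinj : Function.Injective f := by
    intro i i' hii
    let a0 : Fin k × Fin k := (⟨0, by omega⟩, ⟨0, by omega⟩)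
    by_cases h : ∃ t, e t = i <;> by_cases h' : ∃ t, e t = i'
    · obtain ⟨t, rfl⟩ := h
      obtain ⟨t', rfl⟩ := h'
      rw [hfe, hfe] at hii
      rw [cfg_injective k hk2 hii]
    · obtain ⟨t, rfl⟩ := h
      have h1 := congrFun hii a0
      rw [hfe] at h1
      simp only [f, dif_neg h'] at h1
      have := cfg_abs_le k t a0
      have : (0:ℝ) ≤ (i' : ℕ) := Nat.cast_nonneg _
      linarith
    · obtain ⟨t, rfl⟩ := h'
      have h1 := congrFun hii a0
      rw [hfe] at h1
      simp only [f, dif_neg h] at h1
      have := cfg_abs_le k t a0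
      have : (0:ℝ) ≤ (i : ℕ) := Nat.cast_nonneg _
      linarith
    · have h1 := congrFun hii a0
      simp only [f, dif_neg h, dif_neg h'] at h1
      have : ((i : ℕ) : ℝ) = (i' : ℕ) := by linarith
      exact Fin.ext (by exact_mod_cast this)
  let : MeasurableSpace (Fin k × Fin k) := ⊤
  have : DiscreteMeasurableSpace (Fin k × Fin k) := ⟨fun _ => trivial⟩
  let x : Fin n → Lp ℝ p (Measure.count : Measure (Fin k × Fin k)) := fun i =>
    MemLp.toLp (f i) MemLp.of_discrete
  have hx : ∀ i a, x i a = f i a := by
    intro i a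
    have := MemLp.coeFn_toLp (p := p) (μ := (Measure.count : Measure (Fin k × Fin k)))
      (f := f i) MemLp.of_discrete
    exact Measure.ae_count_iff.1 this a
  have hxinj : Function.Injective x := by
    intro i i' h
    apply hfinj
    funext a
    rw [← hx, ← hx, h]
  obtain ⟨y, s, hs, hy⟩ := hd _ _ x hxinj
  have hsum : ∀ t t', ∑ c, |(y (e t)).ofLp c - (y (e t')).ofLp c| ^ p.toReal =
      s ^ p.toReal * ∑ a, |cfg k t a - cfg k t' a| ^ p.toReal := by
    intro t t'
    have h1 := piLp_norm_rpow hP0 (y (e t) - y (e t'))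
    rw [hy, Real.mul_rpow hs.le (norm_nonneg _), lp_dist_rpow hP0 hptop, integral_count] at h1
    simp only [hx, hfe] at h1
    rw [h1]; rfl
  have hS : s ^ p.toReal ≠ 0 := by positivity
  have tr : ∀ (t : Option (Bool × Bool × Fin k)) (τ : Bool) (j : Fin k),
      (∀ c, ((y (e t)).ofLp c - (y (e none)).ofLp c) *
        ((y (e (some (true, τ, j)))).ofLp c - (y (e none)).ofLp c) = 0) ↔
      ∀ a, cfg k t a * cfg k (some (true, τ, j)) a = 0 := by
    intro t τ j
    exact disjoint_transfer hP hP2 (cfg k) (fun t c => (y (e t)).ofLp c) _ hS hsum none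
      (fun a => rfl) t (some (true, τ, j)) (some (false, τ, j)) (fun a => by simp only [cfg, if_true, Bool.false_eq_true, if_false]; ring)
  have hex : ∀ ij : Fin k × Fin k, ∃ c : Fin d,
      ((y (e (some (true, true, ij.1)))).ofLp c - (y (e none)).ofLp c) *
        ((y (e (some (true, false, ij.2)))).ofLp c - (y (e none)).ofLp c) ≠ 0 := by
    intro ij
    by_contra hcon
    push Not at hcon
    have := (tr _ false ij.2).1 hcon ij
    simp [cfg] at this
  choose c hc using hex
  have hcinj : Function.Injective c := by
    intro ij ij' h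
    have h1 := hc ij
    have h2 := hc ij'
    rw [← h] at h2
    have e1 : ij.1 = ij'.1 := by
      by_contra hne
      have := (tr (some (true, true, ij.1)) true ij'.1).2 (fun a => by
        simp only [cfg, if_true]
        split_ifs with ha hb
        · exact absurd (ha.symm.trans hb) hne
        all_goals simp) (c ij)
      rcases mul_eq_zero.1 this with h3 | h3
      · exact h1 (by rw [h3, zero_mul])
      · exact h2 (by rw [h3, zero_mul])
    have e2 : ij.2 = ij'.2 := by
      by_contra hne
      have := (tr (some (true, false, ij.2)) false ij'.2).2 (fun a => by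
        simp only [cfg, if_true, Bool.false_eq_true, if_false]
        split_ifs with ha hb
        · exact absurd (ha.symm.trans hb) hne
        all_goals simp) (c ij)
      rcases mul_eq_zero.1 this with h3 | h3
      · exact h1 (by rw [h3, mul_zero])
      · exact h2 (by rw [h3, mul_zero])
    exact Prod.ext e1 e2
  have := Fintype.card_le_of_injective c hcinj
  simpa [sq] using this

end Crest.Agent.S0359
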