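import Crest.Statements.S0367
import Crest.Agent.R237.NSCrit
import Crest.Agent.R237.NSNonSOS
import Crest.Agent.R237.NSData
import Crest.Agent.R237.NSCone

set_option autoImplicit false
open Crest.GeometryTopology
open Crest Crest.GeometryTopology

namespace Crest.Agent.S0367

open Crest.Agent.R237.NS in
/-- There exist a number of variables `m`, a direction `e` and a real polynomial `p` in `m` variables, hyperbolic with respect to `e` (homogeneous, positive at `e`, and with only real roots along every line in direction `e`), whose closed hyperbolicity cone is not a spectrahedral shadow: the cone is not the exact projection of the solution set of any finite real symmetric linear matrix inequality, whatever the matrix size and the number of auxiliary variables. -/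
theorem result :
    ∃ (m : ℕ) (p : MvPolynomial (Fin m) ℝ) (e : Fin m → ℝ),
      Hyperbolic.IsHyperbolic p e ∧
        ¬ Hyperbolic.IsSpectrahedralShadow (Hyperbolic.closedCone p e) := by
  classical
  obtain ⟨g, α, z, ξ, x, c, hg, hz, hlt⟩ := exists_data
  obtain ⟨m, ⟨eq⟩⟩ := Finite.exists_equiv_fin (Var (Fin 11) (Fin 4))
  set p : MvPolynomial (Fin m) ℝ := pgen g (fun v => MvPolynomial.X (eq v)) with hp
  have hev : ∀ y : Fin m → ℝ, MvPolynomial.eval y p = pgen g (fun v => y (eq v)) := by
    intro y
    have := map_pgen (MvPolynomial.aeval y : MvPolynomial (Fin m) ℝ →ₐ[ℝ] ℝ) g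
      (fun v => MvPolynomial.X (eq v))
    simpa [hp] using this
  have hK : ∀ y : Fin m → ℝ, y ∈ Hyperbolic.closedCone p (fun i => egen (eq.symm i)) ↔
      (fun v => y (eq v)) ∈ Kc g := by
    intro y
    simp only [Hyperbolic.closedCone, Kc, Set.mem_ofPred_eq, hev, Equiv.symm_apply_apply]
  refine ⟨m, p, fun i => egen (eq.symm i), ⟨⟨_, pgen_homog g eq⟩, ?_, ?_⟩, ?_⟩
  · rw [hev]
    simpa using pgen_egen_pos g
  · intro y w hw
    by_contra hne
    refine pgen_ne_zero hg (fun v => y (eq v)) w hne ?_
    have := map_pgen (MvPolynomial.aeval (fun i => w * ((egen (eq.symm i) : ℝ) : ℂ) - (y i : ℂ)) :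
      MvPolynomial (Fin m) ℝ →ₐ[ℝ] ℂ) g (fun v => MvPolynomial.X (eq v))
    simp only [MvPolynomial.aeval_X, Equiv.symm_apply_apply] at this
    rw [← this]
    exact hw
  · intro hsh
    set U : Fin m → MvPolynomial (Fin 11 ⊕ Fin 4) ℝ := fun i =>
      ugen g (fun a => MvPolynomial.X (.inl a)) (fun j => MvPolynomial.X (.inr j)) (eq.symm i)
      with hU
    have hUev : ∀ (η : Fin 11 ⊕ Fin 4 → ℝ) (v : Var (Fin 11) (Fin 4)),
        MvPolynomial.eval η (U (eq v)) = ugen g (fun a => η (.inl a)) (fun j => η (.inr j)) v := by
      intro η v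
      have := map_ugen (MvPolynomial.aeval η : MvPolynomial (Fin 11 ⊕ Fin 4) ℝ →ₐ[ℝ] ℝ) g
        (fun a => MvPolynomial.X (.inl a)) (fun j => MvPolynomial.X (.inr j)) v
      simpa [hU] using this
    obtain ⟨G, hGs, hGp, hG⟩ := criterion _ hsh U
      (fun η => by rw [hK]; simp only [hUev]; exact ugen_mem hg _ _)
      (fun η => phi g (fun a => η (.inl a)) (fun j => η (.inr j)))
      (fun η => gam g α (fun a => η (.inl a)) (fun j => η (.inr j)))
      (fun η => HH g α z (fun a => η (.inl a)) (fun j => η (.inr j)))
      (by unfold phi Qf Gam wedge tens; fun_prop)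
      (by unfold gam Qf Gam wedge tens; fun_prop)
      (by unfold HH Qf Gam wedge tens; fun_prop)
      (fun c η => phi_smul g c _ _) (fun c η => gam_smul g α c _ _) (fun c η => HH_smul g α z c _ _)
      (fun η₀ => by
        refine ⟨fun c => ellL g (fun a => η₀ (.inl a)) (fun j => η₀ (.inr j)) (c • α) z eq, ?_, ?_, ?_⟩
        · intro y
          simp only [ellL_apply]
          exact ell_continuous g _ _ α z _
        · intro c y hy
          rw [ellL_apply]
          exact ell_nonneg hg _ _ _ _ _ ((hK y).1 hy)
        · intro c η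
          rw [ellL_apply]
          simp only [hUev]
          have := ell_ugen hg (fun a => η₀ (.inl a)) (fun a => η (.inl a)) (fun j => η₀ (.inr j))
            (fun j => η (.inr j)) (c • α) z
          rw [gam_smul_al, HH_smul_al] at this
          exact this)
    exact absurd (gram_bound hg α z ξ x c hz G hGs hGp hG) (not_le.2 hlt)

end Crest.Agent.S0367
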