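import Crest.Statements.S0368
import Crest.Agent.R237.SPLift

set_option autoImplicit false
open Crest.GeometryTopology
open Crest Crest.GeometryTopology

namespace Crest.Agent.S0368

open Crest.Agent.R237.SP in
/-- There are real homogeneous polynomials p, q in 23 variables, of degrees 20 and 16, hyperbolic with respect to one e, with p e = q e = 1 and a common closed hyperbolicity cone K; K is not a spectrahedron (no linear map L into real symmetric N × N matrices, N ≥ 1, has K as the set where L x is positive semidefinite) yet has a lift of explicit size: symmetric 100 × 100 real matrices A ν (ν < 23), B j (j < 307) with x ∈ K exactly when some v makes ∑ x ν • A ν + ∑ v j • B j positive semidefinite. -/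
theorem result :
    ∃ (p q : MvPolynomial (Fin 23) ℝ) (e : Fin 23 → ℝ),
      p.IsHomogeneous 20 ∧ Hyperbolic.IsHyperbolic p e ∧ MvPolynomial.eval e p = 1 ∧
      q.IsHomogeneous 16 ∧ Hyperbolic.IsHyperbolic q e ∧ MvPolynomial.eval e q = 1 ∧
      Hyperbolic.closedCone q e = Hyperbolic.closedCone p e ∧
      (∀ N : ℕ, 1 ≤ N → ∀ L : (Fin 23 → ℝ) →ₗ[ℝ] Matrix (Fin N) (Fin N) ℝ,
        (∀ x, (L x).IsSymm) → Hyperbolic.closedCone p e ≠ {x | (L x).PosSemidef}) ∧
      ∃ (A : Fin 23 → Matrix (Fin 100) (Fin 100) ℝ) (B : Fin 307 → Matrix (Fin 100) (Fin 100) ℝ),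
        (∀ ν, (A ν).IsSymm) ∧ (∀ j, (B j).IsSymm) ∧
        Hyperbolic.closedCone p e =
          {x | ∃ v : Fin 307 → ℝ, (∑ ν, x ν • A ν + ∑ j, v j • B j).PosSemidef} := by
  refine ⟨PP 14, PP 10, ee, PP_homog 14, PP_hyperbolic 14, by rw [eval_PP, pg_ee], PP_homog 10,
    PP_hyperbolic 10, by rw [eval_PP, pg_ee], ?_, fun N _ L hL => not_spectrahedron (by norm_num) N L hL,
    exists_lift (by norm_num)⟩
  ext x
  rw [mem_cone_iff (by norm_num), mem_cone_iff (by norm_num)]

end Crest.Agent.S0368
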