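import Crest.Statements.S0369
import Crest.Agent.R238.Final

set_option autoImplicit false
open MeasureTheory
open Crest Crest.GeometryTopology Crest.GeometryTopology.Convex

namespace Crest.Agent.S0369

/-- Let `n ≥ 1` and let `K`, `L` be convex bodies in Euclidean `n`-space (compact, convex, with nonempty interior) that are closed under `x ↦ -x`. For `0 ≤ t ≤ 1`, the set of points `x` satisfying `⟪x, u⟫ ≤ h_K(u)^(1-t) · h_L(u)^t` for every unit vector `u`, where `h_K(u)` is the supremum of `⟪y, u⟫` over `y ∈ K`, has volume at least `vol(K)^(1-t) · vol(L)^t`. -/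
theorem result (n : ℕ) (hn : 1 ≤ n)
    (K L : Set (EuclideanSpace ℝ (Fin n)))
    (hKc : IsCompact K) (hKv : Convex ℝ K) (hKi : (interior K).Nonempty) (hKs : ∀ x ∈ K, -x ∈ K)
    (hLc : IsCompact L) (hLv : Convex ℝ L) (hLi : (interior L).Nonempty) (hLs : ∀ x ∈ L, -x ∈ L)
    (t : ℝ) (ht0 : 0 ≤ t) (ht1 : t ≤ 1) :
    volume K ^ (1 - t) * volume L ^ t ≤
      volume (⋂ u ∈ Metric.sphere (0 : EuclideanSpace ℝ (Fin n)) 1,
        {x : EuclideanSpace ℝ (Fin n) | inner ℝ x u ≤
          sSup ((fun y => inner ℝ y u) '' K) ^ (1 - t) * sSup ((fun y => inner ℝ y u) '' L) ^ t}) := by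
  classical
  have hsup : ∀ (A : Set (EuclideanSpace ℝ (Fin n))), IsCompact A → (interior A).Nonempty →
      (∀ x ∈ A, -x ∈ A) → ∀ u : EuclideanSpace ℝ (Fin n), ‖u‖ = 1 →
      0 < sSup ((fun y => inner ℝ y u) '' A) ∧
        ∀ x ∈ A, |inner ℝ x u| ≤ sSup ((fun y => inner ℝ y u) '' A) := by
    intro A hAc hAi hAs u hu
    have hb : BddAbove ((fun y => inner ℝ y u) '' A) := hAc.bddAbove_image (by fun_prop)
    have habs : ∀ x ∈ A, |inner ℝ x u| ≤ sSup ((fun y => inner ℝ y u) '' A) := by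
      intro x hx
      refine abs_le.2 ⟨?_, le_csSup hb ⟨x, hx, rfl⟩⟩
      have := le_csSup hb ⟨-x, hAs x hx, rfl⟩
      simp only [inner_neg_left] at this
      linarith
    refine ⟨?_, habs⟩
    obtain ⟨x0, hx0⟩ := hAi
    obtain ⟨δ, hδ, hball⟩ := Metric.mem_nhds_iff.1 (mem_interior_iff_mem_nhds.1 hx0)
    have h1 : x0 + (δ / 2) • u ∈ A := hball (by
      simp only [Metric.mem_ball, dist_self_add_left, norm_smul, hu, Real.norm_eq_abs]
      rw [abs_of_pos (by positivity)]; linarith)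
    have h0 : x0 ∈ A := hball (Metric.mem_ball_self hδ)
    have a1 := habs _ h1
    have a0 := habs _ h0
    rw [inner_add_left, real_inner_smul_left, real_inner_self_eq_norm_sq, hu] at a1
    have b1 := le_abs_self (inner ℝ x0 u + δ / 2 * 1 ^ 2)
    have b0 := neg_abs_le (inner ℝ x0 u)
    linarith
  have hinner : ∀ (x : Fin n → ℝ) (u : EuclideanSpace ℝ (Fin n)),
      inner ℝ (WithLp.toLp 2 x : EuclideanSpace ℝ (Fin n)) u = dotProduct (WithLp.ofLp u) x := by
    intro x u
    simp [PiLp.inner_apply, dotProduct]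
  have hmp := PiLp.volume_preserving_toLp (Fin n)
  have hpre : ∀ A : Set (EuclideanSpace ℝ (Fin n)), IsClosed A →
      volume ((WithLp.toLp 2 : (Fin n → ℝ) → EuclideanSpace ℝ (Fin n)) ⁻¹' A) = volume A :=
    fun A hA => hmp.measure_preimage hA.measurableSet.nullMeasurableSet
  have hcomp : ∀ A : Set (EuclideanSpace ℝ (Fin n)), IsCompact A →
      IsCompact ((WithLp.toLp 2 : (Fin n → ℝ) → EuclideanSpace ℝ (Fin n)) ⁻¹' A) := fun A hA =>
    (PiLp.homeomorph 2 (fun _ : Fin n => ℝ)).symm.isCompact_preimage.2 hA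
  have hn1 : ∀ u : Metric.sphere (0 : EuclideanSpace ℝ (Fin n)) 1, ‖u.1‖ = 1 := fun u => by
    simpa using u.2
  have main := Crest.Agent.R238.vol_family (I := Metric.sphere (0 : EuclideanSpace ℝ (Fin n)) 1)
    (fun u => WithLp.ofLp u.1) (fun u => sSup ((fun y => inner ℝ y u.1) '' K))
    (fun u => sSup ((fun y => inner ℝ y u.1) '' L))
    (fun u => (hsup K hKc hKi hKs u.1 (hn1 u)).1) (fun u => (hsup L hLc hLi hLs u.1 (hn1 u)).1)
    ht0 ht1 (hcomp K hKc) (hcomp L hLc)
    (fun x hx u => by rw [← hinner]; exact (hsup K hKc hKi hKs u.1 (hn1 u)).2 _ hx)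
    (fun x hx u => by rw [← hinner]; exact (hsup L hLc hLi hLs u.1 (hn1 u)).2 _ hx)
  rw [hpre K hKc.isClosed, hpre L hLc.isClosed] at main
  refine main.trans ?_
  rw [← hpre _ (isClosed_biInter fun u _ => isClosed_le (by fun_prop) continuous_const)]
  refine measure_mono fun x hx => ?_
  simp only [Set.mem_preimage, Set.mem_iInter]
  intro u hu
  have := hx ⟨u, hu⟩
  show inner ℝ (WithLp.toLp 2 x : EuclideanSpace ℝ (Fin n)) u ≤ _
  rw [hinner]
  exact (le_abs_self _).trans this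

end Crest.Agent.S0369
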