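import Crest.Statements.S0370
import Crest.Agent.R239.Main

set_option autoImplicit false
open Crest Crest.GeometryTopology

namespace Crest.Agent.S0370

/-- There is an absolute constant `C` such that, in every dimension `d`, every finite sequence of vectors of Euclidean norm at most one in `ℝ^d` admits one choice of signs `±1` under which every signed prefix sum has Euclidean norm at most `C * √d`. -/
theorem result :
    ∃ C : ℝ, ∀ (d N : ℕ) (v : Fin N → EuclideanSpace ℝ (Fin d)),
      (∀ i, ‖v i‖ ≤ 1) →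
      ∃ ε : Fin N → ℤ, (∀ i, ε i = 1 ∨ ε i = -1) ∧
        ∀ k : ℕ, k ≤ N →
          ‖∑ i ∈ Finset.univ.filter (fun i : Fin N => (i : ℕ) < k), (ε i : ℝ) • v i‖ ≤ C * Real.sqrt d := by
  obtain ⟨B, hB, h⟩ := Crest.Agent.R239.main_bound
  refine ⟨B, fun d N v hv => ?_⟩
  rcases Nat.eq_zero_or_pos d with rfl | hd
  · refine ⟨fun _ => 1, fun _ => Or.inl rfl, fun k _ => ?_⟩
    rw [Subsingleton.elim (∑ i ∈ _, _) (0 : EuclideanSpace ℝ (Fin 0))]
    simp
  classical
  let v' : ℕ → EuclideanSpace ℝ (Fin d) := fun i => if h : i < N then v ⟨i, h⟩ else 0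
  obtain ⟨z, hz1, hz2⟩ := h d N v' hd (fun k => by
    simp only [v']
    split_ifs
    · exact hv _
    · simp)
  refine ⟨fun i => if z i = 1 then 1 else -1, fun i => by beta_reduce; split_ifs <;> simp,
    fun k hk => ?_⟩
  have e : ∑ i ∈ Finset.univ.filter (fun i : Fin N => (i : ℕ) < k),
      (((if z i = 1 then 1 else -1 : ℤ) : ℝ)) • v i = ∑ j ∈ Finset.range k, z j • v' j := by
    rw [Finset.sum_filter]
    have e2 : ∀ i : Fin N, (if (i : ℕ) < k then (((if z i = 1 then 1 else -1 : ℤ) : ℝ)) • v i
        else 0) = (fun j : ℕ => if j < k then z j • v' j else 0) i := by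
      intro i
      have h1 := hz1 i i.2
      have h2 : ((if z i = 1 then 1 else -1 : ℤ) : ℝ) = z i := by
        split_ifs with h3
        · rw [h3]; simp
        · rcases abs_eq (zero_le_one) |>.mp h1 with h4 | h4
          · exact absurd h4 h3
          · rw [h4]; simp
      simp only [h2, v', dif_pos i.2]
    simp only [e2]
    rw [Fin.sum_univ_eq_sum_range (fun j : ℕ => if j < k then z j • v' j else 0) N,
      ← Finset.sum_filter]
    congr 1
    ext j
    simp only [Finset.mem_filter, Finset.mem_range]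
    omega
  rw [e]
  have h3 := hz2 k hk
  have h4 : (0 : ℝ) ≤ d := Nat.cast_nonneg d
  refine le_of_sq_le_sq ?_ (by positivity) |>.trans le_rfl
  rw [mul_pow, Real.sq_sqrt h4]
  nlinarith [mul_nonneg (sub_nonneg.mpr hB) (mul_nonneg (zero_le_one.trans hB) h4)]

end Crest.Agent.S0370
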