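import Crest.Statements.S0371
import Crest.Agent.R240.Final
import Crest.Agent.R240.Trans1
import Crest.Agent.R240.Trans3

set_option autoImplicit false
open scoped Manifold ContDiff
open Crest.GeometryTopology.TwoForm
open Crest Crest.GeometryTopology

namespace Crest.Agent.S0371

open Crest.Agent.R240 in
/-- Let M be a compact connected Hausdorff smooth four-manifold modelled on Euclidean four-space and J a smooth almost complex structure on M (a smooth field of tangent-space endomorphisms with J² = −1). If some smooth closed two-form α tames J, i.e. α_x(v, Jv) > 0 for every non-zero tangent vector v, then some smooth closed two-form α' is compatible with J: it tames J and α'_x(Ju, Jv) = α'_x(u, v). Closedness is stated through the invariant formula for dα on global smooth vector fields. -/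
theorem result
    (M : Type*) [TopologicalSpace M] [T2Space M] [CompactSpace M] [ConnectedSpace M]
    [ChartedSpace (EuclideanSpace ℝ (Fin 4)) M] [IsManifold (𝓡 4) ∞ M]
    (J : Π x : M, TangentSpace (𝓡 4) x →L[ℝ] TangentSpace (𝓡 4) x)
    (hJ : IsAlmostComplexStructure (𝓡 4) M J)
    (hα : ∃ α : Π x : M, TangentSpace (𝓡 4) x →L[ℝ] TangentSpace (𝓡 4) x →L[ℝ] ℝ,
      IsSmoothTwoForm (𝓡 4) M α ∧ IsClosedTwoForm (𝓡 4) M α ∧ Tames (𝓡 4) M α J) :
    ∃ α' : Π x : M, TangentSpace (𝓡 4) x →L[ℝ] TangentSpace (𝓡 4) x →L[ℝ] ℝ,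
      IsSmoothTwoForm (𝓡 4) M α' ∧ IsClosedTwoForm (𝓡 4) M α' ∧
        IsCompatible (𝓡 4) M α' J := by
  obtain ⟨α, hs, hc, ht⟩ := hα
  obtain ⟨N, X, e, h⟩ := exists_model J hJ
  obtain ⟨η, hη, hp⟩ := exists_push h hs
  have hS : ∀ m, e m ∈ X.S := fun m => h.range_eq ▸ Set.mem_range_self m
  have hcl : X.Closed η := by
    intro x hx a b c ha hb hc'
    obtain ⟨m, rfl⟩ : x ∈ Set.range e := h.range_eq ▸ hx
    obtain ⟨Y₁, s₁, e₁⟩ := exists_field h a
    obtain ⟨Y₂, s₂, e₂⟩ := exists_field h b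
    obtain ⟨Y₃, s₃, e₃⟩ := exists_field h c
    have := extDeriv_pull h.sm hη hp s₁ s₂ s₃ m
    rw [e₁, e₂, e₃, ha, hb, hc', hc Y₁ Y₂ Y₃ s₁ s₂ s₃ m] at this
    exact this.symm
  have hta : X.Tames η := by
    intro x hx v hv hv0
    obtain ⟨m, rfl⟩ : x ∈ Set.range e := h.range_eq ▸ hx
    obtain ⟨u, hu⟩ := h.π_mem m v
    rw [hv] at hu
    have hu0 : u ≠ 0 := by
      rintro rfl
      exact hv0 (by simpa using hu)
    have := ht m u hu0
    rwa [hp m u (J m u), ← h.J_d, ← hu] at this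
  obtain ⟨η', hη', hc', hm', ht'⟩ := X.main hη hcl hta
  obtain ⟨α', hs', hp'⟩ := exists_pull h hη'
  refine ⟨α', hs', fun Y₁ Y₂ Y₃ s₁ s₂ s₃ m => ?_, fun m v hv => ?_, fun m u v => ?_⟩
  · rw [extDeriv_pull h.sm hη' hp' s₁ s₂ s₃ m]
    exact hc' _ (hS m) _ _ _ (h.π_d m _) (h.π_d m _) (h.π_d m _)
  · rw [hp' m v (J m v), ← h.J_d]
    refine ht' _ (hS m) _ (h.π_d m _) fun h0 => hv (h.inj m ?_)
    rw [h0, map_zero]
  · rw [hp', hp', ← h.J_d, ← h.J_d]
    have := ev_pm (X.π (e m)) (X.J (e m)) (η' (e m)) (dA e m u) (dA e m v)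
    have h0 : pm (X.π (e m)) (X.J (e m)) (η' (e m)) = 0 := hm' _ (hS m)
    rw [h0, h.π_d, h.π_d] at this
    have hz : ev (0 : E2 N) (dA e m u) (dA e m v) = 0 := by simp [ev]
    linarith

end Crest.Agent.S0371
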