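import Crest.Statements.S0373
import Crest.Agent.R241.CHm
import Crest.Agent.R241.Dom

set_option autoImplicit false
open Crest.GeometryTopology.Submanifold
open Crest Crest.GeometryTopology

namespace Crest.Agent.S0373

/-- Let n ≥ 2 and S a closed, connected, simply connected n-submanifold of Euclidean space with sectional curvature ≤ 0; measures are the Lebesgue-normalised Hausdorff measures μHE. If a relatively open E ⊆ S with compact closure has the volume of the flat n-ball of radius r > 0 and boundary measure EQUAL to that ball's boundary area, then up to a null set E is a relatively open Ω ⊆ S isometric to that ball: the injective smooth image of the ball under a map with orthonormal partial derivatives. -/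
theorem result
    (n N : ℕ) (hn : 2 ≤ n) (S : Set (EuclideanSpace ℝ (Fin N)))
    (hS : IsSubmanifold n N S) (hclosed : IsClosed S) (hconn : IsConnected S)
    (hsc : SimplyConnectedSpace S)
    (hsec : ∀ p ∈ S, ∀ (f : EuclideanSpace ℝ (Fin n) → EuclideanSpace ℝ (Fin N))
      (V : Set (EuclideanSpace ℝ (Fin n))), IsLocalParam n N S p f V →
      ∀ u v : EuclideanSpace ℝ (Fin n), secNum f 0 u v ≤ 0)
    (E : Set (EuclideanSpace ℝ (Fin N))) (hES : E ⊆ S) (hE : IsCompact (closure E))
    (hopen : ∃ U : Set (EuclideanSpace ℝ (Fin N)), IsOpen U ∧ E = S ∩ U)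
    (r : ℝ) (hr : 0 < r)
    (hvol : MeasureTheory.Measure.euclideanHausdorffMeasure n E
      = ENNReal.ofReal (modelVolume n 0 r))
    (harea : MeasureTheory.Measure.euclideanHausdorffMeasure (n - 1) (relBoundary S E)
      = ENNReal.ofReal (modelArea n 0 r)) :
    ∃ U : Set (EuclideanSpace ℝ (Fin N)), IsOpen U ∧
      MeasureTheory.Measure.euclideanHausdorffMeasure n (symmDiff E (S ∩ U)) = 0 ∧
      ∃ φ : EuclideanSpace ℝ (Fin n) → EuclideanSpace ℝ (Fin N),
        ContDiffOn ℝ (⊤ : ℕ∞) φ (Metric.ball 0 r) ∧ Set.InjOn φ (Metric.ball 0 r) ∧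
        φ '' Metric.ball 0 r = S ∩ U ∧ ∀ x ∈ Metric.ball 0 r, metricMat φ x = 1 := by
  obtain ⟨m, rfl⟩ : ∃ m, n = m + 1 := ⟨n - 1, by omega⟩
  obtain ⟨X, inst, ⟨H⟩⟩ := R241.exists_CH (m + 1) N hn 0 le_rfl S hS hclosed hconn hsc
    (by simpa using hsec)
  rw [neg_zero] at H
  exact R241.dom_rigid H (by omega) hES hE hclosed hopen hr (by simpa [R241.vol] using hvol)
    (by simpa [R241.area] using harea)

end Crest.Agent.S0373
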