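import Crest.Statements.S0377
import Crest.Agent.R244.Final
import Crest.Agent.R244.NeckEx
import Crest.Agent.R244.ModelEx
import Crest.Agent.R244.Bridge1b
import Crest.Agent.R244.Bridge2
import Crest.Agent.R244.Bridge3

set_option autoImplicit false
open Bundle Crest.GeometryTopology.Geodesic
open scoped ContDiff Manifold
open Crest Crest.GeometryTopology Crest.GeometryTopology.Geodesic

namespace Crest.Agent.S0377

/-- There is a compact connected orientable smooth 3-manifold `M` (Hausdorff, second countable, charted on `ℝ³`, hence without boundary) that carries a smooth Riemannian metric with no conjugate points — along every geodesic, a Jacobi field vanishing at two distinct parameters vanishes identically, geodesics and Jacobi fields being the solutions of the usual coordinate equations in charts — while no smooth Riemannian metric on `M` has all its sectional curvatures at most zero. -/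
theorem result :
    ∃ (M : Type) (_ : TopologicalSpace M) (_ : ChartedSpace (EuclideanSpace ℝ (Fin 3)) M)
      (_ : IsManifold 𝓘(ℝ, EuclideanSpace ℝ (Fin 3)) ∞ M),
      T2Space M ∧ SecondCountableTopology M ∧ CompactSpace M ∧ ConnectedSpace M ∧
      IsOrientable 3 M ∧
      (∃ g : ContMDiffRiemannianMetric 𝓘(ℝ, EuclideanSpace ℝ (Fin 3)) ∞ (EuclideanSpace ℝ (Fin 3))
          (fun x : M => TangentSpace 𝓘(ℝ, EuclideanSpace ℝ (Fin 3)) x), NoConjugatePoints g) ∧
      ∀ g : ContMDiffRiemannianMetric 𝓘(ℝ, EuclideanSpace ℝ (Fin 3)) ∞ (EuclideanSpace ℝ (Fin 3))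
          (fun x : M => TangentSpace 𝓘(ℝ, EuclideanSpace ℝ (Fin 3)) x), ¬ HasNonposSectionalCurvature g := by
  obtain ⟨N⟩ := R244.exists_neck
  obtain ⟨M, _, A, PN, isN, hT2, hsc, hcomp, hconn, hor, hM⟩ := R244.exists_model N
  refine ⟨M, inferInstance, A.chartedSpace, A.isManifold, hT2, hsc, hcomp, hconn,
    A.isOrientable hor, ?_, ?_⟩
  · obtain ⟨g, hg⟩ := A.exists_metric
    exact ⟨g, A.noConjugatePoints hM.ncp g hg⟩
  · intro g hg
    let := A.chartedSpace
    have := A.isManifold
    obtain ⟨A', hA'⟩ := R244.exists_atlas_of_metric g hg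
    exact hM.not_npc A' hA'

end Crest.Agent.S0377
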