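import Crest.Statements.S0390
import Crest.Agent.S0391

set_option autoImplicit false
open MeasureTheory Crest.GeometryTopology.Isotropic
open Crest Crest.GeometryTopology Crest.GeometryTopology.Isotropic

namespace Crest.Agent.S0390

/-- For every `n ≥ 1` and every convex body `K` in `ℝ^n` (compact, convex, nonempty interior), with `Σ_K` the covariance matrix of the uniform distribution on `K`, one has `det Σ_K · (n+1)^(n+1) · (n+2)^n ≤ (n!)² · vol(K)²` — equivalently the isotropic constant `(det Σ_K / vol(K)²)^(1/(2n))` is at most `(n!)^(1/n) / ((n+1)^((n+1)/(2n)) √(n+2))` — with equality exactly when `K` is a simplex, the convex hull of `n + 1` affinely independent points. -/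
theorem result (n : ℕ) (hn : 1 ≤ n)
    (K : Set (Fin n → ℝ)) (hK : IsCompact K) (hKc : Convex ℝ K) (hKi : (interior K).Nonempty) :
    (covMatrix K).det * ((n : ℝ) + 1) ^ (n + 1) * ((n : ℝ) + 2) ^ n ≤
        (Nat.factorial n : ℝ) ^ 2 * (volume K).toReal ^ 2 ∧
      ((covMatrix K).det * ((n : ℝ) + 1) ^ (n + 1) * ((n : ℝ) + 2) ^ n =
          (Nat.factorial n : ℝ) ^ 2 * (volume K).toReal ^ 2 ↔
        ∃ v : Fin (n + 1) → (Fin n → ℝ), AffineIndependent ℝ v ∧ K = convexHull ℝ (Set.range v)) := by
  exact R253.s0390_of_ent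
    (fun m hm f hf hf0 hf1 hfc hfl => Crest.Agent.S0391.result m hm f hf hf0 hf1 hfc hfl) n K hK hKc hKi

end Crest.Agent.S0390
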