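import Crest.Statements.S0392
import Crest.Agent.R254.DR
import Crest.Agent.R254.Glue
import Crest.Agent.R254.Doubling
import Crest.Agent.R254.Game

set_option autoImplicit false
open Crest.GeometryTopology
universe u v
open Crest Crest.GeometryTopology

namespace Crest.Agent.S0392

/-- There is a universal constant `Λ` such that every infinite-dimensional real Banach space contains a compact subset that is doubling with constant at most `Λ` and admits no map into any finite-dimensional real normed space that is Lipschitz with a Lipschitz inverse on its image, whatever the two Lipschitz constants. Doubling is measured with closed balls centred at points of the subset. -/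
theorem result :
    ∃ Λ : ℕ, ∀ (B : Type u) [NormedAddCommGroup B] [NormedSpace ℝ B] [CompleteSpace B],
      ¬ FiniteDimensional ℝ B →
      ∃ K : Set B, IsCompact K ∧ DoublingConstLE K Λ ∧
        ∀ (Y : Type v) [NormedAddCommGroup Y] [NormedSpace ℝ Y] [FiniteDimensional ℝ Y]
          (f : K → Y) (c C : NNReal), ¬ (LipschitzWith C f ∧ AntilipschitzWith c f) := by
  refine ⟨2 * Fintype.card R254.Lab + 1, fun B _ _ _ hB => ?_⟩
  refine R254.glue R254.Lab ?_ B (fun ι _ => R254.dvoretzky_rogers B hB ι)
  intro K L hK hL
  obtain ⟨P, rfl, hP⟩ := R254.Par.exists_good K L hK hL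
  exact ⟨P.Idx, P.Om, inferInstance, P.PhiOm, R254.Par.finite_range hP,
    R254.Par.labelDoubling hP, R254.Par.notShadowed hP⟩

end Crest.Agent.S0392
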