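import Crest.Statements.S0397
import Crest.Agent.R259.Special
import Crest.Agent.R259.Generic
import Crest.Agent.R259.Num

set_option autoImplicit false
open Crest Crest.AlgGeometry

namespace Crest.Agent.S0397

/-- For every `r ≥ 10` there is a countable family of nonzero polynomial conditions on `r`-tuples of points of the complex affine plane, avoided by at least one tuple, such that at every tuple avoiding all of them the following holds: if a nonzero polynomial in two variables of total degree at most `d`, with `d ≥ 1`, vanishes to order at least `m i` at the `i`-th point for every `i`, then `∑ m i < d * √r`. -/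
theorem result (r : ℕ) (hr : 10 ≤ r) :
    ∃ S : Set (MvPolynomial (Fin r × Fin 2) ℂ),
      S.Countable ∧ (∀ g ∈ S, g ≠ 0) ∧
      (∃ p : Fin r → Fin 2 → ℂ, ∀ g ∈ S, MvPolynomial.eval (fun ij : Fin r × Fin 2 => p ij.1 ij.2) g ≠ 0) ∧
      ∀ p : Fin r → Fin 2 → ℂ, (∀ g ∈ S, MvPolynomial.eval (fun ij : Fin r × Fin 2 => p ij.1 ij.2) g ≠ 0) →
        ∀ (d : ℕ) (f : MvPolynomial (Fin 2) ℂ) (m : Fin r → ℕ),
          1 ≤ d → f ≠ 0 → f.totalDegree ≤ d →
          (∀ i, Crest.AlgGeometry.VanishesToOrder f (p i) (m i)) →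
          (∑ i, (m i : ℝ)) < (d : ℝ) * Real.sqrt (r : ℝ) := by
  classical
  have key : ∀ dm : ℕ × (Fin r → ℕ), ∃ g : MvPolynomial (Fin r × Fin 2) ℂ, g ≠ 0 ∧
      (1 ≤ dm.1 → (dm.1 : ℝ) * Real.sqrt r ≤ ((∑ i, dm.2 i : ℕ) : ℝ) →
        ∀ p : Fin r → Fin 2 → ℂ,
        MvPolynomial.eval (fun ij : Fin r × Fin 2 => p ij.1 ij.2) g ≠ 0 →
        ∀ f : MvPolynomial (Fin 2) ℂ, f.totalDegree ≤ dm.1 →
          (∀ i, VanishesToOrder f (p i) (dm.2 i)) → f = 0) := by
    rintro ⟨d, m⟩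
    by_cases h : 1 ≤ d ∧ (d : ℝ) * Real.sqrt r ≤ ((∑ i, m i : ℕ) : ℝ)
    · obtain ⟨p, q, hq, hp, hA⟩ := R259.exists_shear hr h.1 h.2
      obtain ⟨P, hP⟩ := R259.special m hq hp hA
      obtain ⟨g, hg0, hg⟩ := R259.generic (algebraMap ℂ (Polynomial R259.K)) d m P hP
      exact ⟨g, hg0, fun _ _ => hg⟩
    · exact ⟨1, one_ne_zero, fun h1 h2 => absurd ⟨h1, h2⟩ h⟩
  choose g hg0 hg using key
  have hc : (Set.range g).Countable := Set.countable_range g
  have h0 : ∀ g' ∈ Set.range g, g' ≠ 0 := by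
    rintro _ ⟨dm, rfl⟩
    exact hg0 dm
  refine ⟨Set.range g, hc, h0, ?_, ?_⟩
  · obtain ⟨p, hp⟩ := R259.exists_avoid (Set.range g) hc h0
    exact ⟨fun i j => p (i, j), hp⟩
  · intro p hp d f m hd hf0 hfd hv
    by_contra hlt
    refine hf0 (hg (d, m) hd ?_ p (hp _ ⟨(d, m), rfl⟩) f hfd hv)
    push_cast
    exact not_lt.mp hlt

end Crest.Agent.S0397
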