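import Crest.Statements.S0402
import Crest.Agent.R264.Main

set_option autoImplicit false
open Topology Filter
open Crest Crest.AlgGeometry

namespace Crest.Agent.S0402

/-- Let U be a connected bounded semialgebraic subset of ℂ^N, open in a complex algebraic set, and Γ a group of permutations of U, each locally the restriction of a holomorphic map of ℂ^N, acting properly discontinuously with compact quotient. Then U is biholomorphic to a bounded symmetric domain: there are a bounded connected open D in some ℂ^m, each point of which is an isolated fixed point of a holomorphic involution of D (how such domains are encoded), and inverse holomorphic maps U → D → U. -/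
theorem result
    (N : ℕ) (V U : Set (Fin N → ℂ)) (hV : Crest.AlgGeometry.Semialg.IsAlgebraicSet V)
    (hUV : ∃ O : Set (Fin N → ℂ), IsOpen O ∧ U = O ∩ V)
    (hconn : IsConnected U) (hsa : Crest.AlgGeometry.Semialg.IsSemialgebraic U)
    (hbd : Bornology.IsBounded U) (Γ : Subgroup (Equiv.Perm U))
    (hΓ : ∀ γ ∈ Γ, Crest.AlgGeometry.Semialg.IsHolomorphicMap U (fun y : U => ((γ y : U) : Fin N → ℂ)))
    (hpd : ProperlyDiscontinuousSMul Γ U)
    (hcpt : CompactSpace (Quotient (MulAction.orbitRel Γ U))) :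
    ∃ (m : ℕ) (D : Set (Fin m → ℂ)), Crest.AlgGeometry.Semialg.IsBoundedSymmetricDomain D ∧
      ∃ (Ψ : U → (Fin m → ℂ)) (Θ : (Fin m → ℂ) → (Fin N → ℂ)),
        Crest.AlgGeometry.Semialg.IsHolomorphicMap U Ψ ∧ DifferentiableOn ℂ Θ D ∧
        (∀ y : U, Ψ y ∈ D ∧ Θ (Ψ y) = (y : Fin N → ℂ)) ∧
        (∀ z ∈ D, ∃ y : U, (y : Fin N → ℂ) = Θ z ∧ Ψ y = z) := by
  obtain ⟨S, rfl, rfl⟩ := R264.exists_setup N V U hV hUV hconn hsa hbd Γ hΓ hpd hcpt
  obtain ⟨m, D, hD, Ψ, Θ, h1, h2, h3, h4⟩ := S.main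
  refine ⟨m, D, hD, fun y => Ψ y, Θ, fun x => ?_, h2, fun y => h3 y y.2,
    fun z hz => ⟨⟨Θ z, (h4 z hz).1⟩, rfl, (h4 z hz).2⟩⟩
  obtain ⟨O, hO, hx, Φ, hΦ, he⟩ := h1 x x.2
  exact ⟨O, hO, hx, Φ, hΦ, fun y hy => he y y.2 hy⟩

end Crest.Agent.S0402
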