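import Crest.Statements.S0405
import Crest.Agent.R266.LinkB
import Crest.Agent.R266.Local
import Crest.Agent.R266.Kahler

set_option autoImplicit false
open scoped Manifold ContDiff
open Crest.AlgGeometry.HolSplit
open Crest Crest.AlgGeometry

namespace Crest.Agent.S0405

/-- Let X be a compact connected complex n-manifold, n ≥ 2, with a Kähler metric (chartwise: Hermitian, smooth, closed Kähler form) and a holomorphic splitting T_X = E₁ ⊕ E₂ into integrable subbundles of positive rank. Every holomorphic covering of X by a connected simply connected complex manifold X' is biholomorphic to a product Y₁ × Y₂ of connected simply connected complex manifolds, the differential sending the lift of E₁ into the Y₁-directions and that of E₂ into the Y₂-directions. -/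
theorem result
    (n : ℕ) (hn : 2 ≤ n) (X : Type) [TopologicalSpace X] [T2Space X] [SecondCountableTopology X]
    [CompactSpace X] [ConnectedSpace X] [ChartedSpace (Model n) X] [IsManifold (mI n) ω X]
    (hK : Nonempty (KahlerMetric n X)) (S : Splitting n X)
    (h₁ : S.FirstIntegrable) (h₂ : S.SecondIntegrable)
    (X' : Type) [TopologicalSpace X'] [T2Space X'] [SecondCountableTopology X']
    [ConnectedSpace X'] [SimplyConnectedSpace X'] [ChartedSpace (Model n) X']
    [IsManifold (mI n) ω X'] (π : X' → X) (hcov : IsCoveringMap π)
    (hπ : ContMDiff (mI n) (mI n) ω π)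
    (hdπ : ∀ p : X', Function.Bijective (mfderiv (mI n) (mI n) π p)) :
    HasCompatibleProductCover S X' π := by
  obtain ⟨K⟩ := hK
  obtain ⟨n₁, n₂, hPC⟩ := R266.hasPC_of_nzero (R266.spP_isPF S) ((R266.first_iff S).mp h₁)
    ((R266.second_iff S).mp h₂)
  obtain ⟨c, C, hc, hC, hU⟩ := R266.exists_uc K hPC
  exact R266.product_cover_of_locP S hPC (R266.locP_of_uc (R266.kData K) hU hc hC) X' π hcov hπ hdπ

end Crest.Agent.S0405
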