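import Crest.Statements.S0413
import Crest.Agent.R271.EF
import Crest.Agent.R271.EX

set_option autoImplicit false
open AlgebraicGeometry Crest.AlgGeometry.Divisors
open Crest Crest.AlgGeometry Crest.AlgGeometry.Divisors

namespace Crest.Agent.S0413

/-- Let `X` be a smooth proper complex variety of dimension `n ≥ 1` (integral, proper and smooth of relative dimension `n` over `ℂ`) with an ample divisor `L` (so `X` is projective). Then for every canonical divisor `K` and every `m ≥ n + 1`, `K + mL` is basepoint-free: at every point some global section does not vanish. Divisors are Weil divisors (`X` is smooth), sections of `O(D)` are rational `f` with `div f + D ≥ 0`, a canonical divisor is the divisor of a nonzero rational `n`-form. -/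
theorem result
    (X : Scheme.{0}) [Algebra ℂ Γ(X, ⊤)] [IsIntegral X] [IsLocallyNoetherian X]
    (n : ℕ) (hn : 1 ≤ n) (hX : IsSmoothProperVariety ℂ X n)
    (L : WeilDiv X) (hL : IsAmple L) (K : WeilDiv X) (hK : IsCanonicalDivisor ℂ X n K)
    (m : ℕ) (hm : n + 1 ≤ m) : IsBasepointFree (K + m • L) := by
  letI : Algebra ℂ X.functionField := fnFieldAlgebra ℂ X
  obtain ⟨G, hpt, hord, hO, hAff⟩ := R271.exists_geo X n hX
  obtain ⟨ω, h0, hω⟩ := hK
  have hS : ∀ D f, G.Sec D f ↔ IsSection D f := fun D f => by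
    simp only [R271.Geo.Sec, IsSection, hord]
  have hN : ∀ D f x, G.NV D f x ↔ NonvanishingAt D f x := fun D f x => by
    simp only [R271.Geo.NV, NonvanishingAt, hord, hpt]
  intro x
  simp only [← hS, ← hN]
  refine G.bpf hn (fun y => ?_) ω.law h0 (fun z c b hc hb => ?_) hm x
  · obtain ⟨k, hk, f, hf, U, hU, hy, hUe⟩ := hL y
    exact ⟨k, hk, f, (hS _ _).2 hf, U, hAff U hU, hy, by simp only [hN, hUe]⟩
  rw [hord]
  refine hω z b ?_
  letI : Algebra ℂ (X.presheaf.stalk z.1) := stalkAlgebra ℂ X z.1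
  have hT : IsScalarTower ℂ (X.presheaf.stalk z.1) X.functionField :=
    IsScalarTower.of_algebraMap_eq fun a =>
      (CategoryTheory.ConcreteCategory.congr_hom (X.presheaf.germ_stalkSpecializes (U := ⊤) trivial
        (genericPoint_specializes z.1)) (algebraMap ℂ Γ(X, ⊤) a)).symm
  have hi : Function.Injective (algebraMap (X.presheaf.stalk z.1) X.functionField) :=
    IsFractionRing.injective _ _
  rw [R271.Geo.At, hpt] at hc
  let e := AlgEquiv.ofInjective (IsScalarTower.toAlgHom ℂ (X.presheaf.stalk z.1) X.functionField) hi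
  have hle : c.S ≤ (IsScalarTower.toAlgHom ℂ (X.presheaf.stalk z.1) X.functionField).range :=
    fun f hf => (hO _ _).1 (hc.1 hf)
  let φ : c.S →ₐ[ℂ] X.presheaf.stalk z.1 := e.symm.toAlgHom.comp (Subalgebra.inclusion hle)
  have hφ : ∀ s, algebraMap _ X.functionField (φ s) = s := fun s =>
    congrArg Subtype.val (e.apply_symm_apply (Subalgebra.inclusion hle s))
  refine ⟨hT, fun i => KaehlerDifferential.D ℂ _ (φ (c.t i)), fun i => ?_, c.span_top φ fun r => ?_⟩
  · rw [KaehlerDifferential.map_D, hφ, hb]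
  · obtain ⟨s, hs, s0, hsi, hsr⟩ := hc.2 _ ((hO _ _).2 ⟨r, rfl⟩)
    obtain ⟨s', hs'⟩ := (hO _ _).1 hsi
    refine ⟨⟨s, hs⟩, ⟨_, hsr⟩, IsUnit.of_mul_eq_one s' (hi ?_), hi ?_⟩
    · rw [map_mul, hφ, hs', map_one, mul_inv_cancel₀ s0]
    · rw [map_mul, hφ, hφ]

end Crest.Agent.S0413
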