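import Crest.Statements.S0432
import Crest.Agent.R287.Inst
import Crest.Agent.R287.Greedy
import Crest.Agent.R287.Realize
import Crest.Agent.R287.PolyT

set_option autoImplicit false
open Crest.Enc
open Crest Crest.LogicCS

namespace Crest.Agent.S0432

/-- Strings are finite lists of natural-number symbols; a family of strings is coded by the number of its members followed by the self-delimiting codes of the members. There is a polynomial-time map on bit strings sending the code of every finite family to the code of a string that contains each member as a contiguous substring and is at most twice as long as any string with that property. -/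
theorem result :
    ∃ f : List Bool → List Bool, Crest.Complexity.PolyTime f ∧
      ∀ S : List (List ℕ), ∃ T : List ℕ,
        f (natCode S.length ++ (S.map listCode).flatten) = listCode T ∧
        (∀ s ∈ S, s <:+: T) ∧
        ∀ T' : List ℕ, (∀ s ∈ S, s <:+: T') → T.length ≤ 2 * T'.length := by
  obtain ⟨mwm, hm1, hm2⟩ := Crest.Agent.Lib.Matching.exists_mwm
  obtain ⟨f, hf1, hf2⟩ := R287.exists_polyTime_of_pt (R287.alg mwm) (R287.alg_pt mwm hm2)
  refine ⟨f, hf1, fun S => ⟨R287.alg mwm S, hf2 S, ?_⟩⟩
  have h := R287.good_inst S
  obtain ⟨e1, e2⟩ := hm1 _ (R287.gmat_symm (R287.inst S) (R287.greedy (R287.inst S)))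
  rw [R287.gmat_length] at e1 e2
  obtain ⟨r1, r2, r3⟩ := R287.realize_spec h _ e1
  obtain ⟨s1, s2⟩ := R287.spell_spec r1
  refine ⟨fun s hs => ?_, fun T hT => ?_⟩
  · obtain ⟨i, hi, hs'⟩ := R287.inst_cover S s hs
    exact hs'.trans (s2 _ (r2 i hi))
  · have c1 := R287.Cc_sinks_le h T (R287.inst_infix S T hT)
    have c2 := R287.le_Cc (R287.inst S) (R287.greedy (R287.inst S))
      (R287.sinks (R287.inst S) (R287.greedy (R287.inst S))).toFinset
      (m₀ := fun v => (mwm (R287.gmat (R287.inst S) (R287.greedy (R287.inst S)))).getD v 0)
      fun m hm => by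
        have := e2 m hm
        rw [R287.wt_gmat _ _ hm, R287.wt_gmat _ _ e1] at this
        omega
    unfold R287.alg
    rw [s1]
    zify at r3 ⊢
    omega

end Crest.Agent.S0432
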