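import Crest.Statements.S0441
import Crest.Agent.R292.Main

set_option autoImplicit false
open Crest.LogicCS.Degrees
open Crest Crest.LogicCS

namespace Crest.Agent.S0441

open Crest.Agent.R292 in
theorem charFun_eq (x : ℕ → Bool) : charFun {n | x n = true} = chi x := by
  funext n
  simp only [charFun, chi]
  cases h : x n <;> simp [Set.indicator, h]

/-- The degree of a real. -/
noncomputable def dg (x : ℕ → Bool) : SetDegree := ⟨degOf {n | x n = true}, _, rfl⟩

open Crest.Agent.R292 in
theorem dg_le {x y : ℕ → Bool} : dg x ≤ dg y ↔ x ≤ₜ y := by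
  rw [tr_iff_reducible, ← charFun_eq, ← charFun_eq]
  exact Iff.rfl

theorem dg_surj (d : SetDegree) : ∃ x, dg x = d := by
  classical
  obtain ⟨_, A, rfl⟩ := d
  refine ⟨fun n => decide (n ∈ A), Subtype.ext ?_⟩
  simp [dg]

open Crest.Agent.R292 in
theorem le_apply (π : SetDegree ≃o SetDegree) (d : SetDegree) : d ≤ π d := by
  have hP : IsGA fun x y => π (dg x) = dg y := by
    refine ⟨fun x => ?_, fun y => ?_, fun {x y x' y'} h1 h2 => ?_, fun {x y y'} h1 h2 h3 => ?_⟩
    · obtain ⟨y, hy⟩ := dg_surj (π (dg x))
      exact ⟨y, hy.symm⟩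
    · obtain ⟨x, hx⟩ := dg_surj (π.symm (dg y))
      exact ⟨x, by rw [hx, π.apply_symm_apply]⟩
    · rw [← dg_le, ← dg_le, ← h1, ← h2, π.le_iff_le]
    · rw [h1]
      exact le_antisymm (dg_le.2 h2) (dg_le.2 h3)
  obtain ⟨b, rfl⟩ := dg_surj d
  obtain ⟨a, ha⟩ := dg_surj (π (dg b))
  rw [← ha]
  exact dg_le.2 (rigid_rel hP ha.symm)

/-- Every order automorphism of the partially ordered set of Turing degrees of sets of natural numbers is the identity. The degrees of sets are taken inside the library's degree structure of partial functions, as the classes of characteristic functions, with the induced order. -/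
theorem result (π : SetDegree ≃o SetDegree) : π = OrderIso.refl SetDegree := by
  refine OrderIso.ext (funext fun d => le_antisymm ?_ (le_apply π d))
  simpa using le_apply π.symm (π d)

end Crest.Agent.S0441
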