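import Crest.Statements.S0456
import Crest.Agent.R300.UBCore
import Crest.Agent.R300.UBCost
import Crest.Agent.R300.UBSym

set_option autoImplicit false
open Crest.FinProb Crest.TraceRecon
open Crest Crest.LogicCS

namespace Crest.Agent.S0456

/-- There is an absolute constant C such that for every alphabet size s ≥ 2, every length n ≥ 2 and every retention probability 0 < p < 1, writing X = 1 + log n/(1 + log(1/(1 − p))), some reconstruction rule that sees m independent deletion traces of a word of length n over s symbols (retained symbols observed exactly, in order), with m ≤ exp(C·p⁻¹·(log n)·X²·(1 + log X)⁶), returns every such word with probability at least 2/3. Logarithms are natural. -/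
theorem result :
    ∃ C : ℝ, ∀ s : ℕ, 2 ≤ s → ∀ n : ℕ, 2 ≤ n → ∀ p : ℝ, 0 < p → p < 1 →
      ∃ m : ℕ, (m : ℝ) ≤ Real.exp (C * p⁻¹ * Real.log n *
          (1 + Real.log n / (1 + Real.log (1 / (1 - p)))) ^ 2 *
          (1 + Real.log (1 + Real.log n / (1 + Real.log (1 / (1 - p))))) ^ 6) ∧
        ∃ K : (Fin m → List (Fin s)) → (Fin n → Fin s) → ℝ, IsSymRule K ∧
          ∀ x : Fin n → Fin s, 2 / 3 ≤ symSuccessProb p K x := by
  obtain ⟨C, hC, hneed⟩ := R300.UB.need_le
  refine ⟨C + 3, fun s hs n hn p hp hp1 => ?_⟩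
  have hq : 0 < 1 - p := by linarith
  have h1 : 0 ≤ Real.log (1 / (1 - p)) := Real.log_nonneg ((one_le_div hq).2 (by linarith))
  have h2 : Real.log 2 ≤ Real.log n := Real.log_le_log two_pos (by exact_mod_cast hn)
  have h2' := Real.log_two_gt_d9
  have hn0 : 0 ≤ Real.log n := by linarith
  have h3 : 1 ≤ 1 + Real.log n / (1 + Real.log (1 / (1 - p))) :=
    le_add_of_nonneg_right (by positivity)
  have h4 := Real.log_nonneg h3
  have hB : Real.log 2 ≤ R300.UB.budget n p := by
    unfold R300.UB.budget
    refine le_trans ?_ (le_mul_of_one_le_right (by positivity) (one_le_pow₀ (by linarith)))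
    refine le_trans ?_ (le_mul_of_one_le_right (by positivity) (one_le_pow₀ h3))
    exact h2.trans (le_mul_of_one_le_left hn0 ((one_le_inv₀ hp).2 hp1.le))
  have hc : ContinuousAt (fun p => C * R300.UB.budget n p) p := by
    have c1 : ContinuousAt (fun p : ℝ => 1 + Real.log n / (1 + Real.log (1 / (1 - p)))) p :=
      continuousAt_const.add (continuousAt_const.div (continuousAt_const.add
        ((continuousAt_const.div (continuousAt_const.sub continuousAt_id) hq.ne').log
          (one_div_pos.2 hq).ne')) (by linarith))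
    exact continuousAt_const.mul ((((continuousAt_inv₀ hp.ne').mul continuousAt_const).mul
      (c1.pow 2)).mul ((continuousAt_const.add (c1.log (by linarith))).pow 6))
  set m : ℕ := ⌈Real.exp (C * R300.UB.budget n p + 1)⌉₊ with hm
  have hc2 : ContinuousAt (fun p' : ℝ => (m : ℝ) * n * |p - p'|) p := by fun_prop
  have hev : ∀ᶠ p' in nhds p, (0 < p' ∧ p' < 1) ∧
      C * R300.UB.budget n p' < C * R300.UB.budget n p + 1 ∧
      (m : ℝ) * n * |p - p'| < 1 / (12 * (n + 1)) :=
    Filter.Eventually.and (Ioo_mem_nhds hp hp1) ((hc.eventually_lt continuousAt_const (lt_add_one _)).and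
      (hc2.eventually_lt continuousAt_const (by simp only [sub_self, abs_zero, mul_zero]; positivity)))
  obtain ⟨p', ⟨a0, a1⟩, a2, a3⟩ := (Rat.denseRange_cast (𝕜 := ℝ)).mem_nhds hev
  have b0 : 0 < p' := by exact_mod_cast a0
  have b1 : p' < 1 := by exact_mod_cast a1
  have hm' : 2 ^ R300.UB.eNeed n p' ≤ m := by
    have := (hneed n hn p' b0 b1).trans ((Real.exp_le_exp.2 a2.le).trans (Nat.le_ceil _))
    exact_mod_cast this
  refine ⟨m, ?_, R300.UB.sym_rule hs hp.le hp1.le (fun τ => R300.UB.decode (n, p', τ)) fun x => ?_⟩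
  · have e1 : 1 ≤ Real.exp (C * R300.UB.budget n p + 1) :=
      Real.one_le_exp (by nlinarith)
    have e2 := (Nat.ceil_lt_add_one (Real.exp_pos (C * R300.UB.budget n p + 1)).le).le
    have e3 : Real.exp (C * R300.UB.budget n p + 1) * 2 ≤
        Real.exp ((C + 3) * R300.UB.budget n p) := by
      rw [← Real.exp_log two_pos, ← Real.exp_add]
      exact Real.exp_le_exp.2 (by linarith)
    refine le_trans (by linarith) (e3.trans (le_of_eq ?_))
    unfold R300.UB.budget
    simp only [mul_assoc]
  · have e1 := R300.UB.core hn b0 b1 hm' x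
    have e2 := (le_abs_self _).trans (R300.UB.abs_prK_sub_le hp.le hp1.le a0.le a1.le
      fun keeps : Fin m → Fin n → Bool =>
        R300.UB.decode (n, p', R300.UB.traces x keeps) ≠ List.ofFn x)
    have e3 : (1 : ℝ) / (3 * (n + 1)) = 1 / (4 * (n + 1)) + 1 / (12 * (n + 1)) := by
      field_simp
      norm_num
    linarith

end Crest.Agent.S0456
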