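import Crest.Statements.S0457
import Crest.Agent.R300.UBCore
import Crest.Agent.R300.UBCost
import Crest.Agent.R300.UBPT

set_option autoImplicit false
open Crest.FinProb Crest.Randomized Crest.TraceRecon
open Crest Crest.LogicCS

namespace Crest.Agent.S0457

/-- For some absolute constant C ≥ 1, one randomized algorithm, polynomial-time in the length of input plus random tape, does this for every n ≥ 2, every rational retention probability 0 < p < 1 and every binary word x of length n: fed the binary codes of n and p and m = ⌈exp(C·p⁻¹·(log n)·X²·(1 + log X)⁶)⌉ independent deletion traces of x, where X = 1 + log n/(1 + log(1/(1 − p))), its output reads as x with probability at least 2/3 over the traces and its tape. Natural logarithms. -/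
theorem result :
    ∃ C : ℝ, 1 ≤ C ∧ ∃ (A : List Bool × List Bool → List Bool) (r : Polynomial ℕ), RandPolyTime A ∧
      ∀ n : ℕ, 2 ≤ n → ∀ p : ℚ, 0 < p → p < 1 → ∀ x : Fin n → Bool,
        2 / 3 ≤ decoderSuccessProb (traceBudget C n p) p A r x := by
  obtain ⟨C, hC, hneed⟩ := R300.UB.need_le
  have hm : ∀ n : ℕ, 2 ≤ n → ∀ p : ℚ, 0 < p → p < 1 →
      2 ^ R300.UB.eNeed n p ≤ traceBudget C n p := fun n hn p hp hp1 => by
    have : (2 : ℝ) ^ R300.UB.eNeed n p ≤ (traceBudget C n p : ℕ) :=
      (hneed n hn p hp hp1).trans (Nat.le_ceil _)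
    exact_mod_cast this
  refine R300.PTW.s0457_of C hC R300.UB.Valid R300.UB.decode R300.UB.decode_pt
    (fun n hn p hp hp1 x keeps => ⟨hn, hp, hp1, ?_⟩) fun n hn p hp hp1 x => ?_
  · simpa only [List.length_ofFn] using hm n hn p hp hp1
  have a0 : (0 : ℝ) ≤ p := by exact_mod_cast hp.le
  have a1 : (p : ℝ) ≤ 1 := by exact_mod_cast hp1.le
  have e1 := R300.UB.core hn hp hp1 (hm n hn p hp hp1) x
  have e2 := R300.UB.prK_not (p : ℝ) fun keeps : Fin (traceBudget C n p) → Fin n → Bool =>
    R300.UB.decode (n, p, R300.UB.traces x keeps) ≠ List.ofFn x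
  have e3 := R300.UB.prK_mono a0 a1
    (E := fun keeps : Fin (traceBudget C n p) → Fin n → Bool =>
      ¬R300.UB.decode (n, p, R300.UB.traces x keeps) ≠ List.ofFn x)
    (F := fun keeps => readWord n (R300.UB.decode (n, p, R300.UB.traces x keeps)) = x)
    fun keeps h => by
      rw [not_not.1 h]
      funext i
      simp [readWord]
  have e4 : (1 : ℝ) / (4 * (n + 1)) ≤ 1 / 4 :=
    one_div_le_one_div_of_le (by norm_num) (by linarith [Nat.cast_nonneg (α := ℝ) n])
  refine le_trans (by linarith) (e3.trans (le_of_eq ?_))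
  unfold R300.UB.prK R300.PTW.detSuccess R300.UB.traces
  exact Finset.sum_congr rfl fun keeps _ => by congr

end Crest.Agent.S0457
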