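import Crest.Statements.S0461
import Crest.Agent.R302.Main
import Crest.Agent.R302.Final

set_option autoImplicit false
open Crest.Polymatroid
open Crest Crest.LogicCS

namespace Crest.Agent.S0461

/-- Counting common integer bases of two integral polymatroids given by rank-value oracles: one randomized oracle word-RAM program such that for all normalised nondecreasing submodular r₁, r₂ on an n-set with common total rank R and rationals ε, δ in (0,1), given the words n, R, ε, δ, every run halts within C·(S+1)^d steps, queries included (S = n + bit lengths + ⌈1/ε⌉), outputting a nonnegative rational that is 0 on all runs when the count is 0 and within 1 ± ε of it with probability ≥ 1−δ. -/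
theorem result :
    ∃ (P : Crest.OracleRAM.OProgram) (c₀ C d : ℕ),
      ∀ (n R : ℕ) (r₁ r₂ : Finset (Fin n) → ℕ) (ε δ : ℚ),
        IsPolymatroidRank r₁ → IsPolymatroidRank r₂ → r₁ Finset.univ = R → r₂ Finset.univ = R →
        0 < ε → ε < 1 → 0 < δ → δ < 1 →
        (∀ ρ : ℕ → ℕ, (Crest.OracleRAM.orun P n (fun b => if b then r₂ else r₁)
            (c₀ * Nat.clog 2 (n + R + ε.num.natAbs + ε.den + δ.num.natAbs + δ.den + 2)) ρ
            (countInput n R ε δ) (C * (sizeParam n R ε δ + 1) ^ d)).cfg.halted = true) ∧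
        (∀ ρ : ℕ → ℕ, ∃ z : ℚ, 0 ≤ z ∧
          Crest.OracleRAM.decodeRat
              (c₀ * Nat.clog 2 (n + R + ε.num.natAbs + ε.den + δ.num.natAbs + δ.den + 2))
              (Crest.OracleRAM.orun P n (fun b => if b then r₂ else r₁)
                (c₀ * Nat.clog 2 (n + R + ε.num.natAbs + ε.den + δ.num.natAbs + δ.den + 2)) ρ
                (countInput n R ε δ) (C * (sizeParam n R ε δ + 1) ^ d)).cfg.output = some z) ∧
        (numCommonIntBases R r₁ r₂ = 0 → ∀ ρ : ℕ → ℕ,
          Crest.OracleRAM.decodeRat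
              (c₀ * Nat.clog 2 (n + R + ε.num.natAbs + ε.den + δ.num.natAbs + δ.den + 2))
              (Crest.OracleRAM.orun P n (fun b => if b then r₂ else r₁)
                (c₀ * Nat.clog 2 (n + R + ε.num.natAbs + ε.den + δ.num.natAbs + δ.den + 2)) ρ
                (countInput n R ε δ) (C * (sizeParam n R ε δ + 1) ^ d)).cfg.output = some 0) ∧
        1 - (δ : ℝ) ≤ Crest.OracleRAM.oprobAfter P n (fun b => if b then r₂ else r₁)
            (c₀ * Nat.clog 2 (n + R + ε.num.natAbs + ε.den + δ.num.natAbs + δ.den + 2))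
            (countInput n R ε δ) (C * (sizeParam n R ε δ + 1) ^ d)
            (fun c => ∃ z : ℚ, Crest.OracleRAM.decodeRat
                (c₀ * Nat.clog 2 (n + R + ε.num.natAbs + ε.den + δ.num.natAbs + δ.den + 2))
                c.cfg.output = some z ∧
              (1 - ε) * numCommonIntBases R r₁ r₂ ≤ z ∧ z ≤ (1 + ε) * numCommonIntBases R r₁ r₂) := by
  obtain ⟨len, f, C, d, hlen, hf, h0, h⟩ := Crest.Agent.R302.exists_fpras
  obtain ⟨P, c₀, C', d', H⟩ := Crest.Agent.R302.exists_machine len f C d hlen hf h0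
  refine ⟨P, c₀, C', d', fun n R r₁ r₂ ε δ h₁ h₂ e₁ e₂ hε hε1 hδ hδ1 => ?_⟩
  obtain ⟨a1, a2, a3, a4⟩ := h n R r₁ r₂ ε δ (Crest.Agent.R302.orcOf fun b => if b then r₂ else r₁)
    h₁ h₂ e₁ e₂ hε hε1 hδ hδ1 (fun A => by simp [Crest.Agent.R302.orcOf_mask])
    (fun A => by simp [Crest.Agent.R302.orcOf_mask])
  refine H n R _ ε δ _ hε (fun b A => ?_) a1 a2 a3 a4
  have b1 := h₁.2.1 A _ (Finset.subset_univ A)
  have b2 := h₂.2.1 A _ (Finset.subset_univ A)
  cases b <;> simp <;> omega

end Crest.Agent.S0461
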