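import Crest.Statements.S0464
import Crest.Agent.R304.Final
import Crest.Agent.R304.AlgPT2
import Crest.Agent.R304.Count
import Crest.Agent.Lib.PT.Dep

set_option autoImplicit false
open Crest.Enc Crest.FinProb Crest.Randomized Crest.Matchings
open Crest Crest.LogicCS

namespace Crest.Agent.S0464

open Crest.Agent.R304 Crest.Agent.R309 Crest.Agent.Lib.PT

/-- The instances. -/
abbrev Ix : Type := Σ n : ℕ, (Σ G : SimpleGraph (Fin n), DecidableRel G.Adj) × ℚ × ℚ

/-- The code of an instance. -/
def code (i : Ix) : List Bool :=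
  @graphCode i.1 i.2.1.1 i.2.1.2 ++ ratCode i.2.2.1 ++ ratCode i.2.2.2 ++ List.replicate ⌈i.2.2.1⁻¹⌉₊ true

/-- The adjacency matrix. -/
def gl {n : ℕ} (G : SimpleGraph (Fin n)) [DecidableRel G.Adj] : List (List Bool) :=
  List.ofFn fun j => List.ofFn fun k => decide (G.Adj j k)

lemma reads_code : Reads code fun i => (@gl i.1 i.2.1.1 i.2.1.2, code i) := by
  have h1 := @Reads.split_graphCode _ _ _ code (fun i => i.1) (fun i => i.2.1.1) (fun i => i.2.1.2)
    (fun i => ratCode i.2.2.1 ++ ratCode i.2.2.2 ++ List.replicate ⌈i.2.2.1⁻¹⌉₊ true)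
    ((Reads.self _).congr fun i => by simp only [code, List.append_assoc])
  refine Reads.pair (h1.2.1.of_enc fun i => ?_) (Reads.self _)
  rw [enc_D, enc_finFun, gl]
  exact enc_ofFn_congr _ _ fun _ => rfl

lemma adj_gl {n : ℕ} (G : SimpleGraph (Fin n)) [DecidableRel G.Adj] (u v : Fin n) :
    adj (gl G) u v = decide (G.Adj u v) := by
  simp [adj, gl, List.getD_eq_getElem?_getD]

lemma cntG_gl {n : ℕ} (G : SimpleGraph (Fin n)) [DecidableRel G.Adj] :
    cntG n (gl G) = numPerfectMatchings G := by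
  rw [num_eq, cntG]
  congr 1
  ext S
  simp [adj_gl]

lemma length_graphCode (n : ℕ) (G : SimpleGraph (Fin n)) [DecidableRel G.Adj] :
    n ≤ (graphCode n G).length := by
  have : n ≤ n * n := Nat.le_mul_self n
  simp [graphCode, List.length_flatten, List.map_map, Function.comp_def]
  omega

lemma two_pow_size_le (m : ℕ) : 2 ^ Nat.size (m + 1024) ≤ 2 * (m + 1024) := by
  have h1 : 0 < Nat.size (m + 1024) := Nat.size_pos.2 (by omega)
  have h2 : 2 ^ (Nat.size (m + 1024) - 1) ≤ m + 1024 := Nat.lt_size.1 (by omega)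
  calc 2 ^ Nat.size (m + 1024) = 2 ^ (Nat.size (m + 1024) - 1 + 1) := by congr 1; omega
    _ ≤ 2 * (m + 1024) := by rw [pow_succ]; omega

lemma pb_two_pow_size {α : Type} [Enc α] {m : α → ℕ} (hm : PB m) :
    PB fun a => 2 ^ Nat.size (m a + 1024) :=
  PB.of_le ((PB.const 2).mul (hm.add (PB.const 1024))) fun _ => two_pow_size_le _

/-- A randomized polynomial-time approximation scheme counts perfect matchings of simple graphs: one algorithm and one polynomial r such that, on the code of a graph, of rationals 0 < ε < 1, 0 < δ < 1/2 and a unary block of length ⌈1/ε⌉, run with r(input length) fair random bits, every tape yields the code of a nonnegative rational, which with probability at least 1 − δ is within a factor 1 ± ε of the number of perfect matchings, and which is 0 on every tape when there is no perfect matching. -/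
theorem result :
    ∃ (A : List Bool × List Bool → List Bool) (r : Polynomial ℕ), RandPolyTime A ∧
      ∀ (n : ℕ) (G : SimpleGraph (Fin n)) [DecidableRel G.Adj] (ε δ : ℚ),
        0 < ε → ε < 1 → 0 < δ → δ < 1 / 2 →
        (∀ ω : Fin (r.eval (graphCode n G ++ ratCode ε ++ ratCode δ ++ List.replicate ⌈ε⁻¹⌉₊ true).length) → Bool,
          ∃ z : ℚ, 0 ≤ z ∧ A (graphCode n G ++ ratCode ε ++ ratCode δ ++ List.replicate ⌈ε⁻¹⌉₊ true, List.ofFn ω) = ratCode z) ∧
        (numPerfectMatchings G = 0 →
          ∀ ω : Fin (r.eval (graphCode n G ++ ratCode ε ++ ratCode δ ++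
              List.replicate ⌈ε⁻¹⌉₊ true).length) → Bool,
            A (graphCode n G ++ ratCode ε ++ ratCode δ ++ List.replicate ⌈ε⁻¹⌉₊ true,
              List.ofFn ω) = ratCode 0) ∧
        1 - (δ : ℝ) ≤ uniformProb {ω : Fin (r.eval (graphCode n G ++ ratCode ε ++ ratCode δ ++
              List.replicate ⌈ε⁻¹⌉₊ true).length) → Bool |
            ∃ z : ℚ, A (graphCode n G ++ ratCode ε ++ ratCode δ ++ List.replicate ⌈ε⁻¹⌉₊ true,
              List.ofFn ω) = ratCode z ∧
              (1 - ε) * numPerfectMatchings G ≤ z ∧ z ≤ (1 + ε) * numPerfectMatchings G} := by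
  obtain ⟨A, hA, hAe⟩ := reads_code.exists_randPolyTime
    (g := fun p : (List (List Bool) × List Bool) × List Bool =>
      ratCode (best (Nat.size (p.1.2.length + 1024)) p.1.1 p.1.2.length p.2))
    (PT.ratCode (pt_best (by fun_prop) (pb_two_pow_size (by fun_prop)) (by fun_prop) (by fun_prop)
      (by fun_prop) (by fun_prop)))
  have hb : PB fun x : List Bool => x.length * rTot (Nat.size (x.length + 1024)) :=
    PB.mul (by fun_prop) (pt_rTot (ℓ := fun x : List Bool => Nat.size (x.length + 1024)) (by fun_prop)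
      (pb_two_pow_size (by fun_prop))).2
  obtain ⟨r, hr⟩ := hb.exists_poly
  refine ⟨A, r, hA, fun n G inst ε δ hε _ hδ _ => ?_⟩
  have hx := hAe ⟨n, ⟨G, inst⟩, ε, δ⟩
  have hc := cntG_gl G
  have l0 : n ≤ (code ⟨n, ⟨G, inst⟩, ε, δ⟩).length := by
    have := length_graphCode n G
    simp only [code, List.length_append]; omega
  have l1 : ⌈ε⁻¹⌉₊ ≤ (code ⟨n, ⟨G, inst⟩, ε, δ⟩).length := by
    simp only [code, List.length_append, List.length_replicate]; omega
  have l2 : Nat.size δ.den ≤ (code ⟨n, ⟨G, inst⟩, ε, δ⟩).length := by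
    simp only [code, ratCode, List.length_append, List.length_cons, length_natCode]; omega
  simp only [code] at hx l0 l1 l2
  generalize graphCode n G ++ ratCode ε ++ ratCode δ ++ List.replicate ⌈ε⁻¹⌉₊ true = x
    at hx l0 l1 l2 ⊢
  have hlt := Nat.lt_size_self (x.length + 1024)
  have hlen : (gl G).length = n := by simp [gl]
  have hT : Sz n (Nat.size (x.length + 1024)) (gl G) :=
    ⟨hlen, by omega, (Nat.lt_size.2 (by omega : 2 ^ 10 ≤ x.length + 1024)).le,
      fun u v => by simp only [adj_gl, G.adj_comm]⟩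
  refine ⟨fun ω => ⟨_, best_nonneg _ _ _ _, hx _⟩, fun h0 ω => ?_, ?_⟩
  · rw [hx, best_zero hlen (hc.trans h0)]
  · rw [uniformProb_eq _ fun l => ∃ z : ℚ, A (x, l) = ratCode z ∧
      (1 - ε) * numPerfectMatchings G ≤ z ∧ z ≤ (1 + ε) * numPerfectMatchings G]
    have h1 := hT.best_good x.length
    rw [Pr_not, ← Pr_of_prefix (hr x) (fun l => by rw [best_take])] at h1
    have hs : 1 / (2 : ℚ) ^ Nat.size (x.length + 1024) ≤ ε := by
      rw [one_div]
      refine inv_le_of_inv_le₀ hε ((Nat.le_ceil _).trans ?_)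
      exact_mod_cast (by omega : ⌈ε⁻¹⌉₊ ≤ 2 ^ Nat.size (x.length + 1024))
    have hd : (1 / 2 : ℝ) ^ x.length ≤ δ := by
      have e1 : δ.den < 2 ^ x.length :=
        (Nat.lt_size_self _).trans_le (Nat.pow_le_pow_right (by norm_num) l2)
      have e2 : (1 : ℝ) ≤ δ.num := by exact_mod_cast Rat.num_pos.2 hδ
      have e3 : (δ.den : ℝ) ≤ 2 ^ x.length := by exact_mod_cast e1.le
      have e4 : (0 : ℝ) < δ.den := by exact_mod_cast δ.den_pos
      rw [Rat.cast_def, one_div, inv_pow, ← one_div]
      gcongr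
    refine le_trans (by linarith) (Pr_mono (P := fun ω => R304.Acc n (Nat.size (x.length + 1024)) (gl G)
      (best (Nat.size (x.length + 1024)) (gl G) x.length ω)) fun l _ h => ?_)
    have h0 : (0 : ℚ) ≤ numPerfectMatchings G := Nat.cast_nonneg _
    rw [R304.Acc, hc] at h
    exact ⟨_, hx l, le_trans (by gcongr) h.1, h.2.trans (by gcongr)⟩

end Crest.Agent.S0464
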