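import Crest.Statements.S0472
import Crest.Agent.R307.CKOde

set_option autoImplicit false
open Crest.CubeNoise
open Crest Crest.LogicCS

namespace Crest.Agent.S0472

/-- Let g be a real function on the n-dimensional Boolean cube with values strictly between -1 and 1, m its mean, I its information, D its entropy production and J = log 2 - (mean sign entropy of its values)/(1 - m²). Write ψ(r) = log 2 - (entropy of a sign of mean r) and F(ψ(r)) = r·artanh r for 0 ≤ r < 1 (ψ maps [0,1) bijectively onto [0, log 2)). Then D ≥ F(I), and D ≥ 2I + (1 - m²)·S(J) with S(J) = F(J) - 2J for J ≥ 0 and S(J) = 0 for J < 0; F is written via r with ψ(r) equal to its argument. -/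
theorem result (n : ℕ) (g : (Fin n → Bool) → ℝ)
    (hg : ∀ x, |g x| < 1) :
    (∀ r : ℝ, 0 ≤ r → r < 1 → Real.log 2 - signEntropy r = information g →
        r * Real.artanh r ≤ production g) ∧
    (surplusArg g < 0 → 2 * information g ≤ production g) ∧
    (∀ s : ℝ, 0 ≤ s → s < 1 → Real.log 2 - signEntropy s = surplusArg g →
        2 * information g + (1 - cubeAverage g ^ 2) * (s * Real.artanh s - 2 * surplusArg g)
          ≤ production g) :=
  Crest.Agent.R307.prod_bounds n g hg

end Crest.Agent.S0472
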