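import Crest.Statements.S0479
import Crest.Agent.R309.Read

set_option autoImplicit false
open Crest.Enc Crest.FinProb Crest.Randomized Crest.Tables
open Crest Crest.LogicCS

namespace Crest.Agent.S0479

open Crest.Agent.R309 Crest.Agent.Lib.PT

/-- The instances. -/
abbrev Ix : Type := Σ m n : ℕ, (Fin m → ℕ) × (Fin n → ℕ) × (Fin m → Fin n → ℕ) × ℚ × ℚ

/-- The code of an instance. -/
def code (i : Ix) : List Bool :=
  marginsCode i.2.2.1 i.2.2.2.1 ++ boundsCode i.2.2.2.2.1 ++ ratCode i.2.2.2.2.2.1 ++
    ratCode i.2.2.2.2.2.2 ++ List.replicate ⌈i.2.2.2.2.2.1⁻¹⌉₊ true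

lemma reads_code : Reads code fun i =>
    (List.ofFn i.2.2.1, List.ofFn i.2.2.2.1, flat i.2.2.2.2.1, code i) := by
  have h1 := reads_margins (u := code) (m := fun i => i.1) (n := fun i => i.2.1)
    (rs := fun i => i.2.2.1) (cs := fun i => i.2.2.2.1)
    (r := fun i => ((flat i.2.2.2.2.1).map natCode).flatten ++ (ratCode i.2.2.2.2.2.1 ++
      ratCode i.2.2.2.2.2.2 ++ List.replicate ⌈i.2.2.2.2.2.1⁻¹⌉₊ true))
    ((Reads.self _).congr fun i => by
      simp only [code, boundsCode, flatten_rows, List.append_assoc])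
  have h2 : Reads code fun i => (List.ofFn i.2.2.1).length * (List.ofFn i.2.2.2.1).length :=
    (h1.1.pair h1.2.1).comp (g := fun p : List ℕ × List ℕ => p.1.length * p.2.length) (by fun_prop)
  have h3 := Reads.split_many SD.natCode natCode_ne_nil h2
    (fun i => by simp [length_flat]) h1.2.2
  exact h1.1.pair (h1.2.1.pair (h3.1.pair (Reads.self _)))

lemma tsz (i : Ix) : TSz (List.ofFn i.2.2.1) (List.ofFn i.2.2.2.1) (flat i.2.2.2.2.1)
    ((code i).length + 100) := by
  obtain ⟨m, n, rs, cs, b, ε, δ⟩ := i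
  have a1 := length_le_length_flatten_map natCode natCode_ne_nil (List.ofFn rs)
  have a2 := length_le_length_flatten_map natCode natCode_ne_nil (List.ofFn cs)
  have a3 := length_le_length_flatten_map natCode natCode_ne_nil (flat b)
  rw [length_flat] at a3
  have key : ∀ {a k l : ℕ}, a < 2 ^ k → k ≤ l → a < 2 ^ l := fun h hk =>
    h.trans_le (Nat.pow_le_pow_right (by norm_num) hk)
  simp only [code, marginsCode, boundsCode, flatten_rows, List.length_append]
  refine ⟨by omega, ?_, fun x hx => key (lt_two_pow_codes hx) (by omega),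
    fun x hx => key (lt_two_pow_codes hx) (by omega),
    fun x hx => key (lt_two_pow_codes hx) (by omega)⟩
  simp only [List.length_ofFn] at a1 a2 ⊢
  omega

/-- A randomized polynomial-time approximation scheme counts contingency tables with cell bounds: one algorithm and one polynomial r such that, on the codes of margins, of cell bounds, of rationals ε, δ in (0,1) and a unary block of length ⌈1/ε⌉, run with r(input length) fair random bits, every tape yields the code of a nonnegative rational, which with probability at least 1 − δ is within a factor 1 ± ε of the number of bounded tables, and which is 0 on every tape when there is no such table. -/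
theorem result :
    ∃ (A : List Bool × List Bool → List Bool) (r : Polynomial ℕ), RandPolyTime A ∧
      ∀ (m n : ℕ) (rs : Fin m → ℕ) (cs : Fin n → ℕ) (b : Fin m → Fin n → ℕ) (ε δ : ℚ),
        0 < ε → ε < 1 → 0 < δ → δ < 1 →
        (∀ ω : Fin (r.eval (marginsCode rs cs ++ boundsCode b ++ ratCode ε ++ ratCode δ ++ List.replicate ⌈ε⁻¹⌉₊ true).length) → Bool,
          ∃ z : ℚ, 0 ≤ z ∧ A (marginsCode rs cs ++ boundsCode b ++ ratCode ε ++ ratCode δ ++ List.replicate ⌈ε⁻¹⌉₊ true, List.ofFn ω) = ratCode z) ∧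
        (numBoundedTables rs cs b = 0 →
          ∀ ω : Fin (r.eval (marginsCode rs cs ++ boundsCode b ++ ratCode ε ++ ratCode δ ++
              List.replicate ⌈ε⁻¹⌉₊ true).length) → Bool,
            A (marginsCode rs cs ++ boundsCode b ++ ratCode ε ++ ratCode δ ++
              List.replicate ⌈ε⁻¹⌉₊ true, List.ofFn ω) = ratCode 0) ∧
        1 - (δ : ℝ) ≤ uniformProb {ω : Fin (r.eval (marginsCode rs cs ++ boundsCode b ++ ratCode ε ++
              ratCode δ ++ List.replicate ⌈ε⁻¹⌉₊ true).length) → Bool |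
            ∃ z : ℚ, A (marginsCode rs cs ++ boundsCode b ++ ratCode ε ++ ratCode δ ++
                List.replicate ⌈ε⁻¹⌉₊ true, List.ofFn ω) = ratCode z ∧
              (1 - ε) * numBoundedTables rs cs b ≤ z ∧ z ≤ (1 + ε) * numBoundedTables rs cs b} := by
  obtain ⟨A, hA, hAe⟩ := reads_code.exists_randPolyTime
    (g := fun p : (List ℕ × List ℕ × List ℕ × List Bool) × List Bool =>
      ratCode (best p.1.1 p.1.2.1 p.1.2.2.1 (p.1.2.2.2.length + 100) p.1.2.2.2.length p.2))
    (PT.ratCode (pt_best (by fun_prop) (by fun_prop) (by fun_prop) (by fun_prop) (by fun_prop)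
      (by fun_prop) (by fun_prop) (by fun_prop)))
  have hb : PB fun x : List Bool => x.length * rTot (x.length + 100) :=
    PB.mul (by fun_prop) (pt_rTot (s := fun x : List Bool => x.length + 100) (by fun_prop)
      (by fun_prop)).2
  obtain ⟨r, hr⟩ := hb.exists_poly
  refine ⟨A, r, hA, fun m n rs cs b ε δ hε _ hδ _ => ?_⟩
  have hx := hAe ⟨m, n, rs, cs, b, ε, δ⟩
  have hT := tsz ⟨m, n, rs, cs, b, ε, δ⟩
  have hc : (tinst (List.ofFn rs) (List.ofFn cs) (flat b)).cnt = numBoundedTables rs cs b := by
    rw [cnt_tinst]; congr 1; funext i j; exact getD_flat b i j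
  have l1 : ⌈ε⁻¹⌉₊ ≤ (code ⟨m, n, rs, cs, b, ε, δ⟩).length := by
    simp only [code, List.length_append, List.length_replicate]; omega
  have l2 : Nat.size δ.den ≤ (code ⟨m, n, rs, cs, b, ε, δ⟩).length := by
    simp only [code, ratCode, List.length_append, List.length_cons, length_natCode]; omega
  simp only [code] at hx hT l1 l2
  generalize marginsCode rs cs ++ boundsCode b ++ ratCode ε ++ ratCode δ ++
    List.replicate ⌈ε⁻¹⌉₊ true = x at hx hT l1 l2 ⊢
  refine ⟨fun ω => ⟨_, best_nonneg _ _ _ _ _ _, hx _⟩, fun h0 ω => ?_, ?_⟩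
  · rw [hx, hT.best_zero (hc.trans h0)]
  · rw [uniformProb_eq _ fun l => ∃ z : ℚ, A (x, l) = ratCode z ∧
      (1 - ε) * numBoundedTables rs cs b ≤ z ∧ z ≤ (1 + ε) * numBoundedTables rs cs b]
    have h1 := hT.best_good x.length
    rw [Pr_not, hc, ← Pr_of_prefix (hr x) (fun l => by rw [best_take])] at h1
    have hs : 1 / ((x.length + 100 : ℕ) : ℚ) ≤ ε := by
      rw [one_div]
      refine inv_le_of_inv_le₀ hε ((Nat.le_ceil _).trans ?_)
      exact_mod_cast (by omega : ⌈ε⁻¹⌉₊ ≤ x.length + 100)
    have hd : (1 / 2 : ℝ) ^ x.length ≤ δ := by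
      have e1 : δ.den < 2 ^ x.length :=
        (Nat.lt_size_self _).trans_le (Nat.pow_le_pow_right (by norm_num) l2)
      have e2 : (1 : ℝ) ≤ δ.num := by exact_mod_cast Rat.num_pos.2 hδ
      have e3 : (δ.den : ℝ) ≤ 2 ^ x.length := by exact_mod_cast e1.le
      have e4 : (0 : ℝ) < δ.den := by exact_mod_cast δ.den_pos
      rw [Rat.cast_def, one_div, inv_pow, ← one_div]
      gcongr
    refine le_trans (by linarith) (Pr_mono (P := fun ω =>
      (1 - 1 / ((x.length + 100 : ℕ) : ℚ)) * numBoundedTables rs cs b ≤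
        best (List.ofFn rs) (List.ofFn cs) (flat b) (x.length + 100) x.length ω ∧
      best (List.ofFn rs) (List.ofFn cs) (flat b) (x.length + 100) x.length ω ≤
        (1 + 1 / ((x.length + 100 : ℕ) : ℚ)) * numBoundedTables rs cs b) fun l _ h => ?_)
    have h0 : (0 : ℚ) ≤ numBoundedTables rs cs b := Nat.cast_nonneg _
    exact ⟨_, hx l, le_trans (by gcongr) h.1, h.2.trans (by gcongr)⟩

end Crest.Agent.S0479
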