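import Crest.Statements.S0480
import Crest.Agent.R309.Read
import Crest.Agent.R309.Tab
import Crest.Agent.R309.TabPT

set_option autoImplicit false
open Crest.Enc Crest.FinProb Crest.Randomized Crest.Tables
open Crest Crest.LogicCS

namespace Crest.Agent.S0480

open Crest.Agent.R309 Crest.Agent.Lib.PT

/-- The instances. -/
abbrev Ix : Type := Σ m n : ℕ, (Fin m → ℕ) × (Fin n → ℕ) × ℕ

/-- The code of an instance. -/
def code (i : Ix) : List Bool := marginsCode i.2.2.1 i.2.2.2.1 ++ List.replicate i.2.2.2.2 true

lemma reads_code : Reads code fun i =>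
    (List.ofFn i.2.2.1, List.ofFn i.2.2.2.1, List.replicate i.2.2.2.2 true) := by
  have h1 := reads_margins (u := code) (m := fun i => i.1) (n := fun i => i.2.1)
    (rs := fun i => i.2.2.1) (cs := fun i => i.2.2.2.1)
    (r := fun i => List.replicate i.2.2.2.2 true) (Reads.self _)
  exact h1.1.pair (h1.2.1.pair h1.2.2)

lemma matrixCode_eq {m n : ℕ} (X : Fin m → Fin n → ℕ) :
    matrixCode X = natCode m ++ natCode n ++ ((flat X).map natCode).flatten := by
  rw [matrixCode, flatten_rows]

lemma matrixCode_inj {m n : ℕ} {X Y : Fin m → Fin n → ℕ} (h : matrixCode X = matrixCode Y) :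
    X = Y := by
  rw [matrixCode_eq, matrixCode_eq, List.append_cancel_left_eq] at h
  refine flat_injective (SD.listCode.injective ?_)
  simp only [listCode, length_flat, h]

/-- An almost-uniform sampler for contingency tables in randomized polynomial time: one algorithm and one polynomial r such that, on the code of margins with equal totals followed by a unary block of length k ≥ 1, run with r(input length) fair random bits, every tape yields the code of a table with those margins, and half the sum over matrices of the absolute difference between the probability of being output and the uniform weight on such tables is at most 2^(−k). -/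
theorem result :
    ∃ (A : List Bool × List Bool → List Bool) (r : Polynomial ℕ), RandPolyTime A ∧
      ∀ (m n : ℕ) (rs : Fin m → ℕ) (cs : Fin n → ℕ) (k : ℕ), 1 ≤ k → ∑ i, rs i = ∑ j, cs j →
        (∀ ω : Fin (r.eval (marginsCode rs cs ++ List.replicate k true).length) → Bool,
          ∃ X : Fin m → Fin n → ℕ, IsTable rs cs X ∧
            A (marginsCode rs cs ++ List.replicate k true, List.ofFn ω) = matrixCode X) ∧
        (∑ X : (i : Fin m) → (j : Fin n) → Fin (∑ i, rs i + 1),
            |uniformProb {ω : Fin (r.eval (marginsCode rs cs ++ List.replicate k true).length) → Bool |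
                A (marginsCode rs cs ++ List.replicate k true, List.ofFn ω) =
                  matrixCode (fun i j => (X i j : ℕ))} -
              uniformTableWeight rs cs (fun i j => (X i j : ℕ))|) / 2
          ≤ (2 : ℝ)⁻¹ ^ k := by
  have hD := pt_tD (rs := fun p : List ℕ × List ℕ × List Bool => p.1) (cs := fun p => p.2.1)
    (by fun_prop) (by fun_prop)
  have hR := pt_tR (rs := fun p : List ℕ × List ℕ × List Bool => p.1) (cs := fun p => p.2.1)
    (by fun_prop) (by fun_prop)
  have ht : PT fun p : List ℕ × List ℕ × List Bool => 6 * (p.2.2.length + tD p.1 p.2.1) :=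
    (PT.const 6).mul (PT.add (by fun_prop) hD.1)
  have ht' : PB fun p : List ℕ × List ℕ × List Bool => 6 * (p.2.2.length + tD p.1 p.2.1) :=
    (PB.const 6).mul (PB.add (by fun_prop) hD.2)
  obtain ⟨A, hA, hAe⟩ := reads_code.exists_randPolyTime
    (g := fun p : (List ℕ × List ℕ × List Bool) × List Bool =>
      natCode p.1.1.length ++ natCode p.1.2.1.length ++ ((tdec p.1.1 p.1.2.1
        (walk p.1.1 p.1.2.1 (6 * (p.1.2.2.length + tD p.1.1 p.1.2.1)) p.2)).map natCode).flatten)
    (PT.append (by fun_prop) (PT.flatten (PT.map (g := fun _ a => natCode a)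
      (pt_tdec (by fun_prop) (by fun_prop) (pt_walk (by fun_prop) (by fun_prop)
        (ht.comp PT.id.fst) (ht'.comp_sz (by fun_prop)) (by fun_prop))) (by fun_prop))))
  obtain ⟨G, hG, hGe⟩ := (reads_code.comp (g := fun p : List ℕ × List ℕ × List Bool =>
    List.replicate (6 * (p.2.2.length + tD p.1 p.2.1) * tR p.1 p.2.1) ())
    (PT.replicate (ht.mul hR.1) (ht'.mul hR.2) (PT.const ()))).exists_pt
  obtain ⟨r, hr⟩ := (PB.length hG).exists_poly
  refine ⟨A, r, hA, fun m n rs cs k _ hsum => ?_⟩
  have hx := hAe ⟨m, n, rs, cs, k⟩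
  have hl := hr (code ⟨m, n, rs, cs, k⟩)
  rw [hGe] at hl
  simp only [code, List.length_ofFn, List.length_replicate] at hx hl
  generalize marginsCode rs cs ++ List.replicate k true = x at hx hl ⊢
  have hDo := doeb_tstep rs cs hsum
  have h0 := tx0_mem rs cs hsum
  have hcard := card_tOm rs cs
  have hle : (tOm (List.ofFn rs) (List.ofFn cs)).card ≤ 2 ^ tD (List.ofFn rs) (List.ofFn cs) :=
    card_leaves_le
  generalize tD (List.ofFn rs) (List.ofFn cs) = D at hx hl hle
  have hw : ∀ ω, walk (List.ofFn rs) (List.ofFn cs) (6 * (k + D)) ω ∈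
      tOm (List.ofFn rs) (List.ofFn cs) := fun ω => walk_mem hDo.closed h0 _
  have hout : ∀ ω, ∃ X : Fin m → Fin n → ℕ, IsTable rs cs X ∧ A (x, ω) = matrixCode X ∧
      tdec (List.ofFn rs) (List.ofFn cs) (walk (List.ofFn rs) (List.ofFn cs) (6 * (k + D)) ω) =
        flat X := fun ω => by
    obtain ⟨X, hX, e⟩ := tdec_isTable rs cs (hw ω)
    exact ⟨X, hX, by rw [hx, e, matrixCode_eq], e⟩
  refine ⟨fun ω => (hout _).imp fun X h => ⟨h.1, h.2.1⟩, ?_⟩
  classical
  have key : ∀ X : (i : Fin m) → (j : Fin n) → Fin (∑ i, rs i + 1),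
      |uniformProb {ω : Fin (r.eval x.length) → Bool |
          A (x, List.ofFn ω) = matrixCode (fun i j => (X i j : ℕ))} -
        uniformTableWeight rs cs (fun i j => (X i j : ℕ))| ≤
      if IsTable rs cs (fun i j => (X i j : ℕ)) then (7 / 8 : ℝ) ^ (6 * (k + D)) else 0 := by
    intro X
    rw [uniformProb_eq _ fun l => A (x, l) = matrixCode (fun i j => (X i j : ℕ)), uniformTableWeight]
    split_ifs with hX
    · obtain ⟨e1, e2⟩ := tenc_mem rs cs hX
      have := hDo.close h0 (6 * (k + D)) e1
      rw [hcard, ← Pr_of_prefix hl (fun l => by rw [chunks_take le_rfl])] at this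
      refine le_of_eq_of_le ?_ this
      congr 2
      refine Pr_congr fun l _ => ?_
      obtain ⟨Y, hY, a1, a2⟩ := hout l
      rw [a1]
      constructor
      · intro h
        refine tdec_injOn (hw l) e1 ?_
        rw [e2, ← matrixCode_inj h]
        exact a2
      · intro h
        rw [walk, h, e2] at a2
        rw [flat_injective a2]
    · rw [Pr_congr (Q := fun _ => False), Pr_false]
      · simp
      · intro l _
        obtain ⟨Y, hY, a1, -⟩ := hout l
        rw [a1]
        exact ⟨fun h => hX (matrixCode_inj h ▸ hY), False.elim⟩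
  have h1 := Finset.sum_le_sum fun X (_ : X ∈ Finset.univ) => key X
  rw [← Finset.sum_filter, Finset.sum_const, nsmul_eq_mul] at h1
  have h2 : (Finset.univ.filter fun X : (i : Fin m) → (j : Fin n) → Fin (∑ i, rs i + 1) =>
      IsTable rs cs (fun i j => (X i j : ℕ))).card ≤ 2 ^ D := by
    refine le_of_eq_of_le ?_ (hcard ▸ hle)
    rw [numBoundedTables, Fintype.card_subtype]
    congr 1
    ext X
    simp [IsTable]
  have h3 : (7 / 8 : ℝ) ^ (6 * (k + D)) ≤ 2⁻¹ ^ (k + D) := by
    rw [pow_mul]; gcongr; norm_num
  have h4 : (2 : ℝ) ^ D * 2⁻¹ ^ (k + D) = 2⁻¹ ^ k := by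
    rw [pow_add, mul_left_comm, ← mul_pow (2 : ℝ), mul_inv_cancel₀ two_ne_zero, one_pow, mul_one]
  have h5 : (0 : ℝ) ≤ 2⁻¹ ^ k := by positivity
  have h6 := mul_le_mul (Nat.cast_le (α := ℝ) |>.2 h2) h3 (by positivity) (by positivity)
  push_cast at h6
  linarith

end Crest.Agent.S0480
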