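import Crest.Statements.S0481
import Crest.Agent.R309.Exact
import Crest.Agent.R309.TabPT
import Crest.Agent.R309.RamComp
import Crest.Agent.R309.RamProb

set_option autoImplicit false
open Crest.Tables
open Crest Crest.LogicCS

namespace Crest.Agent.S0481

open Crest.Agent.R309 Crest.Agent.Lib.PT Crest.WordRAM

/-- The row sums in the input. -/
def pr (x : List ℕ) : List ℕ := (x.drop 2).take (x.headD 0)
/-- The column sums in the input. -/
def pc (x : List ℕ) : List ℕ := (x.drop 2).drop (x.headD 0)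
/-- The exponent of the slow branch. -/
def ee (x : List ℕ) : ℕ := tD (pr x) (pc x) + tR (pr x) (pc x)
/-- The number of bits deciding the branch. -/
def kk (κ : ℕ) (x : List ℕ) : ℕ := κ * ee x + 1
/-- The number of bits of a round. -/
def ln (κ : ℕ) (x : List ℕ) : ℕ := rLen (pr x) (pc x) (kk κ x)

lemma pt_pr : PT pr := by unfold pr; fun_prop
lemma pt_pc : PT pc := by unfold pc; fun_prop

lemma pt_ee : PT ee ∧ PB ee :=
  ⟨(pt_tD pt_pr pt_pc).1.add (pt_tR pt_pr pt_pc).1, (pt_tD pt_pr pt_pc).2.add (pt_tR pt_pr pt_pc).2⟩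

lemma pt_kk (κ : ℕ) : PT (kk κ) ∧ PB (kk κ) :=
  ⟨((PT.const κ).mul pt_ee.1).add (PT.const 1), ((PB.const κ).mul pt_ee.2).add (PB.const 1)⟩

lemma pt_ln (κ : ℕ) : PT (ln κ) ∧ PB (ln κ) :=
  ⟨(pt_kk κ).1.add (((PT.const 6).mul ((pt_kk κ).1.add (pt_tD pt_pr pt_pc).1)).mul
      (pt_tR pt_pr pt_pc).1),
    (pt_kk κ).2.add (((PB.const 6).mul ((pt_kk κ).2.add (pt_tD pt_pr pt_pc).2)).mul
      (pt_tR pt_pr pt_pc).2)⟩

/-- The program, with polynomially bounded word length and expected time. -/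
theorem exists_prog : ∃ (P : Program) (κ : ℕ) (W : List ℕ → ℕ), PB W ∧ ∀ (x : List ℕ) (w : ℕ),
    W x ≤ w → (∀ ω y, round (pr x) (pc x) (kk κ x) ω = some y → ∀ a ∈ y, ∃ b ∈ x, a ≤ b) →
    ∃ (t₀ : ℕ) (t : List Bool → ℕ) (Head : ℕ → Cfg P.numRegs → Prop), 0 < w ∧
      RoundSpec P w x (ln κ x) (round (pr x) (pc x) (kk κ x)) t₀ t Head ∧
      2 * (t₀ + Ex (ln κ x) fun ω => t ω) ≤ W x := by
  obtain ⟨k, hk⟩ := exists_roundSpec
  obtain ⟨c, d, hr⟩ := timeF_round
  obtain ⟨c1, k1, h1⟩ := (PT.replicate (pt_ln (d * k)).1 (pt_ln (d * k)).2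
    (PT.const ())).exists_bound
  have hφ : PT fun p : List ℕ × List Bool =>
      ((pr p.1, pc p.1), List.replicate (kk (d * k) p.1) (), p.2) :=
    ((pt_pr.comp PT.id.fst).pair (pt_pc.comp PT.id.fst)).pair
      ((PT.replicate ((pt_kk _).1.comp PT.id.fst) ((pt_kk _).2.comp_sz (by fun_prop))
        (PT.const ())).pair PT.id.snd)
  obtain ⟨c2, k2, h2⟩ := hφ.exists_bound
  have h3 := hr.comp h2
  simp only [List.length_replicate] at h3
  obtain ⟨P, K, hP⟩ := hk _ _ _ _ h1 h3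
  set Q : List ℕ → ℕ := fun x => c1 * sz x ^ k1 + c2 * (sz x + 6 * ln (d * k) x + 2) ^ k2 with hQ
  set Z : List ℕ → ℕ := fun x => Q x + c * (Q x + 1) ^ d with hZ
  have pQ : PB Q := by
    have := (pt_ln (d * k)).2
    have := @PB.sz_id (List ℕ) _
    fun_prop
  have pZ : PB Z := by fun_prop
  refine ⟨P, d * k, fun x => 6 * (K * Z x ^ k) + ee x * d * k + sz x, ?_, fun x w hw hy => ?_⟩
  · have := pt_ee.2
    have := @PB.sz_id (List ℕ) _
    fun_prop
  beta_reduce at hw ⊢
  have hxw : ∀ a ∈ x, a < 2 ^ w := fun a ha => (lt_two_pow_sz a).trans_le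
    (Nat.pow_le_pow_right (by norm_num) ((sz_le_of_mem ha).trans (by omega)))
  have hE : 1 ≤ 2 ^ (ee x * d) := Nat.one_le_two_pow
  have hT0 : c1 * sz x ^ k1 ≤ Z x := by simp only [hZ, hQ]; omega
  have hT : ∀ ω : List Bool, ω.length = ln (d * k) x → c2 * sz (x, ω) ^ k2 +
      (if (ω.take (kk (d * k) x)).all (fun b => !b) then
        c * (sz ((pr x, pc x), List.replicate (kk (d * k) x) (), ω) +
          2 ^ (tD (pr x) (pc x) + tR (pr x) (pc x))) ^ d
        else c * sz ((pr x, pc x), List.replicate (kk (d * k) x) (), ω) ^ d) ≤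
      if (ω.take (kk (d * k) x)).all (fun b => !b) then Z x * 2 ^ (ee x * d) else Z x := by
    intro ω hω
    have e1 : c2 * sz (x, ω) ^ k2 ≤ Q x := by
      have : sz (x, ω) = sz x + 6 * ln (d * k) x + 2 := by
        rw [sz_pair, sz_boolList, hω]; omega
      simp only [hQ, this]; omega
    have e2 := (h2.sz_le (x, ω)).trans e1
    dsimp only at e2
    generalize sz ((pr x, pc x), List.replicate (kk (d * k) x) (), ω) = s at e2
    split_ifs
    · have e3 : s + 2 ^ ee x ≤ (Q x + 1) * 2 ^ ee x := by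
        have : 1 ≤ 2 ^ ee x := Nat.one_le_two_pow
        nlinarith
      have e4 := Nat.mul_le_mul_left c (Nat.pow_le_pow_left e3 d)
      rw [mul_pow, ← pow_mul] at e4
      have e5 := Nat.mul_le_mul_left (Q x) hE
      simp only [hZ, add_mul, mul_assoc]
      rw [ee] at e4 e5 ⊢
      omega
    · have e4 := Nat.mul_le_mul_left c (Nat.pow_le_pow_left (e2.trans (Nat.le_succ _)) d)
      simp only [hZ]
      exact Nat.add_le_add e1 e4
  have hB : Z x ≤ Z x * 2 ^ (ee x * d) := Nat.le_mul_of_pos_right _ hE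
  have hw0 : 0 < w := by have := sz_pos x; omega
  obtain ⟨Head, H⟩ := hP x w (Z x * 2 ^ (ee x * d)) (hT0.trans hB)
    (fun ω hω => (hT ω hω).trans (by split_ifs <;> omega)) (by
      rw [mul_pow, ← pow_mul, ← mul_assoc]
      calc K * Z x ^ k * 2 ^ (ee x * d * k) < 2 ^ (K * Z x ^ k) * 2 ^ (ee x * d * k) :=
            Nat.mul_lt_mul_of_pos_right Nat.lt_two_pow_self (by positivity)
        _ ≤ 2 ^ w := by rw [← pow_add]; exact Nat.pow_le_pow_right (by norm_num) (by omega))
    hw0 hxw (fun ω _ y h a ha => by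
      obtain ⟨b, hb, hab⟩ := hy ω y h a ha
      exact hab.trans_lt (hxw b hb))
  refine ⟨_, _, Head, hw0, H, ?_⟩
  have a1 : ((K * (c1 * sz x ^ k1) ^ k : ℕ) : ℝ) ≤ (K * Z x ^ k : ℕ) := by
    exact_mod_cast Nat.mul_le_mul_left K (Nat.pow_le_pow_left hT0 k)
  have a2 := Pr_allFalse (k := kk (d * k) x) (r := ln (d * k) x) (Nat.le_add_right _ _)
  have a3 := Ex_mono (r := ln (d * k) x) (F := fun ω => ((K * (c2 * sz (x, ω) ^ k2 +
      (if (ω.take (kk (d * k) x)).all (fun b => !b) then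
        c * (sz ((pr x, pc x), List.replicate (kk (d * k) x) (), ω) +
          2 ^ (tD (pr x) (pc x) + tR (pr x) (pc x))) ^ d
        else c * sz ((pr x, pc x), List.replicate (kk (d * k) x) (), ω) ^ d)) ^ k : ℕ) : ℝ))
    (G := fun ω => ((K * Z x ^ k : ℕ) : ℝ) + ((K * Z x ^ k : ℕ) : ℝ) * 2 ^ (ee x * d * k) *
      tapeInd ((ω.take (kk (d * k) x)).all (fun b => !b) = true)) fun ω hω => by
      have e := Nat.mul_le_mul_left K (Nat.pow_le_pow_left (hT ω hω) k)
      refine (Nat.cast_le.2 e).trans ?_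
      unfold tapeInd
      split_ifs
      · rw [mul_pow, ← pow_mul, ← mul_assoc]
        push_cast
        have : (0 : ℝ) ≤ K * (Z x : ℝ) ^ k := by positivity
        linarith
      · simp
  rw [Ex_add, Ex_const, Ex_mul_left, ← tape_Pr, a2] at a3
  have a4 : ((K * Z x ^ k : ℕ) : ℝ) * 2 ^ (ee x * d * k) * (1 / 2 ^ kk (d * k) x) =
      ((K * Z x ^ k : ℕ) : ℝ) / 2 := by
    rw [kk, pow_succ, show d * k * ee x = ee x * d * k by ring]
    field_simp
  rw [a4] at a3
  have a5 : (0 : ℝ) ≤ ((K * Z x ^ k : ℕ) : ℝ) := Nat.cast_nonneg _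
  have a6 : (0 : ℝ) ≤ ((ee x * d * k + sz x : ℕ) : ℝ) := Nat.cast_nonneg _
  rw [add_assoc, Nat.cast_add, Nat.cast_mul 6]
  simp only [Nat.cast_ofNat]
  linarith

lemma sz_input {m n : ℕ} (rs : Fin m → ℕ) (cs : Fin n → ℕ) (h : ∑ i, rs i = ∑ j, cs j) :
    sz (m :: n :: (List.ofFn rs ++ List.ofFn cs)) ≤
      9 * (m + n + Nat.clog 2 (∑ i, rs i + 2) + 1) ^ 2 := by
  have h1 : 1 ≤ Nat.clog 2 (∑ i, rs i + 2) := Nat.clog_pos (by norm_num) (by omega)
  have h2 := Nat.le_pow_clog (b := 2) (by norm_num) (∑ i, rs i + 2)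
  generalize Nat.clog 2 (∑ i, rs i + 2) = l at h1 h2
  have h3 : 2 ^ l ≤ 2 ^ (m + n + l + 1) := Nat.pow_le_pow_right (by norm_num) (by omega)
  have h4 : m + n + l + 1 < 2 ^ (m + n + l + 1) := Nat.lt_two_pow_self
  refine (sz_list_le _ (6 * (m + n + l + 1) + 1) fun a ha => sz_nat_le_of_lt_two_pow ?_).trans ?_
  · simp only [List.mem_cons, List.mem_append, List.mem_ofFn] at ha
    rcases ha with rfl | rfl | ⟨i, rfl⟩ | ⟨j, rfl⟩
    · omega
    · omega
    · have := Finset.single_le_sum (f := rs) (fun _ _ => Nat.zero_le _) (Finset.mem_univ i)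
      omega
    · have := Finset.single_le_sum (f := cs) (fun _ _ => Nat.zero_le _) (Finset.mem_univ j)
      omega
  · simp only [List.length_cons, List.length_append, List.length_ofFn]
    have : m + n + 1 + 1 ≤ m + n + l + 1 := by omega
    have h5 : 1 ≤ m + n + l + 1 := by omega
    generalize m + n + l + 1 = S at this h5
    nlinarith

/-- An exact uniform sampler for contingency tables in polynomial expected time on the unit-cost word RAM: one randomized program and constants c₀, c₁, C, d such that for all margins r, c of equal total N, writing S = m+n+⌈log₂(N+2)⌉+1, given the words m, n, r, c with word length c₀·S^c₁ the expected number of instructions is at most C·S^d, every halting run outputs (row by row) a table with these margins, and each such table is output with probability exactly one over the number of tables. -/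
theorem result :
    ∃ (P : Crest.WordRAM.Program) (c₀ c₁ C d : ℕ),
      ∀ (m n : ℕ) (rs : Fin m → ℕ) (cs : Fin n → ℕ), ∑ i, rs i = ∑ j, cs j →
        Crest.WordRAM.expectedTime P (c₀ * (m + n + Nat.clog 2 (∑ i, rs i + 2) + 1) ^ c₁)
            (m :: n :: (List.ofFn rs ++ List.ofFn cs))
          ≤ ((C * (m + n + Nat.clog 2 (∑ i, rs i + 2) + 1) ^ d : ℕ) : ENNReal) ∧
        (∀ (ρ : ℕ → ℕ) (T : ℕ) (out : List ℕ),
          Crest.WordRAM.HaltsWithin P (c₀ * (m + n + Nat.clog 2 (∑ i, rs i + 2) + 1) ^ c₁) ρ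
            (m :: n :: (List.ofFn rs ++ List.ofFn cs)) T out →
          ∃ X : Fin m → Fin n → ℕ, IsTable rs cs X ∧ out = (List.ofFn fun i => List.ofFn (X i)).flatten) ∧
        ∀ X : Fin m → Fin n → ℕ, IsTable rs cs X →
          Crest.WordRAM.probHaltsWith P (c₀ * (m + n + Nat.clog 2 (∑ i, rs i + 2) + 1) ^ c₁)
              (m :: n :: (List.ofFn rs ++ List.ofFn cs))
              (fun out => out = (List.ofFn fun i => List.ofFn (X i)).flatten)
            = 1 / (numBoundedTables rs cs (fun _ _ => ∑ i, rs i) : ℝ) := by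
  obtain ⟨P, κ, W, ⟨c, k, hW⟩, hP⟩ := exists_prog
  refine ⟨P, c * 9 ^ k, 2 * k, c * 9 ^ k, 2 * k, fun m n rs cs h => ?_⟩
  have h1 := (hW _).trans (Nat.mul_le_mul_left c (Nat.pow_le_pow_left (sz_input rs cs h) k))
  rw [mul_pow, ← pow_mul, ← mul_assoc] at h1
  have e1 : pr (m :: n :: (List.ofFn rs ++ List.ofFn cs)) = List.ofFn rs := by simp [pr]
  have e2 : pc (m :: n :: (List.ofFn rs ++ List.ofFn cs)) = List.ofFn cs := by simp [pc]
  obtain ⟨t₀, t, Head, hw, H, ht⟩ := hP _ _ h1 (by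
    rw [e1, e2]
    intro ω y hy a ha
    obtain ⟨X, hX, rfl⟩ := round_sound rs cs h _ ω hy
    simp only [flat, List.mem_flatten, List.mem_ofFn] at ha
    obtain ⟨_, ⟨i, rfl⟩, ha⟩ := ha
    obtain ⟨j, rfl⟩ := List.mem_ofFn.1 ha
    refine ⟨rs i, by simp, ?_⟩
    rw [← hX.1 i]
    exact Finset.single_le_sum (f := X i) (fun _ _ => Nat.zero_le _) (Finset.mem_univ j))
  rw [ln, e1, e2] at H
  rw [ln, e1, e2] at ht
  have hk : 1 ≤ kk κ (m :: n :: (List.ofFn rs ++ List.ofFn cs)) := Nat.le_add_left _ _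
  generalize kk κ (m :: n :: (List.ofFn rs ++ List.ofFn cs)) = k' at H ht hk
  have hs := round_success (List.ofFn rs) (List.ofFn cs) hk
  have hl : 0 < rLen (List.ofFn rs) (List.ofFn cs) k' := by unfold rLen; omega
  refine ⟨(H.time hw hl (by linarith)).trans ?_, fun ρ T out ho => ?_, fun X hX => ?_⟩
  · rw [← ENNReal.ofReal_natCast]
    refine ENNReal.ofReal_le_ofReal ?_
    have h0 : 0 ≤ (t₀ : ℝ) + Ex (rLen (List.ofFn rs) (List.ofFn cs) k') fun ω => t ω :=
      add_nonneg (Nat.cast_nonneg _) (Ex_nonneg fun _ _ => Nat.cast_nonneg _)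
    refine le_trans ?_ (ht.trans (Nat.cast_le.2 h1))
    rw [div_le_iff₀ (by linarith)]
    nlinarith
  · obtain ⟨ω, -, hω⟩ := H.sound ρ T out ho
    exact round_sound rs cs h _ ω hω
  · exact (H.prob hw hl (by linarith) (flat X)).trans (round_ratio rs cs h hk hX)

end Crest.Agent.S0481
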