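import Crest.Statements.S0492
import Crest.Agent.R318N.LP

set_option autoImplicit false
open Crest.BinPacking
open Crest Crest.LogicCS

namespace Crest.Agent.S0492

/-- For every natural number c there is a bin-packing instance, given by distinct rational sizes in (1/6, 1] with positive multiplicities, and a natural number B such that the type configuration linear program has optimal value exactly B (some feasible solution costs B, none costs less), the configuration program on sets of item copies also has optimal value exactly B, and the item copies cannot be packed into B + c unit bins. -/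
theorem result (c : ℕ) :
    ∃ (m : ℕ) (σ : Fin m → ℚ) (mult : Fin m → ℕ) (B : ℕ),
      Function.Injective σ ∧ (∀ j, 0 < mult j) ∧ (∀ j, 1 / 6 < σ j ∧ σ j ≤ 1) ∧
      (∃ z, TypeLPFeasible σ mult z ∧ typeLPCost z = B) ∧
      (∀ z, TypeLPFeasible σ mult z → (B : ℝ) ≤ typeLPCost z) ∧
      (∃ y : Finset ((j : Fin m) × Fin (mult j)) → ℝ,
        CopyLPFeasible (fun i => σ i.1) y ∧ copyLPCost y = B) ∧
      (∀ y : Finset ((j : Fin m) × Fin (mult j)) → ℝ,
        CopyLPFeasible (fun i => σ i.1) y → (B : ℝ) ≤ copyLPCost y) ∧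
      ¬ PacksInto (fun i : (j : Fin m) × Fin (mult j) => σ i.1) (B + c) := by
  set g := R318N.k4.tower (18 * c + 1) (2 * (18 * c) + 2)
  have hg : g.Bd := R318N.k4.tower_bd _ _
  have hb := hg.bnd (18 * c + 1)
  have hc := hg.card_eq (18 * c + 1)
  have hno := R318N.not_packs hb hc
    (R318N.Gad.top_no hg (R318N.k4.tower_no (by decide) R318N.k4_no _ _))
  have hy := R318N.cov_of_yes hb hc
    (R318N.Gad.top_yes _ hg (R318N.k4.tower_yes (by decide) R318N.k4_yes _ _))
  obtain ⟨m, σ, mult, e, h1, h2, h3⟩ := R318N.exists_types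
    (R318N.item (g.tY (18 * c + 1)) (g.tX (18 * c + 1)) (g.tL (18 * c + 1)) (3 * g.R))
  have hy' := hy.congr e h3
  have hJ : Fintype.card (Fin 2 × (Option g.N ⊕ Fin (18 * c + 1))) =
      2 * Fintype.card (Option g.N ⊕ Fin (18 * c + 1)) := by
    rw [Fintype.card_prod, Fintype.card_fin]
  have hw : ∀ i : (j : Fin m) × Fin (mult j), 39 * (R318N.wt (σ i.1) : ℚ) ≤ 760 * σ i.1 :=
    fun i => by rw [h3, hb.wt]; exact hb.wt_le _
  have hs : ∑ i : (j : Fin m) × Fin (mult j), R318N.wt (σ i.1) =
      19 * Fintype.card (Option g.N ⊕ Fin (18 * c + 1)) := by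
    rw [← R318N.sum_cls hc]
    exact Fintype.sum_equiv e _ _ fun i => by rw [h3, hb.wt]
  refine ⟨m, σ, mult, _, h1, h2, fun j => ?_, R318N.type_feas two_pos hJ hy',
    R318N.type_low (w := fun j => R318N.wt (σ j)) (fun j => hw ⟨j, ⟨0, h2 j⟩⟩) ?_,
    R318N.copy_feas two_pos hJ hy', R318N.copy_low hw hs,
    fun hp => hno (R318N.packs_congr e.symm (fun i => ?_) hp)⟩
  · rw [h3 ⟨j, ⟨0, h2 j⟩⟩]; exact hb.range _
  · rw [← hs, Fintype.sum_sigma]; simp
  · rw [h3, Equiv.apply_symm_apply]

end Crest.Agent.S0492
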