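import Crest.Statements.S0521
import Crest.Agent.R335.C8
import Crest.Agent.R335.BrE
import Crest.Agent.R335.BrS2

set_option autoImplicit false
open Crest.MathPhysics.ThreeBody
open Crest Crest.MathPhysics

namespace Crest.Agent.S0521

/-- For every sufficiently large real `D` there is `Z₀ ∈ ℕ` such that for every natural number `Z ≥ Z₀`, the three-electron Coulomb Hamiltonian with two nuclei of charge `Z` at `(0, 0, D/Z)` and `(0, 0, -D/Z)` in ℝ³ has a variational ground state over all antisymmetric spinful states whose spin-summed one-body density is not the density of any countable mixture of ground states of three noninteracting electrons in one real, spin-independent potential of class L^(3/2) + L^∞ on ℝ³. -/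
theorem result :
    ∃ D₀ : ℝ, ∀ D : ℝ, D₀ ≤ D → ∃ Z₀ : ℕ, ∀ Z : ℕ, Z₀ ≤ Z →
      ∃ Ψ : Wave3, IsGroundState (coulombPotential Z (EuclideanSpace.single 2 (D / Z))
          (EuclideanSpace.single 2 (-(D / Z)))) Ψ ∧ ¬ HasEnsembleRep Ψ := by
  obtain ⟨D₀, h⟩ := R335.main_real
  refine ⟨D₀, fun D hD => ?_⟩
  obtain ⟨ε₀, h0, h⟩ := h D hD
  obtain ⟨N, hN⟩ := exists_nat_gt (1 / ε₀)
  refine ⟨N + 1, fun Z hZ => ?_⟩
  have hZ0 : 0 < Z := by omega
  have hZ1 : (1 : ℝ) ≤ Z := by exact_mod_cast hZ0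
  have hb : (0 : ℝ) < Z := by linarith
  have hZN : (N : ℝ) + 1 ≤ Z := by exact_mod_cast hZ
  have hε : 1 / (Z : ℝ) ≤ ε₀ := by
    rw [div_le_iff₀ hb]
    rw [div_lt_iff₀ h0] at hN
    nlinarith
  obtain ⟨ψ, g, hψ, hn⟩ := h (1 / Z) (by positivity) hε
  obtain ⟨Ψ, h1, h2⟩ := R335.br_gs
    ((R335.fb_U3 D (ε := 1 / Z) (by positivity) ((div_le_one hb).2 hZ1)).scT hb)
    (fun p => congrArg _ (R335.U3_cyc D _ ((Z : ℝ) • p))) (hψ.scT hb)
  refine ⟨Ψ, by rwa [R335.coulomb_eq D hZ0], fun hr => hn ?_⟩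
  have h3 := (R335.br_ens hr (R335.measurable_rho3 (hψ.scT hb).h1.m) (R335.rho3_nonneg _)
    h2).scale (inv_pos.2 hb)
  convert h3 using 2 with x
  rw [R335.rho3_scT hb, smul_inv_smul₀ hb.ne']
  field_simp

end Crest.Agent.S0521
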